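import Crest.Agent.H6.ZT1

/-! The Cayley complex of a triangle presentation: covering, CW structure (task T1a). -/

namespace Crest.Agent.H6.ZT

open unitInterval Crest.Agent.Lead.ZT Set

variable {G S R : Type} [Group G] (gen : S → G) (rel : R → S × S × S)

instance : MulAction G (Sp gen rel) where
  smul h x := Pt.map (h * ·) x
  one_smul x := by
    change Pt.map _ x = x
    rcases x with g | _ | _ <;> simp [Pt.map]
  mul_smul h k x := by
    change Pt.map _ x = Pt.map _ (Pt.map _ x)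
    rcases x with g | _ | _ <;> simp [Pt.map, mul_assoc]

theorem pos_I {t : I} (h : t ≠ 0 ∧ t ≠ 1) : 0 < (t : ℝ) * (1 - t) :=
  mul_pos (lt_of_le_of_ne t.2.1 fun e => h.1 (Subtype.ext e.symm))
    (sub_pos.2 (lt_of_le_of_ne t.2.2 fun e => h.2 (Subtype.ext e)))

variable (hrel : ∀ r, gen (rel r).1 * gen (rel r).2.1 = gen (rel r).2.2)

theorem e_eq (g s t h) : (Pt.e g s t h : Sp gen rel) = (cm gen rel hrel).c1 g s t := by
  simp [cm, e1, h]

theorem f_eq (g r a b h) : (Pt.f g r a b h : Sp gen rel) = (cm gen rel hrel).c2 g r (a, b) := by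
  simp [cm, e2, h]

theorem smul_c1 (h g : G) (s t) :
    h • (cm gen rel hrel).c1 g s t = (cm gen rel hrel).c1 (h * g) s t :=
  map_e1 (fun _ _ => (mul_assoc _ _ _).symm) g s t

theorem smul_c2 (h g : G) (r z) :
    h • (cm gen rel hrel).c2 g r z = (cm gen rel hrel).c2 (h * g) r z :=
  map_e2 rel (fun _ _ => (mul_assoc _ _ _).symm) g r z

include hrel in
theorem disj (x : Sp gen rel) :
    ∃ U ∈ nhds x, ∀ g : G, ((g • ·) '' U ∩ U).Nonempty → g = 1 := by
  classical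
  have key : ∀ (v u w : ℝ), 0 ≤ v → 0 ≤ u → 0 ≤ w → ∃ Λ : (G → ℝ) → C(Sp gen rel, ℝ),
      (∀ β g, Λ β (.v g) = v * β g) ∧
      (∀ β g s (t : I), Λ β ((cm gen rel hrel).c1 g s t) = v * ((1 - t) * β g + t * β (g * gen s)) +
        t * (1 - t) * u * β g) ∧
      (∀ β g r (a b : I), Λ β ((cm gen rel hrel).c2 g r (a, b)) =
        (1 - b) * Λ β ((cm gen rel hrel).c2 g r (a, 0)) + b * Λ β ((cm gen rel hrel).c2 g r (a, 1)) +
        a * (1 - a) * (b * (1 - b)) * w * β g) ∧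
      ∀ g, 0 < Λ (fun k => if k = g then 1 else -1) x →
        ∃ U ∈ nhds x, ∀ g : G, ((g • ·) '' U ∩ U).Nonempty → g = 1 := by
    intro v u w hv hu hw
    obtain ⟨Λ, k0, k1, k2⟩ := exists_fun (univ_cm gen rel hrel) hrel v (fun _ => .const _ u)
      (fun _ => .const _ w)
    simp only [ContinuousMap.const_apply] at k1 k2
    refine ⟨Λ, k0, k1, k2, fun g hg => ⟨_, (isOpen_lt continuous_const (Λ _).continuous).mem_nhds hg,
      ?_⟩⟩
    rintro h ⟨_, ⟨y, h1, rfl⟩, h2⟩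
    by_contra hh
    set β : G → ℝ := fun k => if k = g then 1 else -1
    have hβ : ∀ k, β k + β (h * k) ≤ 0 := by
      intro k
      simp only [β]
      split_ifs with h1 h2 <;> try norm_num
      exact hh (by simpa [h1] using h2)
    refine absurd (add_pos (show 0 < Λ β y from h1) (show 0 < Λ β (h • y) from h2)) (not_lt.2 ?_)
    refine ind (univ_cm gen rel hrel) (P := fun y => Λ β y + Λ β (h • y) ≤ 0) (fun k => ?_)
      (fun k s t => ?_) (fun k r a b h3 h4 => ?_) y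
    · have := mul_nonpos_of_nonneg_of_nonpos hv (hβ k)
      rw [k0, show h • (cm gen rel hrel).pt k = (cm gen rel hrel).pt (h * k) from rfl, k0]
      linarith
    · have h0 := t.2.1
      have h1 := sub_nonneg.2 t.2.2
      have e1 := mul_nonpos_of_nonneg_of_nonpos (mul_nonneg hv h1) (hβ k)
      have e2 := mul_nonpos_of_nonneg_of_nonpos (mul_nonneg hv h0) (hβ (k * gen s))
      have e3 := mul_nonpos_of_nonneg_of_nonpos (mul_nonneg (mul_nonneg h0 h1) hu) (hβ k)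
      rw [smul_c1, k1, k1, mul_assoc h]
      linarith
    · have h0 := b.2.1
      have h1 := sub_nonneg.2 b.2.2
      have e1 := mul_nonpos_of_nonneg_of_nonpos h1 h3
      have e2 := mul_nonpos_of_nonneg_of_nonpos h0 h4
      have e3 := mul_nonpos_of_nonneg_of_nonpos (mul_nonneg (mul_nonneg (mul_nonneg a.2.1
        (sub_nonneg.2 a.2.2)) (mul_nonneg h0 h1)) hw) (hβ k)
      rw [smul_c2] at e1 e2 ⊢
      rw [k2, k2 _ (h * k)]
      linarith
  rcases x with g | ⟨g, s, t, h⟩ | ⟨g, r, a, b, h⟩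
  · obtain ⟨Λ, k0, -, -, k⟩ := key 1 0 0 zero_le_one le_rfl le_rfl
    exact k g (by simp [k0])
  · obtain ⟨Λ, -, k1, -, k⟩ := key 0 1 0 le_rfl zero_le_one le_rfl
    exact k g (by rw [e_eq gen rel hrel, k1]; simpa using pos_I h)
  · obtain ⟨Λ, -, k1, k2, k⟩ := key 0 0 1 le_rfl le_rfl zero_le_one
    refine k g ?_
    rw [f_eq gen rel hrel, k2, CM.c2_top]
    rcases bot_cases (cm gen rel hrel) r a with ⟨t, e⟩ | ⟨t, e⟩ <;> rw [e, k1, k1] <;>
      simpa using mul_pos (pos_I h.1) (pos_I h.2)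

def g0 (S : Type) : S → Unit := fun _ => 1

/-- the presentation complex. -/
abbrev X (rel : R → S × S × S) : Type := Sp (g0 S) rel

theorem t2 : T2Space (X rel) := by
  classical
  have hr : ∀ r, g0 S (rel r).1 * g0 S (rel r).2.1 = g0 S (rel r).2.2 := fun _ => rfl
  have hf : ∀ g r a b h (y : X rel), .f g r a b h ≠ y →
      ∃ F : C(X rel, ℝ), F (.f g r a b h) ≠ 0 ∧ F y = 0 := by
    intro g r a b h y hne
    have key : ∀ ψ : C(I × I, ℝ), ∃ F : C(X rel, ℝ), (∀ g, F (.v g) = 0) ∧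
        (∀ g s t h, F (.e g s t h) = 0) ∧ ∀ g r' a b h, F (.f g r' a b h) =
          if r' = r then a * (1 - a) * (b * (1 - b)) * ψ (a, b) else 0 := by
      intro ψ
      obtain ⟨Λ, k0, k1, k2⟩ := exists_fun (univ_cm _ rel hr) hr 0 0
        (fun r' => if r' = r then ψ else 0)
      refine ⟨Λ 1, fun g => (k0 1 g).trans (zero_mul _), fun g s t h => by simp [e_eq _ rel hr, k1],
        fun g r' a b h => ?_⟩
      rw [f_eq _ rel hr, k2, CM.c2_top]
      rcases bot_cases (cm _ rel hr) r' a with ⟨t, e⟩ | ⟨t, e⟩ <;> rw [e, k1, k1] <;>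
        split_ifs <;> simp
    have hpos := (mul_pos (pos_I h.1) (pos_I h.2)).ne'
    by_cases hy : ∃ a' b' h', y = .f g r a' b' h'
    · obtain ⟨a', b', h', rfl⟩ := hy
      obtain ⟨F, -, -, k⟩ := key ⟨fun z => dist z (a', b'), by fun_prop⟩
      refine ⟨F, ?_, by simp [k]⟩
      rw [k, if_pos rfl]
      refine mul_ne_zero hpos (show dist (a, b) (a', b') ≠ 0 from dist_ne_zero.2 ?_)
      rintro ⟨⟩
      exact hne rfl
    · obtain ⟨F, k0, k1, k⟩ := key 1
      refine ⟨F, by simpa [k] using hpos, ?_⟩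
      rcases y with g' | ⟨g', s, t, h'⟩ | ⟨g', r', a', b', h'⟩
      · exact k0 _
      · exact k1 _ _ _ _
      · rw [k, if_neg]
        rintro rfl
        exact hy ⟨_, _, _, rfl⟩
  have he : ∀ g s t h (y : X rel), .e g s t h ≠ y → (∀ g r a b h, y ≠ .f g r a b h) →
      ∃ F : C(X rel, ℝ), F (.e g s t h) ≠ 0 ∧ F y = 0 := by
    intro g s t h y hne hy'
    have key : ∀ ψ : C(I, ℝ), ∃ F : C(X rel, ℝ), (∀ g, F (.v g) = 0) ∧
        ∀ g s' t h, F (.e g s' t h) = if s' = s then t * (1 - t) * ψ t else 0 := by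
      intro ψ
      obtain ⟨Λ, k0, k1, -⟩ := exists_fun (univ_cm _ rel hr) hr 0
        (fun s' => if s' = s then ψ else 0) 0
      refine ⟨Λ 1, fun g => (k0 1 g).trans (zero_mul _), fun g s' t h => ?_⟩
      rw [e_eq _ rel hr, k1]
      split_ifs <;> simp
    have hpos := (pos_I h).ne'
    by_cases hy : ∃ t' h', y = .e g s t' h'
    · obtain ⟨t', h', rfl⟩ := hy
      obtain ⟨F, -, k⟩ := key ⟨fun z => dist z t', by fun_prop⟩
      refine ⟨F, ?_, by simp [k]⟩
      rw [k, if_pos rfl]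
      refine mul_ne_zero hpos (show dist t t' ≠ 0 from dist_ne_zero.2 ?_)
      rintro ⟨⟩
      exact hne rfl
    · obtain ⟨F, k0, k⟩ := key 1
      refine ⟨F, by simpa [k] using hpos, ?_⟩
      rcases y with g' | ⟨g', s', t', h'⟩ | ⟨g', r', a', b', h'⟩
      · exact k0 _
      · rw [k, if_neg]
        rintro rfl
        exact hy ⟨_, _, rfl⟩
      · exact absurd rfl (hy' _ _ _ _ _)
  have sep : ∀ x y : X rel, (∃ F : C(X rel, ℝ), F x ≠ 0 ∧ F y = 0) → ∃ F : C(X rel, ℝ), F x ≠ F y :=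
    fun x y ⟨F, h1, h2⟩ => ⟨F, h2 ▸ h1⟩
  have sep' : ∀ x y : X rel, (∃ F : C(X rel, ℝ), F y ≠ 0 ∧ F x = 0) → ∃ F : C(X rel, ℝ), F x ≠ F y :=
    fun x y ⟨F, h1, h2⟩ => ⟨F, h2 ▸ h1.symm⟩
  refine ⟨fun x y hxy => ?_⟩
  obtain ⟨F, hF⟩ : ∃ F : C(X rel, ℝ), F x ≠ F y := by
    rcases x with g | ⟨g, s, t, h⟩ | ⟨g, r, a, b, h⟩ <;>
      rcases y with g' | ⟨g', s', t', h'⟩ | ⟨g', r', a', b', h'⟩
    · exact absurd rfl hxy
    · exact sep' _ _ (he _ _ _ _ _ hxy.symm (by simp))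
    · exact sep' _ _ (hf _ _ _ _ _ _ hxy.symm)
    · exact sep _ _ (he _ _ _ _ _ hxy (by simp))
    · exact sep _ _ (he _ _ _ _ _ hxy (by simp))
    · exact sep' _ _ (hf _ _ _ _ _ _ hxy.symm)
    all_goals exact sep _ _ (hf _ _ _ _ _ _ hxy)
  exact separated_by_continuous F.continuous hF

/-- the affine parametrisation. -/
noncomputable def ap (x : ℝ) : I := projIcc 0 1 zero_le_one ((x + 1) / 2)

@[fun_prop] theorem ap_cont : Continuous ap := continuous_projIcc.comp (by fun_prop)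

theorem ap_val {x : ℝ} (h : |x| < 1) : (ap x : ℝ) = (x + 1) / 2 := by
  rw [abs_lt] at h
  rw [ap, projIcc_of_mem _ ⟨by linarith, by linarith⟩]

theorem ap_ne {x : ℝ} : (ap x ≠ 0 ∧ ap x ≠ 1) ↔ |x| < 1 := by
  rw [ap, Ne, Ne, projIcc_eq_zero, projIcc_eq_one, abs_lt, not_le, not_le]
  constructor <;> rintro ⟨h1, h2⟩ <;> constructor <;> linarith

theorem ap_surj {t : I} (h : t ≠ 0 ∧ t ≠ 1) : ∃ x, |x| < 1 ∧ ap x = t := by
  have : ap (2 * t - 1) = t := by rw [ap, show (2 * (t : ℝ) - 1 + 1) / 2 = t by ring, projIcc_val]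
  exact ⟨_, ap_ne.1 (this.symm ▸ h), this⟩

theorem ap_inj {x y : ℝ} (hx : |x| < 1) (hy : |y| < 1) (h : ap x = ap y) : x = y := by
  have := congrArg Subtype.val h
  rw [ap_val hx, ap_val hy] at this
  linarith

theorem mem_ball_iff {n : ℕ} {z : Fin n → ℝ} : z ∈ Metric.ball 0 1 ↔ ∀ i, |z i| < 1 := by
  rw [mem_ball_zero_iff, pi_norm_lt_iff one_pos]; rfl

/-- the cells. -/
def cell (S R : Type) : ℕ → Type
  | 0 => PUnit
  | 1 => S
  | 2 => R
  | _ + 3 => PEmpty

noncomputable def chi : ∀ n, cell S R n → (Fin n → ℝ) → X rel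
  | 0, _, _ => .v 1
  | 1, s, z => e1 (g0 S) 1 s (ap (z 0))
  | 2, r, z => e2 (g0 S) rel 1 r (ap (z 0), ap (z 1))
  | _ + 3, i, _ => i.elim

def lab : X rel → Σ n, cell S R n
  | .v _ => ⟨0, ⟨⟩⟩
  | .e _ s _ _ => ⟨1, s⟩
  | .f _ r _ _ _ => ⟨2, r⟩

theorem cw [Finite S] [Finite R] :
    ∃ _ : Topology.CWComplex (univ : Set (X rel)), Topology.RelCWComplex.Finite (univ : Set (X rel)) ∧
      ∀ n, 2 < n → IsEmpty (Topology.RelCWComplex.cell (univ : Set (X rel)) n) := by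
  have := t2 rel
  have h1 : ∀ s z, z ∈ Metric.ball 0 1 → ∃ h, chi rel 1 s z = .e 1 s (ap (z 0)) h :=
    fun s z hz => ⟨ap_ne.2 (mem_ball_iff.1 hz 0), dif_pos _⟩
  have h2 : ∀ r z, z ∈ Metric.ball 0 1 → ∃ h, chi rel 2 r z = .f 1 r (ap (z 0)) (ap (z 1)) h :=
    fun s z hz => ⟨⟨ap_ne.2 (mem_ball_iff.1 hz 0), ap_ne.2 (mem_ball_iff.1 hz 1)⟩, dif_pos _⟩
  have h3 : ∀ g s t, (lab rel (e1 (g0 S) g s t)).1 < 2 := by
    intro g s t
    unfold e1
    split_ifs <;> simp [lab]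
  refine exists_cw (cell S R) (chi rel) (lab rel) 2 ?_ ?_ ?_ ?_ ?_ ?_ ?_
  · rintro (_ | _ | _ | n) h <;> first | omega | exact inferInstanceAs (IsEmpty PEmpty)
  · rintro (_ | _ | _ | n)
    exacts [inferInstanceAs (Finite PUnit), ‹Finite S›, ‹Finite R›, inferInstanceAs (Finite PEmpty)]
  · rintro (_ | _ | _ | n) i
    · exact continuous_const
    · exact (((continuous_iff _ rel).1 continuous_id).1 1 i).comp (f := fun z : Fin 1 → ℝ => ap (z 0))
        (by fun_prop)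
    · exact (((continuous_iff _ rel).1 continuous_id).2 1 i).comp
        (f := fun z : Fin 2 → ℝ => (ap (z 0), ap (z 1))) (by fun_prop)
    · exact i.elim
  · rintro (_ | _ | _ | n) i z hz z' hz' e
    · exact Subsingleton.elim _ _
    · obtain ⟨_, k⟩ := h1 i z hz
      obtain ⟨_, k'⟩ := h1 i z' hz'
      have := k.symm.trans (e.trans k')
      injection this with _ _ k1
      funext j
      fin_cases j
      exact ap_inj (mem_ball_iff.1 hz 0) (mem_ball_iff.1 hz' 0) k1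
    · obtain ⟨_, k⟩ := h2 i z hz
      obtain ⟨_, k'⟩ := h2 i z' hz'
      have := k.symm.trans (e.trans k')
      injection this with _ _ k1 k2
      funext j
      fin_cases j
      · exact ap_inj (mem_ball_iff.1 hz 0) (mem_ball_iff.1 hz' 0) k1
      · exact ap_inj (mem_ball_iff.1 hz 1) (mem_ball_iff.1 hz' 1) k2
    · exact i.elim
  · rintro (_ | _ | _ | n) i z hz
    · rfl
    · obtain ⟨_, k⟩ := h1 i z hz
      exact congrArg (lab rel) k
    · obtain ⟨_, k⟩ := h2 i z hz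
      exact congrArg (lab rel) k
    · exact i.elim
  · rintro (_ | _ | _ | n) i z hz
    · exact absurd (mem_ball_iff.2 fun j => j.elim0) hz
    · have : ¬ (ap (z 0) ≠ 0 ∧ ap (z 0) ≠ 1) := fun h =>
        hz (mem_ball_iff.2 fun j => by fin_cases j; exact ap_ne.1 h)
      change (lab rel (e1 (g0 S) 1 i (ap (z 0)))).1 < 1
      rw [e1, dif_neg this]
      split_ifs <;> simp [lab]
    · have : ¬ ((ap (z 0) ≠ 0 ∧ ap (z 0) ≠ 1) ∧ ap (z 1) ≠ 0 ∧ ap (z 1) ≠ 1) := fun h =>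
        hz (mem_ball_iff.2 fun j => by fin_cases j; exacts [ap_ne.1 h.1, ap_ne.1 h.2])
      change (lab rel (e2 (g0 S) rel 1 i (ap (z 0), ap (z 1)))).1 < 2
      rw [e2, dif_neg this]
      split_ifs <;> exact h3 _ _ _
    · exact i.elim
  · rintro (g | ⟨g, s, t, h⟩ | ⟨g, r, a, b, h⟩)
    · exact ⟨0, by simp, rfl⟩
    · obtain ⟨x, hx, rfl⟩ := ap_surj h
      have hz : ![x] ∈ Metric.ball 0 1 := mem_ball_iff.2 fun j => by fin_cases j; exact hx
      exact ⟨![x], hz, (h1 s _ hz).2⟩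
    · obtain ⟨x, hx, rfl⟩ := ap_surj h.1
      obtain ⟨y, hy, rfl⟩ := ap_surj h.2
      have hz : ![x, y] ∈ Metric.ball 0 1 :=
        mem_ball_iff.2 fun j => by fin_cases j; exacts [hx, hy]
      exact ⟨![x, y], hz, (h2 r _ hz).2⟩

theorem t1a : T1a := by
  intro G S R _ _ _ gen rel hrel
  refine ⟨Sp gen rel, inferInstance, cm gen rel hrel, univ_cm gen rel hrel, fun hE => ?_⟩
  let p : Sp gen rel → X rel := Pt.map (g0 G)
  have hφ : ∀ (g : G) s, g0 G (g * gen s) = g0 G g * g0 S s := fun _ _ => rfl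
  have hs : Function.Surjective p := by
    rintro (g | ⟨g, s, t, h⟩ | ⟨g, r, a, b, h⟩)
    exacts [⟨.v 1, rfl⟩, ⟨.e 1 s t h, rfl⟩, ⟨.f 1 r a b h, rfl⟩]
  have hp : IsQuotientCoveringMap p G :=
    { toIsQuotientMap := ⟨Topology.isCoinducing_iff.2 fun U => ⟨fun h => by
          have := (continuous_iff gen rel).1 (isOpen_iff_continuous_mem.1 h)
          refine isOpen_iff_continuous_mem.2 ((continuous_iff _ rel).2 ⟨fun g s => ?_, fun g r => ?_⟩)
          · exact (this.1 1 s).congr fun t => congrArg (· ∈ U) (map_e1 hφ 1 s t)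
          · exact (this.2 1 r).congr fun z => congrArg (· ∈ U) (map_e2 rel hφ 1 r z),
        fun h => h.preimage (continuous_map rel hφ)⟩, hs⟩
      continuous_const_smul := fun h => continuous_map rel fun _ _ => (mul_assoc _ _ _).symm
      apply_eq_iff_mem_orbit := by
        intro x y
        constructor
        · intro h
          rcases x with g | ⟨g, s, t, k⟩ | ⟨g, r, a, b, k⟩ <;>
            rcases y with g' | ⟨g', s', t', k'⟩ | ⟨g', r', a', b', k'⟩ <;> cases h <;>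
            exact ⟨g * g'⁻¹, by change Pt.map _ _ = _; simp [Pt.map]⟩
        · rintro ⟨h, rfl⟩
          rcases y with g | _ | _ <;> rfl
      disjoint := disj gen rel hrel }
  obtain ⟨_, h1, h2⟩ := cw rel
  exact ⟨X rel, inferInstance, inferInstance, t2 rel, h1, h2,
    ⟨Sp gen rel, inferInstance, p, hE, hp.isCoveringMap, hs⟩, p (.v 1),
    ⟨(hp.fundamentalGroupEquiv ⟨.v 1, rfl⟩).trans (MulEquiv.inv' G).symm⟩⟩

end Crest.Agent.H6.ZT
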