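import Mathlib

/-! Primitive recursiveness of rational arithmetic for Mathlib's `Primcodable ℚ`
(the instance coming from `Denumerable ℚ`). -/

set_option autoImplicit false

namespace Crest.Agent.H6Rat

open Encodable

/-- the `Encodable` code of a rational -/
def eE (q : ℚ) : ℕ := @encode ℚ Rat.instEncodable q

/-- the `Primcodable` code of a rational -/
def eD (q : ℚ) : ℕ := @encode ℚ (Primcodable.toEncodable) q

def intCode (z : ℤ) : ℕ := if 0 ≤ z then 2 * z.toNat else 2 * (-z).toNat - 1

lemma encode_int (z : ℤ) : @encode ℤ Int.encodable z = intCode z := by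
  cases z with
  | ofNat n =>
    have : @encode ℤ Int.encodable (Int.ofNat n) = 2 * n := rfl
    rw [this]; simp [intCode]
  | negSucc n =>
    have : @encode ℤ Int.encodable (Int.negSucc n) = 2 * n + 1 := rfl
    rw [this]
    have h : ¬ (0 : ℤ) ≤ Int.negSucc n := by omega
    simp only [intCode, h, if_false]
    omega

lemma eE_eq (q : ℚ) : eE q = Nat.pair (intCode q.num) q.den := by
  rw [← encode_int]; rfl

/-- range of `eE` -/
def S (m : ℕ) : Prop := 0 < m.unpair.2 ∧ Nat.gcd ((m.unpair.1 + 1) / 2) m.unpair.2 = 1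

instance : DecidablePred S := fun m => by unfold S; infer_instance

lemma intCode_natAbs (z : ℤ) : (intCode z + 1) / 2 = z.natAbs := by
  unfold intCode; split_ifs <;> omega

def intDecode (x : ℕ) : ℤ := if x % 2 = 0 then (x / 2 : ℕ) else -((x + 1) / 2 : ℕ)

lemma intCode_intDecode (x : ℕ) : intCode (intDecode x) = x := by
  unfold intCode intDecode; split_ifs <;> omega

lemma S_iff (m : ℕ) : S m ↔ m ∈ Set.range eE := by
  constructor
  · rintro ⟨h1, h2⟩
    refine ⟨⟨intDecode m.unpair.1, m.unpair.2, h1.ne', ?_⟩, ?_⟩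
    · rw [← intCode_natAbs, intCode_intDecode]; exact h2
    · rw [eE_eq]; simp [intCode_intDecode]
  · rintro ⟨q, rfl⟩
    rw [eE_eq]
    refine ⟨by simpa using q.den_pos, ?_⟩
    simp only [Nat.unpair_pair, intCode_natAbs]
    exact q.reduced

lemma eD_eq (q : ℚ) : eD q = Nat.count S (eE q) := by
  have : eD q = (List.range (eE q)).countP
      (fun m => @decide (m ∈ Set.range eE) (@decidableRangeEncode ℚ Rat.instEncodable m)) := rfl
  rw [this, Nat.count]
  congr 1
  funext m
  simp [S_iff]

lemma primrec_gcd : Primrec₂ Nat.gcd := by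
  have h : Primrec fun p : ℕ × ℕ =>
      Nat.findGreatest (fun d => p.1 % d = 0 ∧ p.2 % d = 0) (p.1 + p.2) := by
    apply Primrec.nat_findGreatest (p := fun (p : ℕ × ℕ) d => p.1 % d = 0 ∧ p.2 % d = 0)
      (Primrec.nat_add.comp Primrec.fst Primrec.snd)
    apply PrimrecPred.primrecRel (p := fun x : (ℕ × ℕ) × ℕ => x.1.1 % x.2 = 0 ∧ x.1.2 % x.2 = 0)
    exact PrimrecPred.and
      (Primrec.eq.comp (Primrec.nat_mod.comp (Primrec.fst.comp Primrec.fst) Primrec.snd)
        (Primrec.const 0))
      (Primrec.eq.comp (Primrec.nat_mod.comp (Primrec.snd.comp Primrec.fst) Primrec.snd)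
        (Primrec.const 0))
  refine Primrec₂.mk (h.of_eq fun p => ?_)
  obtain ⟨a, b⟩ := p
  simp only
  rcases Nat.eq_zero_or_pos (a + b) with h0 | h0
  · have ha : a = 0 := by omega
    have hb : b = 0 := by omega
    subst ha hb; simp
  · have hg : 0 < Nat.gcd a b := Nat.gcd_pos_iff.mpr (by omega)
    rw [Nat.findGreatest_eq_iff]
    refine ⟨?_, fun _ => ⟨Nat.mod_eq_zero_of_dvd (Nat.gcd_dvd_left a b),
      Nat.mod_eq_zero_of_dvd (Nat.gcd_dvd_right a b)⟩, ?_⟩
    · exact Nat.le_of_dvd h0 (dvd_add (Nat.gcd_dvd_left a b) (Nat.gcd_dvd_right a b))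
    · rintro n hn - ⟨h1, h2⟩
      have := Nat.le_of_dvd hg (Nat.dvd_gcd (Nat.dvd_of_mod_eq_zero h1) (Nat.dvd_of_mod_eq_zero h2))
      omega

lemma primrec_S : PrimrecPred S := by
  unfold S
  exact PrimrecPred.and
    (Primrec.nat_lt.comp (Primrec.const 0) (Primrec.snd.comp Primrec.unpair))
    (Primrec.eq.comp (primrec_gcd.comp
      (Primrec.nat_div.comp (Primrec.succ.comp (Primrec.fst.comp Primrec.unpair)) (Primrec.const 2))
      (Primrec.snd.comp Primrec.unpair)) (Primrec.const 1))

lemma primrec_count : Primrec (Nat.count S) := by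
  have := Primrec.list_length.comp ((Primrec.listFilter primrec_S).comp Primrec.list_range)
  refine this.of_eq fun n => ?_
  rw [Nat.count, List.countP_eq_length_filter]

lemma primrec_eD : Primrec eD := Primrec.encode

lemma count_ge (n : ℕ) : n ≤ Nat.count S (Nat.pair n 1) := by
  induction n with
  | zero => exact Nat.zero_le _
  | succ n ih =>
    have h1 : S (Nat.pair n 1) := by simp [S]
    have h2 : Nat.pair n 1 + 1 ≤ Nat.pair (n + 1) 1 := Nat.pair_lt_pair_left 1 (Nat.lt_succ_self n)
    have h3 := Nat.count_monotone S h2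
    rw [Nat.count_succ, if_pos h1] at h3
    omega

lemma primrec_eE : Primrec eE := by
  apply Primrec.of_graph
  · refine ⟨fun q => Nat.pair (eD q + 1) 1,
      Primrec₂.natPair.comp (Primrec.succ.comp primrec_eD) (Primrec.const 1), fun q => ?_⟩
    change eE q ≤ Nat.pair (eD q + 1) 1
    by_contra hc
    have h1 := Nat.count_monotone S (not_le.mp hc).le
    have h2 := count_ge (eD q + 1)
    rw [← eD_eq] at h1
    omega
  · have : PrimrecRel fun (q : ℚ) (m : ℕ) => S m ∧ Nat.count S m = eD q := by
      apply PrimrecPred.primrecRel (p := fun x : ℚ × ℕ => S x.2 ∧ Nat.count S x.2 = eD x.1)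
      exact PrimrecPred.and (primrec_S.comp Primrec.snd)
        (Primrec.eq.comp (primrec_count.comp Primrec.snd) (primrec_eD.comp Primrec.fst))
    refine this.of_eq fun q m => ?_
    have hq : S (eE q) := (S_iff _).mpr ⟨q, rfl⟩
    constructor
    · rintro ⟨h1, h2⟩
      rw [eD_eq] at h2
      exact (Nat.count_injective h1 hq h2).symm
    · rintro rfl
      exact ⟨hq, (eD_eq q).symm⟩

lemma primrec_den : Primrec Rat.den :=
  (Primrec.snd.comp (Primrec.unpair.comp primrec_eE)).of_eq fun q => by simp [eE_eq]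

lemma primrec_numCode : Primrec fun q : ℚ => intCode q.num :=
  (Primrec.fst.comp (Primrec.unpair.comp primrec_eE)).of_eq fun q => by simp [eE_eq]

lemma primrec_numPos : Primrec fun q : ℚ => q.num.toNat := by
  have : Primrec fun x : ℕ => if x % 2 = 0 then x / 2 else 0 :=
    Primrec.ite (Primrec.eq.comp (Primrec.nat_mod.comp Primrec.id (Primrec.const 2))
      (Primrec.const 0)) (Primrec.nat_div.comp Primrec.id (Primrec.const 2)) (Primrec.const 0)
  refine (this.comp primrec_numCode).of_eq fun q => ?_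
  unfold intCode; split_ifs <;> omega

lemma primrec_numNeg : Primrec fun q : ℚ => (-q.num).toNat := by
  have : Primrec fun x : ℕ => if x % 2 = 0 then 0 else (x + 1) / 2 :=
    Primrec.ite (Primrec.eq.comp (Primrec.nat_mod.comp Primrec.id (Primrec.const 2))
      (Primrec.const 0)) (Primrec.const 0)
      (Primrec.nat_div.comp Primrec.succ (Primrec.const 2))
  refine (this.comp primrec_numCode).of_eq fun q => ?_
  unfold intCode; split_ifs <;> omega

/-- the value of a triple -/
def val (a b d : ℕ) : ℚ := ((a : ℚ) - b) / d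

lemma val_rep (q : ℚ) : val q.num.toNat (-q.num).toNat q.den = q := by
  unfold val
  have : ((q.num.toNat : ℚ) - ((-q.num).toNat : ℚ)) = (q.num : ℚ) := by
    have h : ((q.num.toNat : ℤ) - ((-q.num).toNat : ℤ)) = q.num := by omega
    exact_mod_cast congrArg (fun z : ℤ => (z : ℚ)) h
  rw [this, Rat.num_div_den]

def valCode (a b d : ℕ) : ℕ :=
  if d = 0 then Nat.pair 0 1 else
    Nat.pair (if b ≤ a then 2 * ((a - b) / Nat.gcd (a - b + (b - a)) d)
      else 2 * ((b - a) / Nat.gcd (a - b + (b - a)) d) - 1) (d / Nat.gcd (a - b + (b - a)) d)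

lemma eE_val (a b d : ℕ) : eE (val a b d) = valCode a b d := by
  rw [eE_eq]
  unfold valCode val
  split_ifs with hd hab
  · subst hd; simp [intCode]
  · have h1 : ((a : ℚ) - b) / d = mkRat ((a - b : ℕ) : ℤ) d := by
      rw [Rat.mkRat_eq_div]; push_cast [hab]; rfl
    have h2 : b - a = 0 := by omega
    rw [h1, Rat.num_mkRat, Rat.den_mkRat, if_neg hd, if_neg hd, h2, add_zero, Int.natAbs_natCast,
      Nat.gcd_comm d]
    congr 1
  · have hab' : a ≤ b := by omega
    have h1 : ((a : ℚ) - b) / d = mkRat (-((b - a : ℕ) : ℤ)) d := by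
      rw [Rat.mkRat_eq_div]; push_cast [hab']; ring
    have h2 : a - b = 0 := by omega
    rw [h1, Rat.num_mkRat, Rat.den_mkRat, if_neg hd, if_neg hd, h2, zero_add, Int.natAbs_neg,
      Int.natAbs_natCast, Nat.gcd_comm d]
    congr 1
    have hg : 0 < Nat.gcd (b - a) d := Nat.gcd_pos_of_pos_right _ (Nat.pos_of_ne_zero hd)
    have hdiv : 0 < (b - a) / Nat.gcd (b - a) d :=
      Nat.div_pos (Nat.le_of_dvd (by omega) (Nat.gcd_dvd_left _ _)) hg
    rw [Int.neg_ediv_of_dvd (Int.natCast_dvd_natCast.mpr (Nat.gcd_dvd_left _ _)),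
      ← Int.natCast_div]
    unfold intCode
    split_ifs <;> omega

lemma primrec_val {α : Type*} [Primcodable α] {f g h : α → ℕ} (hf : Primrec f) (hg : Primrec g)
    (hh : Primrec h) : Primrec fun x => val (f x) (g x) (h x) := by
  rw [← Primrec.encode_iff]
  have hG : Primrec fun x => Nat.gcd (f x - g x + (g x - f x)) (h x) :=
    primrec_gcd.comp (Primrec.nat_add.comp (Primrec.nat_sub.comp hf hg)
      (Primrec.nat_sub.comp hg hf)) hh
  have : Primrec fun x => valCode (f x) (g x) (h x) := by
    unfold valCode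
    refine Primrec.ite (Primrec.eq.comp hh (Primrec.const 0)) (Primrec.const _) ?_
    refine Primrec₂.natPair.comp ?_ (Primrec.nat_div.comp hh hG)
    refine Primrec.ite (Primrec.nat_le.comp hg hf) ?_ ?_
    · exact Primrec.nat_mul.comp (Primrec.const 2)
        (Primrec.nat_div.comp (Primrec.nat_sub.comp hf hg) hG)
    · exact Primrec.nat_sub.comp (Primrec.nat_mul.comp (Primrec.const 2)
        (Primrec.nat_div.comp (Primrec.nat_sub.comp hg hf) hG)) (Primrec.const 1)
  refine (primrec_count.comp this).of_eq fun x => ?_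
  rw [← eE_val, ← eD_eq]; rfl

variable {α : Type*} [Primcodable α]

lemma natCast {f : α → ℕ} (hf : Primrec f) : Primrec fun x => (f x : ℚ) :=
  (primrec_val hf (Primrec.const 0) (Primrec.const 1)).of_eq fun x => by simp [val]

lemma neg {f : α → ℚ} (hf : Primrec f) : Primrec fun x => -f x :=
  (primrec_val (primrec_numNeg.comp hf) (primrec_numPos.comp hf) (primrec_den.comp hf)).of_eq
    fun x => by
      conv_rhs => rw [← val_rep (f x)]
      unfold val; ring

lemma add {f g : α → ℚ} (hf : Primrec f) (hg : Primrec g) : Primrec fun x => f x + g x :=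
  (primrec_val
    (Primrec.nat_add.comp (Primrec.nat_mul.comp (primrec_numPos.comp hf) (primrec_den.comp hg))
      (Primrec.nat_mul.comp (primrec_numPos.comp hg) (primrec_den.comp hf)))
    (Primrec.nat_add.comp (Primrec.nat_mul.comp (primrec_numNeg.comp hf) (primrec_den.comp hg))
      (Primrec.nat_mul.comp (primrec_numNeg.comp hg) (primrec_den.comp hf)))
    (Primrec.nat_mul.comp (primrec_den.comp hf) (primrec_den.comp hg))).of_eq fun x => by
      conv_rhs => rw [← val_rep (f x), ← val_rep (g x)]
      unfold val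
      have h1 : ((f x).den : ℚ) ≠ 0 := by exact_mod_cast (f x).den_nz
      have h2 : ((g x).den : ℚ) ≠ 0 := by exact_mod_cast (g x).den_nz
      push_cast
      field_simp
      ring

lemma sub {f g : α → ℚ} (hf : Primrec f) (hg : Primrec g) : Primrec fun x => f x - g x :=
  (add hf (neg hg)).of_eq fun x => by ring

lemma mul {f g : α → ℚ} (hf : Primrec f) (hg : Primrec g) : Primrec fun x => f x * g x :=
  (primrec_val
    (Primrec.nat_add.comp (Primrec.nat_mul.comp (primrec_numPos.comp hf) (primrec_numPos.comp hg))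
      (Primrec.nat_mul.comp (primrec_numNeg.comp hf) (primrec_numNeg.comp hg)))
    (Primrec.nat_add.comp (Primrec.nat_mul.comp (primrec_numPos.comp hf) (primrec_numNeg.comp hg))
      (Primrec.nat_mul.comp (primrec_numNeg.comp hf) (primrec_numPos.comp hg)))
    (Primrec.nat_mul.comp (primrec_den.comp hf) (primrec_den.comp hg))).of_eq fun x => by
      conv_rhs => rw [← val_rep (f x), ← val_rep (g x)]
      unfold val
      have h1 : ((f x).den : ℚ) ≠ 0 := by exact_mod_cast (f x).den_nz
      have h2 : ((g x).den : ℚ) ≠ 0 := by exact_mod_cast (g x).den_nz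
      push_cast
      field_simp
      ring

lemma nonneg {f : α → ℚ} (hf : Primrec f) : PrimrecPred fun x => 0 ≤ f x :=
  (Primrec.eq.comp (primrec_numNeg.comp hf) (Primrec.const 0)).of_eq fun x => by
    rw [← Rat.num_nonneg]; omega

lemma le {f g : α → ℚ} (hf : Primrec f) (hg : Primrec g) : PrimrecPred fun x => f x ≤ g x :=
  (nonneg (sub hg hf)).of_eq fun x => by simp

lemma inv {f : α → ℚ} (hf : Primrec f) : Primrec fun x => (f x)⁻¹ := by
  have h1 := primrec_val (primrec_den.comp hf) (Primrec.const 0) (primrec_numPos.comp hf)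
  have h2 := primrec_val (Primrec.const 0) (primrec_den.comp hf) (primrec_numNeg.comp hf)
  refine (Primrec.ite (nonneg hf) h1 h2).of_eq fun x => ?_
  have hd : ((f x).den : ℚ) ≠ 0 := by exact_mod_cast (f x).den_nz
  split_ifs with h
  · conv_rhs => rw [← val_rep (f x)]
    have : (-(f x).num).toNat = 0 := by rw [← Rat.num_nonneg] at h; omega
    simp [val, this]
  · conv_rhs => rw [← val_rep (f x)]
    have : ((f x).num).toNat = 0 := by rw [← Rat.num_nonneg] at h; omega
    simp [val, this, neg_div]

lemma div {f g : α → ℚ} (hf : Primrec f) (hg : Primrec g) : Primrec fun x => f x / g x :=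
  (mul hf (inv hg)).of_eq fun x => by rw [div_eq_mul_inv]

lemma pow {f : α → ℚ} {g : α → ℕ} (hf : Primrec f) (hg : Primrec g) :
    Primrec fun x => f x ^ g x := by
  have := Primrec.nat_rec' (h := fun (x : α) (p : ℕ × ℚ) => p.2 * f x) hg (Primrec.const (1 : ℚ))
    (mul (Primrec.snd.comp Primrec.snd) (hf.comp Primrec.fst)).to₂
  refine this.of_eq fun x => ?_
  induction g x with
  | zero => simp
  | succ n ih => simp [pow_succ, ih]

lemma max {f g : α → ℚ} (hf : Primrec f) (hg : Primrec g) : Primrec fun x => Max.max (f x) (g x) :=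
  (Primrec.ite (le hf hg) hg hf).of_eq fun x => by rw [max_def]

lemma nat_pow {f g : α → ℕ} (hf : Primrec f) (hg : Primrec g) : Primrec fun x => f x ^ g x :=
  (Primrec₂.unpaired'.1 Nat.Primrec.pow).comp hf hg

end Crest.Agent.H6Rat
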