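import Mathlib
import Crest.Prelude.Def_BoxFlow
import Crest.Agent.H6.RatPrim

/-! A class of locally effective smooth functions on space-time and its closure properties. -/

set_option autoImplicit false

namespace Crest.Agent.H6Eff

open scoped ContDiff
open Crest.AnalysisR.BoxFlow

abbrev X : Type := ℝ × (Fin 3 → ℝ)
abbrev XQ : Type := ℚ × (Fin 3 → ℚ)

def ι (q : XQ) : X := ((q.1 : ℝ), ratPoint q.2)

def Bnd (R : ℝ) (f : X → ℝ) : Prop :=
  ∃ B : ℕ → ℕ, Primrec B ∧ ∀ n i, i ≤ n → ∀ p : X, ‖p‖ ≤ R → ‖iteratedFDeriv ℝ i f p‖ ≤ B n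

def App (R : ℝ) (f : X → ℝ) : Prop :=
  ∃ (C : ℕ) (E : XQ × ℕ → ℚ), Primrec E ∧
    ∀ q n, ‖ι q‖ ≤ R → |f (ι q) - E (q, n)| ≤ C / ((n : ℝ) + 1)

structure LEff (f : X → ℝ) : Prop where
  smooth : ContDiff ℝ ∞ f
  bnd : ∀ R : ℕ, Bnd R f
  app : ∀ R : ℕ, App R f

lemma Bnd.abs_le {R : ℝ} {f : X → ℝ} (h : Bnd R f) : ∃ M : ℕ, ∀ p : X, ‖p‖ ≤ R → |f p| ≤ M := by
  obtain ⟨B, -, hB⟩ := h
  refine ⟨B 0, fun p hp => ?_⟩
  simpa using hB 0 0 le_rfl p hp

lemma LEff.const (c : ℚ) : LEff fun _ => (c : ℝ) := by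
  refine ⟨contDiff_const, fun R => ?_, fun R => ?_⟩
  · obtain ⟨M, hM⟩ := exists_nat_ge |(c : ℝ)|
    refine ⟨fun _ => M, Primrec.const M, fun n i _ p _ => ?_⟩
    rcases Nat.eq_zero_or_pos i with rfl | hi
    · rw [norm_iteratedFDeriv_zero, Real.norm_eq_abs]; exact hM
    · rw [iteratedFDeriv_const_of_ne hi.ne']; simp
  · exact ⟨0, fun _ => c, Primrec.const c, fun q n _ => by simp⟩

lemma LEff.clm (L : X →L[ℝ] ℝ) (hL : ‖L‖ ≤ 1) (e : XQ → ℚ) (he : Primrec e)
    (h : ∀ q, L (ι q) = e q) : LEff L := by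
  refine ⟨L.contDiff, fun R => ?_, fun R => ?_⟩
  · refine ⟨fun _ => R + 1, Primrec.const _, fun n i _ p hp => ?_⟩
    have hR : (0 : ℝ) ≤ R := Nat.cast_nonneg R
    push_cast
    rcases i with _ | i
    · rw [norm_iteratedFDeriv_zero]
      calc ‖L p‖ ≤ ‖L‖ * ‖p‖ := L.le_opNorm p
        _ ≤ 1 * R := mul_le_mul hL hp (norm_nonneg _) zero_le_one
        _ ≤ R + 1 := by linarith
    · rw [← norm_iteratedFDeriv_fderiv]
      have : fderiv ℝ L = fun _ => L := by ext1 x; exact L.fderiv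
      rw [this]
      rcases i with _ | i
      · rw [norm_iteratedFDeriv_zero]; linarith
      · rw [iteratedFDeriv_const_of_ne (Nat.succ_ne_zero i)]; simp; linarith
  · exact ⟨0, fun x => e x.1, he.comp Primrec.fst, fun q n _ => by simp [h]⟩

lemma LEff.time : LEff fun p : X => p.1 :=
  LEff.clm (ContinuousLinearMap.fst ℝ ℝ (Fin 3 → ℝ)) (ContinuousLinearMap.norm_fst_le ..)
    (fun q => q.1) Primrec.fst fun _ => rfl

lemma LEff.coord (j : Fin 3) : LEff fun p : X => p.2 j := by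
  refine LEff.clm ((ContinuousLinearMap.proj j).comp (ContinuousLinearMap.snd ℝ ℝ (Fin 3 → ℝ))) ?_
    (fun q => q.2 j) (Primrec.fin_app.comp Primrec.snd (Primrec.const j)) fun _ => rfl
  refine ContinuousLinearMap.opNorm_le_bound _ zero_le_one fun p => ?_
  simp only [ContinuousLinearMap.comp_apply, ContinuousLinearMap.coe_snd',
    ContinuousLinearMap.proj_apply, one_mul]
  exact (norm_le_pi_norm p.2 j).trans (norm_snd_le p)

lemma cast_le_top (i : ℕ) : (i : WithTop ℕ∞) ≤ ∞ := by exact_mod_cast le_top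

lemma LEff.add {f g : X → ℝ} (hf : LEff f) (hg : LEff g) : LEff fun p => f p + g p := by
  refine ⟨hf.smooth.add hg.smooth, fun R => ?_, fun R => ?_⟩
  · obtain ⟨B, hB, h1⟩ := hf.bnd R
    obtain ⟨B', hB', h2⟩ := hg.bnd R
    refine ⟨fun n => B n + B' n, Primrec.nat_add.comp hB hB', fun n i hi p hp => ?_⟩
    rw [fun_iteratedFDeriv_add_apply (hf.smooth.contDiffAt.of_le (cast_le_top i))
      (hg.smooth.contDiffAt.of_le (cast_le_top i))]
    push_cast
    exact (norm_add_le _ _).trans (add_le_add (h1 n i hi p hp) (h2 n i hi p hp))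
  · obtain ⟨C, E, hE, h1⟩ := hf.app R
    obtain ⟨C', E', hE', h2⟩ := hg.app R
    refine ⟨C + C', fun x => E x + E' x, H6Rat.add hE hE', fun q n hq => ?_⟩
    have a1 := h1 q n hq
    have a2 := h2 q n hq
    push_cast
    rw [add_div]
    calc |f (ι q) + g (ι q) - (E (q, n) + E' (q, n))|
        = |(f (ι q) - E (q, n)) + (g (ι q) - E' (q, n))| := by ring_nf
      _ ≤ _ := (abs_add_le _ _).trans (add_le_add a1 a2)

lemma LEff.mul {f g : X → ℝ} (hf : LEff f) (hg : LEff g) : LEff fun p => f p * g p := by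
  refine ⟨hf.smooth.mul hg.smooth, fun R => ?_, fun R => ?_⟩
  · obtain ⟨B, hB, h1⟩ := hf.bnd R
    obtain ⟨B', hB', h2⟩ := hg.bnd R
    refine ⟨fun n => 2 ^ n * (B n * B' n), Primrec.nat_mul.comp
      (H6Rat.nat_pow (Primrec.const 2) Primrec.id) (Primrec.nat_mul.comp hB hB'),
      fun n i hi p hp => ?_⟩
    refine (norm_iteratedFDeriv_mul_le hf.smooth hg.smooth p (cast_le_top i)).trans ?_
    calc ∑ k ∈ Finset.range (i + 1), (i.choose k : ℝ) * ‖iteratedFDeriv ℝ k f p‖ *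
          ‖iteratedFDeriv ℝ (i - k) g p‖
        ≤ ∑ k ∈ Finset.range (i + 1), (i.choose k : ℝ) * ((B n : ℝ) * B' n) := by
          refine Finset.sum_le_sum fun k hk => ?_
          rw [mul_assoc]
          refine mul_le_mul_of_nonneg_left ?_ (Nat.cast_nonneg _)
          have hk' : k ≤ n := by have := Finset.mem_range.mp hk; omega
          exact mul_le_mul (h1 n k hk' p hp) (h2 n (i - k) (by omega) p hp) (norm_nonneg _)
            (Nat.cast_nonneg _)
      _ = (2 : ℝ) ^ i * ((B n : ℝ) * B' n) := by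
          rw [← Finset.sum_mul, ← Nat.cast_sum, Nat.sum_range_choose]; push_cast; rfl
      _ ≤ _ := by
          push_cast
          exact mul_le_mul_of_nonneg_right (pow_le_pow_right₀ one_le_two hi) (by positivity)
  · obtain ⟨C, E, hE, h1⟩ := hf.app R
    obtain ⟨C', E', hE', h2⟩ := hg.app R
    obtain ⟨M, hM⟩ := (hf.bnd R).abs_le
    obtain ⟨M', hM'⟩ := (hg.bnd R).abs_le
    refine ⟨M * C' + (M' + C') * C, fun x => E x * E' x, H6Rat.mul hE hE', fun q n hq => ?_⟩
    have a1 := h1 q n hq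
    have a2 := h2 q n hq
    have b1 := hM _ hq
    have b2 := hM' _ hq
    have hn : (1 : ℝ) ≤ (n : ℝ) + 1 := by have : (0 : ℝ) ≤ n := Nat.cast_nonneg n; linarith
    have a3 : (C' : ℝ) / ((n : ℝ) + 1) ≤ C' := div_le_self (Nat.cast_nonneg _) hn
    have b3 : |(E' (q, n) : ℝ)| ≤ M' + C' := by
      have : (E' (q, n) : ℝ) = g (ι q) - (g (ι q) - E' (q, n)) := by ring
      rw [this]
      exact (abs_sub _ _).trans (add_le_add b2 (a2.trans a3))
    push_cast
    calc |f (ι q) * g (ι q) - E (q, n) * E' (q, n)|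
        = |f (ι q) * (g (ι q) - E' (q, n)) + E' (q, n) * (f (ι q) - E (q, n))| := by ring_nf
      _ ≤ |f (ι q)| * |g (ι q) - E' (q, n)| + |(E' (q, n) : ℝ)| * |f (ι q) - E (q, n)| := by
          rw [← abs_mul, ← abs_mul]; exact abs_add_le _ _
      _ ≤ M * (C' / ((n : ℝ) + 1)) + (M' + C') * (C / ((n : ℝ) + 1)) :=
          add_le_add (mul_le_mul b1 a2 (abs_nonneg _) (Nat.cast_nonneg _))
            (mul_le_mul b3 a1 (abs_nonneg _) (by positivity))
      _ = _ := by ring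

lemma LEff.of_eq {f g : X → ℝ} (hf : LEff f) (h : ∀ p, f p = g p) : LEff g :=
  (funext h : f = g) ▸ hf

lemma LEff.neg {f : X → ℝ} (hf : LEff f) : LEff fun p => -f p :=
  ((LEff.const (-1)).mul hf).of_eq fun p => by push_cast; ring

lemma LEff.sub {f g : X → ℝ} (hf : LEff f) (hg : LEff g) : LEff fun p => f p - g p :=
  (hf.add hg.neg).of_eq fun p => by ring

lemma LEff.sum {κ : Type*} (s : Finset κ) {f : κ → X → ℝ} (hf : ∀ i ∈ s, LEff (f i)) :
    LEff fun p => ∑ i ∈ s, f i p := by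
  classical
  induction s using Finset.induction_on with
  | empty => exact (LEff.const 0).of_eq fun p => by simp
  | insert a s ha ih =>
    exact ((hf a (Finset.mem_insert_self a s)).add
      (ih fun i hi => hf i (Finset.mem_insert_of_mem hi))).of_eq fun p => by
        rw [Finset.sum_insert ha]

lemma factorial_le_pow {i n : ℕ} (h : i ≤ n) : i.factorial ≤ (n + 1) ^ n :=
  calc i.factorial ≤ i ^ i := Nat.factorial_le_pow i
    _ ≤ (n + 1) ^ i := Nat.pow_le_pow_left (by omega) i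
    _ ≤ (n + 1) ^ n := Nat.pow_le_pow_right (by omega) h

/-- composition with a one-variable function -/
lemma LEff.comp {f : X → ℝ} (hf : LEff f) {G : ℝ → ℝ} {s t : Set ℝ} (ht : IsOpen t)
    (hst : s ⊆ t) (hfs : ∀ p, f p ∈ s) (hG : ContDiffOn ℝ ∞ G t)
    (C : ℕ → ℕ) (hC : Primrec C) (hb : ∀ n i, i ≤ n → ∀ y ∈ s, |iteratedDeriv i G y| ≤ C n)
    (A : ℚ × ℕ → ℚ) (hA : Primrec A) (K : ℕ)
    (ha : ∀ y ∈ s, ∀ (r : ℚ) (n : ℕ), |G y - A (r, n)| ≤ K * |y - r| + K / ((n : ℝ) + 1)) :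
    LEff fun p => G (f p) := by
  have hr : Set.range f ⊆ t := by rintro _ ⟨p, rfl⟩; exact hst (hfs p)
  refine ⟨hG.comp_contDiff hf.smooth fun p => hst (hfs p), fun R => ?_, fun R => ?_⟩
  · obtain ⟨B, hB, h1⟩ := hf.bnd R
    refine ⟨fun n => (n + 1) ^ n * C n * (B n + 1) ^ n, Primrec.nat_mul.comp
      (Primrec.nat_mul.comp (H6Rat.nat_pow Primrec.succ Primrec.id) hC)
      (H6Rat.nat_pow (Primrec.succ.comp hB) Primrec.id), fun n i hi p hp => ?_⟩
    have hD : (1 : ℝ) ≤ (B n : ℝ) + 1 := by have : (0 : ℝ) ≤ B n := Nat.cast_nonneg _; linarith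
    have := norm_iteratedFDeriv_comp_le' (n := i) hr ht.uniqueDiffOn hG hf.smooth (cast_le_top i) p
      (C := C n) (D := (B n : ℝ) + 1) (fun k hk => by
        rw [iteratedFDerivWithin_of_isOpen k ht (hst (hfs p)),
          norm_iteratedFDeriv_eq_norm_iteratedDeriv]
        exact hb n k (hk.trans hi) _ (hfs p)) (fun k hk1 hk => by
        refine (h1 n k (hk.trans hi) p hp).trans ?_
        calc (B n : ℝ) ≤ (B n : ℝ) + 1 := by linarith
          _ = ((B n : ℝ) + 1) ^ 1 := (pow_one _).symm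
          _ ≤ _ := pow_le_pow_right₀ hD hk1)
    refine this.trans ?_
    push_cast
    refine mul_le_mul (mul_le_mul_of_nonneg_right ?_ (Nat.cast_nonneg _))
      (pow_le_pow_right₀ hD hi) (by positivity) (by positivity)
    exact_mod_cast factorial_le_pow hi
  · obtain ⟨C', E, hE, h1⟩ := hf.app R
    refine ⟨K * C' + K, fun x => A (E x, x.2), hA.comp (hE.pair Primrec.snd), fun q n hq => ?_⟩
    refine (ha _ (hfs _) _ n).trans ?_
    have := mul_le_mul_of_nonneg_left (h1 q n hq) (Nat.cast_nonneg (α := ℝ) K)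
    push_cast
    rw [add_div, mul_div_assoc]
    linarith

lemma LEff.inv {f : X → ℝ} (hf : LEff f) (δ : ℝ) (hδ : 0 < δ) (h : ∀ p, δ ≤ f p) :
    LEff fun p => (f p)⁻¹ := by
  obtain ⟨K, hK⟩ := exists_nat_gt (1 / δ)
  have hK0 : (0 : ℝ) < K := lt_trans (by positivity) hK
  have hK1 : 1 ≤ K := by exact_mod_cast hK0
  have hKδ : (K : ℝ)⁻¹ ≤ δ := by
    rw [inv_le_comm₀ hK0 hδ, ← one_div]; exact hK.le
  refine hf.comp (G := fun y => y⁻¹) (s := Set.Ici (K : ℝ)⁻¹) (t := Set.Ioi 0) isOpen_Ioi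
    (fun y hy => show (0 : ℝ) < y from lt_of_lt_of_le (inv_pos.mpr hK0) hy)
    (fun p => hKδ.trans (h p))
    (contDiffOn_id.inv fun y hy => ne_of_gt hy) (fun n => (n + 1) ^ n * K ^ (n + 1))
    (Primrec.nat_mul.comp (H6Rat.nat_pow Primrec.succ Primrec.id)
      (H6Rat.nat_pow (Primrec.const K) Primrec.succ)) ?_
    (fun x => (max x.1 (K : ℚ)⁻¹)⁻¹) (H6Rat.inv (H6Rat.max Primrec.fst (Primrec.const _)))
    (K ^ 2) ?_
  · intro n i hi y hy
    have hy0 : 0 < y := lt_of_lt_of_le (by positivity) hy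
    rw [iteratedDeriv_eq_iterate, iter_deriv_inv, abs_mul, abs_mul, abs_pow, abs_neg, abs_one,
      one_pow, one_mul, abs_of_nonneg (Nat.cast_nonneg _), abs_of_pos (zpow_pos hy0 _)]
    push_cast
    refine mul_le_mul (by exact_mod_cast factorial_le_pow hi) ?_ (zpow_pos hy0 _).le (by positivity)
    have : y ^ (-1 - i : ℤ) = (y⁻¹) ^ (i + 1) := by
      rw [inv_pow, ← zpow_natCast, ← zpow_neg]; congr 1; push_cast; ring
    rw [this]
    have h2 : y⁻¹ ≤ K := by rw [inv_le_comm₀ hy0 hK0]; exact hy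
    calc (y⁻¹) ^ (i + 1) ≤ (K : ℝ) ^ (i + 1) := pow_le_pow_left₀ (by positivity) h2 _
      _ ≤ (K : ℝ) ^ (n + 1) := pow_le_pow_right₀ (by exact_mod_cast hK1) (by omega)
  · intro y hy r n
    have hy' : (K : ℝ)⁻¹ ≤ y := hy
    have hy0 : 0 < y := lt_of_lt_of_le (by positivity) hy
    push_cast
    set z := max (r : ℝ) (K : ℝ)⁻¹ with hz
    have hz' : (K : ℝ)⁻¹ ≤ z := le_max_right _ _
    have hz0 : 0 < z := lt_of_lt_of_le (by positivity) hz'
    have h1 : |y - z| ≤ |y - r| := by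
      have := abs_max_sub_max_le_abs y (r : ℝ) (K : ℝ)⁻¹
      rwa [max_eq_left hy'] at this
    have h2 : y⁻¹ ≤ K := by rw [inv_le_comm₀ hy0 hK0]; exact hy
    have h3 : z⁻¹ ≤ K := by rw [inv_le_comm₀ hz0 hK0]; exact hz'
    have h4 : y⁻¹ - z⁻¹ = -(y⁻¹ * z⁻¹ * (y - z)) := by field_simp; ring
    rw [h4, abs_neg, abs_mul, abs_of_pos (mul_pos (inv_pos.mpr hy0) (inv_pos.mpr hz0))]
    have h5 : y⁻¹ * z⁻¹ ≤ (K : ℝ) ^ 2 := by
      rw [sq]; exact mul_le_mul h2 h3 (by positivity) hK0.le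
    have h6 : (0 : ℝ) ≤ (K : ℝ) ^ 2 / ((n : ℝ) + 1) := by positivity
    have := mul_le_mul h5 h1 (abs_nonneg _) (by positivity)
    linarith

/-! ### The function `exp (-1 / x)` -/

noncomputable def gk (k : ℕ) (x : ℝ) : ℝ := x⁻¹ ^ k * expNegInvGlue x

lemma hasDerivAt_gk (k : ℕ) (x : ℝ) :
    HasDerivAt (gk k) (gk (k + 2) x - k * gk (k + 1) x) x := by
  have := expNegInvGlue.hasDerivAt_polynomial_eval_inv_mul (Polynomial.X ^ k) x
  simp only [Polynomial.eval_pow, Polynomial.eval_X] at this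
  refine HasDerivAt.congr_deriv this ?_
  simp only [gk, Polynomial.derivative_X_pow, Polynomial.eval_mul, Polynomial.eval_pow,
    Polynomial.eval_X, Polynomial.eval_sub, Polynomial.eval_C]
  rcases k with _ | k
  · simp
  · simp only [Nat.add_sub_cancel]; ring

lemma contDiff_gk (k : ℕ) : ContDiff ℝ ∞ (gk k) := by
  have := expNegInvGlue.contDiff_polynomial_eval_inv_mul (n := ⊤) (Polynomial.X ^ k)
  unfold gk
  simpa only [Polynomial.eval_pow, Polynomial.eval_X] using this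

lemma abs_gk_le (k : ℕ) (x : ℝ) : |gk k x| ≤ k.factorial := by
  rcases le_or_gt x 0 with hx | hx
  · simp [gk, expNegInvGlue.zero_of_nonpos hx]
  · have h1 : expNegInvGlue x = Real.exp (-x⁻¹) := by simp [expNegInvGlue, hx.not_ge]
    have h2 := Real.pow_div_factorial_le_exp x⁻¹ (inv_pos.mpr hx).le k
    rw [gk, h1, abs_of_nonneg (by positivity), Real.exp_neg, ← div_eq_mul_inv,
      div_le_iff₀ (Real.exp_pos _)]
    rw [div_le_iff₀ (by positivity)] at h2
    linarith

lemma abs_iteratedDeriv_gk (n : ℕ) : ∀ (k : ℕ) (x : ℝ),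
    |iteratedDeriv n (gk k) x| ≤ ((k + 2 * n + 1) ^ n * (k + 2 * n).factorial : ℕ) := by
  induction n with
  | zero => intro k x; simpa using abs_gk_le k x
  | succ n ih =>
    intro k x
    have hd : deriv (gk k) = fun x => gk (k + 2) x - k * gk (k + 1) x := by
      ext x; exact (hasDerivAt_gk k x).deriv
    rw [iteratedDeriv_succ', hd, iteratedDeriv_fun_sub
      ((contDiff_gk _).contDiffAt.of_le (cast_le_top n))
      ((contDiff_const.mul (contDiff_gk _)).contDiffAt.of_le (cast_le_top n)),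
      iteratedDeriv_const_mul_field]
    have h1 := ih (k + 2) x
    have h2 := ih (k + 1) x
    have h3 : ((k + 1 + 2 * n + 1) ^ n * (k + 1 + 2 * n).factorial : ℕ) ≤
        ((k + 2 + 2 * n + 1) ^ n * (k + 2 + 2 * n).factorial : ℕ) :=
      Nat.mul_le_mul (Nat.pow_le_pow_left (by omega) n) (Nat.factorial_le (by omega))
    have h4 : |iteratedDeriv n (gk (k + 1)) x| ≤
        ((k + 2 + 2 * n + 1) ^ n * (k + 2 + 2 * n).factorial : ℕ) := h2.trans (by exact_mod_cast h3)
    refine (abs_sub _ _).trans ?_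
    rw [abs_mul, Nat.abs_cast]
    have h5 := mul_le_mul_of_nonneg_left h4 (Nat.cast_nonneg (α := ℝ) k)
    have h6 : (k + 1) * ((k + 2 + 2 * n + 1) ^ n * (k + 2 + 2 * n).factorial) ≤
        (k + 2 * (n + 1) + 1) ^ (n + 1) * (k + 2 * (n + 1)).factorial := by
      have e1 : k + 2 * (n + 1) = k + 2 + 2 * n := by ring
      rw [e1, pow_succ, mul_comm ((k + 2 + 2 * n + 1) ^ n) (k + 2 + 2 * n + 1), mul_assoc]
      exact Nat.mul_le_mul_right _ (by omega)
    have h7 : (((k + 1) * ((k + 2 + 2 * n + 1) ^ n * (k + 2 + 2 * n).factorial) : ℕ) : ℝ) ≤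
        ((k + 2 * (n + 1) + 1) ^ (n + 1) * (k + 2 * (n + 1)).factorial : ℕ) := by exact_mod_cast h6
    refine le_trans ?_ h7
    rw [Nat.cast_mul (k + 1)]
    push_cast at h1 h5 ⊢
    linarith

lemma exp_approx {y : ℝ} (hy : 0 ≤ y) {M : ℕ} (hM : 0 < M) :
    |Real.exp (-y) - ((1 + y / (2 * M : ℕ)) ^ (2 * M))⁻¹| ≤ 2 / M := by
  have hM' : (0 : ℝ) < M := by exact_mod_cast hM
  set N := 2 * M with hN
  have hN' : (N : ℝ) = 2 * M := by rw [hN]; push_cast; ring
  have hN0 : (0 : ℝ) < N := by rw [hN']; positivity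
  set z := y / N with hz
  have hz0 : 0 ≤ z := by positivity
  have hyz : y = N * z := by rw [hz]; field_simp
  set P := (1 + z) ^ N with hP
  have hP0 : 0 < P := by positivity
  have h1 : P ≤ Real.exp y := by
    rw [hyz, Real.exp_nat_mul]
    exact pow_le_pow_left₀ (by positivity) (by linarith [Real.add_one_le_exp z]) _
  have h2 : 1 - N * z ^ 2 ≤ P * Real.exp (-y) := by
    have e : P * Real.exp (-y) = ((1 + z) * Real.exp (-z)) ^ N := by
      rw [mul_pow, ← Real.exp_nat_mul, hyz]; congr 2; ring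
    rw [e]
    have a1 : 1 - z ^ 2 ≤ (1 + z) * Real.exp (-z) := by
      have := Real.add_one_le_exp (-z)
      nlinarith
    rcases le_or_gt z 1 with hz1 | hz1
    · have a2 := one_add_mul_le_pow (a := -z ^ 2) (by nlinarith) N
      have a3 : (1 + -z ^ 2) ^ N ≤ ((1 + z) * Real.exp (-z)) ^ N :=
        pow_le_pow_left₀ (by nlinarith) (by linarith) _
      linarith
    · have a2 : (0 : ℝ) ≤ ((1 + z) * Real.exp (-z)) ^ N := by positivity
      have a3 : (1 : ℝ) ≤ N := by rw [hN']; have : (1 : ℝ) ≤ M := by exact_mod_cast hM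
                                  linarith
      nlinarith
  have h3 : y ^ 2 / 4 ≤ P := by
    have a1 := one_add_mul_le_pow (a := z) (by linarith) M
    have a2 : (M : ℝ) * z = y / 2 := by rw [hyz, hN']; ring
    have a3 : P = ((1 + z) ^ M) ^ 2 := by rw [hP, hN, ← pow_mul, mul_comm]
    rw [a3]
    nlinarith
  have h4 : Real.exp (-y) ≤ P⁻¹ := by
    rw [Real.exp_neg]; exact inv_anti₀ hP0 h1
  rw [abs_sub_comm, abs_of_nonneg (by linarith)]
  have h5 : P⁻¹ - Real.exp (-y) = (1 - P * Real.exp (-y)) / P := by field_simp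
  rw [h5, div_le_div_iff₀ hP0 hM']
  have h6 : N * z ^ 2 * M = y ^ 2 / 2 := by rw [hyz, hN']; ring
  nlinarith

lemma LEff.glue {f : X → ℝ} (hf : LEff f) : LEff fun p => expNegInvGlue (f p) := by
  have hg : expNegInvGlue = gk 0 := by ext x; simp [gk]
  have hlip : ∀ x y : ℝ, |expNegInvGlue x - expNegInvGlue y| ≤ 2 * |x - y| := by
    intro x y
    have := Convex.norm_image_sub_le_of_norm_deriv_le (f := gk 0) (s := Set.univ) (C := 2)
      (fun x _ => (hasDerivAt_gk 0 x).differentiableAt) (fun x _ => by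
        rw [(hasDerivAt_gk 0 x).deriv]
        simpa using abs_gk_le 2 x) convex_univ (Set.mem_univ y) (Set.mem_univ x)
    rw [hg]; simpa using this
  refine hf.comp (G := expNegInvGlue) (s := Set.univ) (t := Set.univ) isOpen_univ subset_rfl
    (fun _ => trivial) expNegInvGlue.contDiff.contDiffOn
    (fun n => (2 * n + 1) ^ n * (2 * n + 1) ^ (2 * n))
    (Primrec.nat_mul.comp (H6Rat.nat_pow Primrec.nat_double_succ Primrec.id)
      (H6Rat.nat_pow Primrec.nat_double_succ Primrec.nat_double)) ?_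
    (fun x => if x.1 ≤ 0 then 0 else ((1 + x.1⁻¹ / (2 * (x.2 + 1) : ℕ)) ^ (2 * (x.2 + 1)))⁻¹) ?_
    2 ?_
  · intro n i hi y _
    rw [hg]
    refine (abs_iteratedDeriv_gk i 0 y).trans ?_
    have : (0 + 2 * i + 1) ^ i * (0 + 2 * i).factorial ≤ (2 * n + 1) ^ n * (2 * n + 1) ^ (2 * n) :=
      Nat.mul_le_mul ((Nat.pow_le_pow_left (by omega) i).trans (Nat.pow_le_pow_right (by omega) hi))
        (factorial_le_pow (by omega))
    exact_mod_cast this
  · have h2 : Primrec fun x : ℚ × ℕ => 2 * (x.2 + 1) :=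
      Primrec.nat_double.comp (Primrec.succ.comp Primrec.snd)
    exact Primrec.ite (H6Rat.le Primrec.fst (Primrec.const 0)) (Primrec.const 0)
      (H6Rat.inv (H6Rat.pow (H6Rat.add (Primrec.const 1)
        (H6Rat.div (H6Rat.inv Primrec.fst) (H6Rat.natCast h2))) h2))
  · intro y _ r n
    have h1 := hlip y r
    have h2 : |expNegInvGlue r - ((if r ≤ 0 then 0 else
        ((1 + r⁻¹ / (2 * (n + 1) : ℕ)) ^ (2 * (n + 1)))⁻¹ : ℚ) : ℝ)| ≤ 2 / ((n : ℝ) + 1) := by
      split_ifs with hr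
      · rw [expNegInvGlue.zero_of_nonpos (by exact_mod_cast hr)]
        simp; positivity
      · have hr' : (0 : ℝ) < r := by exact_mod_cast not_le.mp hr
        have e1 : expNegInvGlue r = Real.exp (-(r : ℝ)⁻¹) := by simp [expNegInvGlue, hr'.not_ge]
        have := exp_approx (inv_pos.mpr hr').le (Nat.succ_pos n)
        rw [e1]
        push_cast at this ⊢
        exact this
    have h3 := abs_sub_le (expNegInvGlue y) (expNegInvGlue r) ((if r ≤ 0 then 0 else
        ((1 + r⁻¹ / (2 * (n + 1) : ℕ)) ^ (2 * (n + 1)))⁻¹ : ℚ) : ℝ)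
    push_cast at h1 h2 h3 ⊢
    linarith

lemma LEff.sT {f : X → ℝ} (hf : LEff f) : LEff fun p => Real.smoothTransition (f p) := by
  have h1 := hf.glue
  have h2 := ((LEff.const 1).sub hf).glue
  have h3 := (h1.add h2).inv (expNegInvGlue (1 / 2)) (expNegInvGlue.pos_of_pos (by norm_num))
    fun p => by
      rcases le_total (1 / 2 : ℝ) (f p) with h | h
      · exact le_add_of_le_of_nonneg (expNegInvGlue.monotone h) (expNegInvGlue.nonneg _)
      · exact le_add_of_nonneg_of_le (expNegInvGlue.nonneg _)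
          (expNegInvGlue.monotone (show (1 / 2 : ℝ) ≤ ((1 : ℚ) : ℝ) - f p by
            push_cast; linarith))
  exact (h1.mul h3).of_eq fun p => by simp [Real.smoothTransition, div_eq_mul_inv]

end Crest.Agent.H6Eff
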