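import Mathlib
import Crest.Agent.H6.EffBasic

/-! Globally effective functions, finite differences and the `Effective` predicate. -/

set_option autoImplicit false

namespace Crest.Agent.H6Eff

open scoped ContDiff
open Crest.AnalysisR.BoxFlow

/-- scalar mixed derivative -/
noncomputable def D : List (Fin 4) → (X → ℝ) → X → ℝ
  | [], f => f
  | d :: ds, f => fun p => fderiv ℝ (D ds f) p (direction d)

lemma norm_direction_le (d : Fin 4) : ‖direction d‖ ≤ 1 := by
  unfold direction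
  split_ifs with h
  · simp [Prod.norm_def]
  · simp [Prod.norm_def, Pi.norm_single]

lemma contDiff_D {f : X → ℝ} (hf : ContDiff ℝ ∞ f) (ds : List (Fin 4)) :
    ContDiff ℝ ∞ (D ds f) := by
  induction ds with
  | nil => exact hf
  | cons d ds ih =>
    exact (ih.fderiv_right (m := ∞) le_rfl).clm_apply contDiff_const

lemma norm_iteratedFDeriv_D {f : X → ℝ} (hf : ContDiff ℝ ∞ f) (ds : List (Fin 4)) :
    ∀ (i : ℕ) (p : X), ‖iteratedFDeriv ℝ i (D ds f) p‖ ≤ ‖iteratedFDeriv ℝ (i + ds.length) f p‖ := by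
  induction ds with
  | nil => intro i p; exact le_rfl
  | cons d ds ih =>
    intro i p
    have h1 := norm_iteratedFDeriv_clm_apply_const (𝕜 := ℝ) (f := fderiv ℝ (D ds f))
      (c := direction d) (x := p) (N := ∞) (n := i)
      ((contDiff_D hf ds).fderiv_right (m := ∞) le_rfl).contDiffAt (cast_le_top i)
    rw [norm_iteratedFDeriv_fderiv] at h1
    have h2 := ih (i + 1) p
    have e : i + (d :: ds).length = i + 1 + ds.length := by simp; ring
    rw [e]
    refine le_trans h1 (le_trans ?_ h2)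
    exact mul_le_of_le_one_left (norm_nonneg _) (norm_direction_le d)

structure GEff (f : X → ℝ) : Prop where
  smooth : ContDiff ℝ ∞ f
  bnd : ∃ B : ℕ → ℕ, Primrec B ∧ ∀ n i, i ≤ n → ∀ p : X, ‖iteratedFDeriv ℝ i f p‖ ≤ B n
  app : ∃ (C : ℕ) (E : XQ × ℕ → ℚ), Primrec E ∧ ∀ q n, |f (ι q) - E (q, n)| ≤ C / ((n : ℝ) + 1)

lemma GEff.leff {f : X → ℝ} (hf : GEff f) : LEff f := by
  refine ⟨hf.smooth, fun R => ?_, fun R => ?_⟩
  · obtain ⟨B, hB, h⟩ := hf.bnd
    exact ⟨B, hB, fun n i hi p _ => h n i hi p⟩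
  · obtain ⟨C, E, hE, h⟩ := hf.app
    exact ⟨C, E, hE, fun q n _ => h q n⟩

lemma primrec_coord (j : Fin 3) : Primrec fun q : XQ => q.2 j :=
  Primrec.fin_app.comp Primrec.snd (Primrec.const j)

lemma norm_ι_le_iff (R : ℕ) (q : XQ) : ‖ι q‖ ≤ R ↔
    ((q.1 ≤ R ∧ -(R : ℚ) ≤ q.1) ∧ (q.2 0 ≤ R ∧ -(R : ℚ) ≤ q.2 0) ∧
      (q.2 1 ≤ R ∧ -(R : ℚ) ≤ q.2 1) ∧ (q.2 2 ≤ R ∧ -(R : ℚ) ≤ q.2 2)) := by
  have key : ∀ x : ℚ, |(x : ℝ)| ≤ R ↔ (x ≤ R ∧ -(R : ℚ) ≤ x) := by
    intro x
    rw [abs_le, and_comm]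
    constructor
    · rintro ⟨h1, h2⟩; exact ⟨by exact_mod_cast h1, by exact_mod_cast h2⟩
    · rintro ⟨h1, h2⟩; exact ⟨by exact_mod_cast h1, by exact_mod_cast h2⟩
  rw [norm_prod_le_iff, pi_norm_le_iff_of_nonneg (Nat.cast_nonneg R), Fin.forall_fin_succ,
    Fin.forall_fin_two]
  simp only [ι, ratPoint, Real.norm_eq_abs, key]
  rfl

lemma LEff.geff {f : X → ℝ} (hf : LEff f) (R : ℕ) (h0 : ∀ p : X, (R : ℝ) < ‖p‖ → f p = 0) :
    GEff f := by
  refine ⟨hf.smooth, ?_, ?_⟩
  · obtain ⟨B, hB, h⟩ := hf.bnd R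
    refine ⟨B, hB, fun n i hi p => ?_⟩
    rcases le_or_gt ‖p‖ R with hp | hp
    · exact h n i hi p hp
    · have : f =ᶠ[nhds p] fun _ => 0 := by
        filter_upwards [(isOpen_lt continuous_const continuous_norm).mem_nhds hp] with x hx
        exact h0 x hx
      rw [(this.iteratedFDeriv ℝ i).eq_of_nhds]
      simp
  · obtain ⟨C, E, hE, h⟩ := hf.app R
    have hc : ∀ {e : XQ → ℚ}, Primrec e → PrimrecPred fun x : XQ × ℕ =>
        e x.1 ≤ R ∧ -(R : ℚ) ≤ e x.1 := fun he =>
      (H6Rat.le (he.comp Primrec.fst) (Primrec.const _)).and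
        (H6Rat.le (Primrec.const _) (he.comp Primrec.fst))
    refine ⟨C, fun x => if ((x.1.1 ≤ R ∧ -(R : ℚ) ≤ x.1.1) ∧ (x.1.2 0 ≤ R ∧ -(R : ℚ) ≤ x.1.2 0) ∧
      (x.1.2 1 ≤ R ∧ -(R : ℚ) ≤ x.1.2 1) ∧ (x.1.2 2 ≤ R ∧ -(R : ℚ) ≤ x.1.2 2)) then E x else 0,
      Primrec.ite ((hc Primrec.fst).and ((hc (primrec_coord 0)).and
        ((hc (primrec_coord 1)).and (hc (primrec_coord 2))))) hE (Primrec.const 0), fun q n => ?_⟩
    dsimp only
    split_ifs with hq
    · exact h q n ((norm_ι_le_iff R q).mpr hq)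
    · rw [h0 _ (not_le.mp fun h' => hq ((norm_ι_le_iff R q).mp h'))]
      simp; positivity

/-- rational direction vectors -/
def dirQ (d : Fin 4) : XQ := if h : d = 0 then (1, 0) else (0, Pi.single (d.pred h) 1)

def shift (q : XQ) (d : Fin 4) (r : ℚ) : XQ :=
  (q.1 + r * (dirQ d).1, fun j => q.2 j + r * (dirQ d).2 j)

lemma ι_shift (q : XQ) (d : Fin 4) (r : ℚ) :
    ι (shift q d r) = ι q + (r : ℝ) • direction d := by
  unfold shift dirQ direction ι ratPoint
  split_ifs with h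
  · ext <;> simp
  · ext j
    · simp
    · simp only [Prod.mk_add_mk, Prod.smul_mk, Pi.add_apply, Pi.smul_apply, smul_eq_mul]
      push_cast
      congr 2
      by_cases hj : j = d.pred h
      · subst hj; simp
      · simp [hj]

lemma primrec_shift {α : Type*} [Primcodable α] {q : α → XQ} {d : α → Fin 4} {r : α → ℚ}
    (hq : Primrec q) (hd : Primrec d) (hr : Primrec r) :
    Primrec fun a => shift (q a) (d a) (r a) := by
  have h1 : Primrec fun a => dirQ (d a) := (Primrec.dom_finite dirQ).comp hd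
  refine Primrec.pair (H6Rat.add (Primrec.fst.comp hq) (H6Rat.mul hr (Primrec.fst.comp h1))) ?_
  refine Primrec.fin_curry.mpr ?_
  exact H6Rat.add (Primrec.fin_app.comp (Primrec.snd.comp (hq.comp Primrec.fst)) Primrec.snd)
    (H6Rat.mul (hr.comp Primrec.fst)
      (Primrec.fin_app.comp (Primrec.snd.comp (h1.comp Primrec.fst)) Primrec.snd))

def stepN (B : ℕ → ℕ) (l n : ℕ) : ℕ := 2 * (n + 1) * (B (l + 2) + 1)

def fdApprox (B : ℕ → ℕ) (C : ℕ) (E : XQ × ℕ → ℚ) : List (Fin 4) → XQ → ℕ → ℚ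
  | [], q, n => E (q, C * (n + 1))
  | d :: ds, q, n => (stepN B ds.length n : ℚ) *
      (fdApprox B C E ds (shift q d (stepN B ds.length n : ℚ)⁻¹)
          (4 * stepN B ds.length n * (n + 1)) -
        fdApprox B C E ds q (4 * stepN B ds.length n * (n + 1)))

lemma primrec_fdApprox {B : ℕ → ℕ} (hB : Primrec B) (C : ℕ) {E : XQ × ℕ → ℚ} (hE : Primrec E) :
    Primrec fun b : List (Fin 4) × XQ × ℕ => fdApprox B C E b.1 b.2.1 b.2.2 := by
  have hN : Primrec fun x : (List (Fin 4) × XQ × ℕ) × (Fin 4 × List (Fin 4)) =>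
      stepN B x.2.2.length x.1.2.2 :=
    Primrec.nat_mul.comp (Primrec.nat_double.comp
      (Primrec.succ.comp (Primrec.snd.comp (Primrec.snd.comp Primrec.fst))))
      (Primrec.succ.comp (hB.comp (Primrec.succ.comp (Primrec.succ.comp
        (Primrec.list_length.comp (Primrec.snd.comp Primrec.snd))))))
  have hM : Primrec fun x : (List (Fin 4) × XQ × ℕ) × (Fin 4 × List (Fin 4)) =>
      4 * stepN B x.2.2.length x.1.2.2 * (x.1.2.2 + 1) :=
    Primrec.nat_mul.comp (Primrec.nat_mul.comp (Primrec.const 4) hN)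
      (Primrec.succ.comp (Primrec.snd.comp (Primrec.snd.comp Primrec.fst)))
  refine Primrec.nat_omega_rec' _ (m := fun b => b.1.length)
    (l := fun b => List.casesOn b.1 [] fun d ds =>
      [(ds, shift b.2.1 d (stepN B ds.length b.2.2 : ℚ)⁻¹,
          4 * stepN B ds.length b.2.2 * (b.2.2 + 1)),
        (ds, b.2.1, 4 * stepN B ds.length b.2.2 * (b.2.2 + 1))])
    (g := fun b L => some (List.casesOn b.1 (E (b.2.1, C * (b.2.2 + 1))) fun _ ds =>
      (stepN B ds.length b.2.2 : ℚ) * (L.getD 0 0 - L.getD 1 0)))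
    (Primrec.list_length.comp Primrec.fst) ?_ ?_ ?_ ?_
  · refine Primrec.list_casesOn (f := fun b : List (Fin 4) × XQ × ℕ => b.1)
      (h := fun b x => [(x.2, shift b.2.1 x.1 (stepN B x.2.length b.2.2 : ℚ)⁻¹,
          4 * stepN B x.2.length b.2.2 * (b.2.2 + 1)),
        (x.2, b.2.1, 4 * stepN B x.2.length b.2.2 * (b.2.2 + 1))])
      Primrec.fst (Primrec.const []) ?_
    refine Primrec.list_cons.comp ((Primrec.snd.comp Primrec.snd).pair
      ((primrec_shift (Primrec.fst.comp (Primrec.snd.comp Primrec.fst))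
        (Primrec.fst.comp Primrec.snd) (H6Rat.inv (H6Rat.natCast hN))).pair hM)) ?_
    exact Primrec.list_cons.comp ((Primrec.snd.comp Primrec.snd).pair
      ((Primrec.fst.comp (Primrec.snd.comp Primrec.fst)).pair hM)) (Primrec.const [])
  · refine Primrec.option_some.comp ?_
    refine Primrec.list_casesOn (f := fun b : (List (Fin 4) × XQ × ℕ) × List ℚ => b.1.1)
      (h := fun b x => (stepN B x.2.length b.1.2.2 : ℚ) * (b.2.getD 0 0 - b.2.getD 1 0))
      (Primrec.fst.comp Primrec.fst) ?_ ?_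
    · exact hE.comp ((Primrec.fst.comp (Primrec.snd.comp Primrec.fst)).pair
        (Primrec.nat_mul.comp (Primrec.const C)
          (Primrec.succ.comp (Primrec.snd.comp (Primrec.snd.comp Primrec.fst)))))
    · exact H6Rat.mul (H6Rat.natCast (hN.comp ((Primrec.fst.comp Primrec.fst).pair Primrec.snd)))
        (H6Rat.sub ((Primrec.list_getD 0).comp (Primrec.snd.comp Primrec.fst) (Primrec.const 0))
          ((Primrec.list_getD 0).comp (Primrec.snd.comp Primrec.fst) (Primrec.const 1)))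
  · rintro ⟨ds, q, n⟩ b' hb'
    cases ds with
    | nil => simp at hb'
    | cons d ds =>
      simp only [List.mem_cons, List.not_mem_nil, or_false] at hb'
      rcases hb' with rfl | rfl <;> simp
  · rintro ⟨ds, q, n⟩
    cases ds with
    | nil => rfl
    | cons d ds => simp [fdApprox]

lemma hasDerivAt_line {g : X → ℝ} (hg : ContDiff ℝ ∞ g) (p v : X) (s : ℝ) :
    HasDerivAt (fun s : ℝ => g (p + s • v)) (fderiv ℝ g (p + s • v) v) s := by
  have h1 : HasDerivAt (fun s : ℝ => p + s • v) v s := by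
    simpa using ((hasDerivAt_id s).smul_const v).const_add p
  exact ((hg.differentiable (by simp)) _).hasFDerivAt.comp_hasDerivAt s h1

lemma taylor_line {f : X → ℝ} (hf : ContDiff ℝ ∞ f) (ds : List (Fin 4)) (d : Fin 4) (M : ℝ)
    (hM : ∀ p, |D (d :: d :: ds) f p| ≤ M) (p : X) (r : ℝ) (hr : 0 ≤ r) :
    |D ds f (p + r • direction d) - D ds f p - r * D (d :: ds) f p| ≤ M * r * r := by
  have h1 : ∀ s ∈ Set.Icc 0 r, |D (d :: ds) f (p + s • direction d) - D (d :: ds) f p| ≤ M * r := by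
    intro s hs
    have := norm_image_sub_le_of_norm_deriv_le_segment' (a := 0) (b := r) (C := M)
      (f := fun s : ℝ => D (d :: ds) f (p + s • direction d))
      (f' := fun s => D (d :: d :: ds) f (p + s • direction d))
      (fun x _ => (hasDerivAt_line (contDiff_D hf (d :: ds)) p (direction d) x).hasDerivWithinAt)
      (fun x _ => hM _) s hs
    have hM0 : 0 ≤ M := (abs_nonneg _).trans (hM p)
    simp only [zero_smul, add_zero, sub_zero, Real.norm_eq_abs] at this
    exact this.trans (mul_le_mul_of_nonneg_left hs.2 hM0)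
  have := norm_image_sub_le_of_norm_deriv_le_segment' (a := 0) (b := r) (C := M * r)
      (f := fun s : ℝ => D ds f (p + s • direction d) - s * D (d :: ds) f p)
      (f' := fun s => D (d :: ds) f (p + s • direction d) - D (d :: ds) f p)
      (fun x _ => by
        have a1 := hasDerivAt_line (contDiff_D hf ds) p (direction d) x
        have a2 := (hasDerivAt_id x).mul_const (D (d :: ds) f p)
        simp only [id, one_mul] at a2
        exact (a1.sub a2).hasDerivWithinAt)
      (fun x hx => h1 x ⟨hx.1, hx.2.le⟩) r ⟨hr, le_rfl⟩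
  simp only [zero_smul, add_zero, sub_zero, Real.norm_eq_abs, zero_mul] at this
  refine le_trans (le_of_eq ?_) this
  congr 1; ring

lemma abs_D_le {f : X → ℝ} (hf : ContDiff ℝ ∞ f) {B : ℕ → ℕ}
    (hB : ∀ n i, i ≤ n → ∀ p : X, ‖iteratedFDeriv ℝ i f p‖ ≤ B n) (ds : List (Fin 4)) (p : X) :
    |D ds f p| ≤ B ds.length := by
  have := norm_iteratedFDeriv_D hf ds 0 p
  rw [norm_iteratedFDeriv_zero, zero_add] at this
  exact this.trans (hB _ _ le_rfl p)

lemma fdApprox_spec {f : X → ℝ} (hf : ContDiff ℝ ∞ f) {B : ℕ → ℕ}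
    (hB : ∀ n i, i ≤ n → ∀ p : X, ‖iteratedFDeriv ℝ i f p‖ ≤ B n) {C : ℕ} {E : XQ × ℕ → ℚ}
    (hE : ∀ q n, |f (ι q) - E (q, n)| ≤ C / ((n : ℝ) + 1)) (ds : List (Fin 4)) :
    ∀ q n, |D ds f (ι q) - fdApprox B C E ds q n| ≤ 1 / ((n : ℝ) + 1) := by
  induction ds with
  | nil =>
    intro q n
    refine (hE q (C * (n + 1))).trans ?_
    rw [div_le_div_iff₀ (by positivity) (by positivity)]
    push_cast
    linarith
  | cons d ds ih =>
    intro q n
    simp only [fdApprox]
    set N := stepN B ds.length n with hN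
    have hN' : (N : ℝ) = 2 * (n + 1) * (B (ds.length + 2) + 1) := by
      rw [hN, stepN]; push_cast; ring
    have hN0 : (0 : ℝ) < N := by rw [hN']; positivity
    have h1 := ih (shift q d (N : ℚ)⁻¹) (4 * N * (n + 1))
    have h2 := ih q (4 * N * (n + 1))
    have h3 := taylor_line hf ds d (B (ds.length + 2)) (fun p => abs_D_le hf hB (d :: d :: ds) p)
      (ι q) (N : ℝ)⁻¹ (by positivity)
    rw [ι_shift] at h1
    push_cast at h1 h2 ⊢
    set a1 := (fdApprox B C E ds (shift q d (N : ℚ)⁻¹) (4 * N * (n + 1)) : ℝ)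
    set a2 := (fdApprox B C E ds q (4 * N * (n + 1)) : ℝ)
    set u := D ds f (ι q + (N : ℝ)⁻¹ • direction d)
    set v := D ds f (ι q)
    set w := D (d :: ds) f (ι q)
    have e : w - N * (a1 - a2) = N * ((u - a1) - (v - a2) - (u - v - (N : ℝ)⁻¹ * w)) := by
      field_simp; ring
    rw [e, abs_mul, abs_of_pos hN0]
    have h4 : |(u - a1) - (v - a2) - (u - v - (N : ℝ)⁻¹ * w)| ≤
        1 / (4 * (N : ℝ) * (n + 1) + 1) + 1 / (4 * (N : ℝ) * (n + 1) + 1) +
          B (ds.length + 2) * (N : ℝ)⁻¹ * (N : ℝ)⁻¹ :=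
      (abs_sub _ _).trans (add_le_add ((abs_sub _ _).trans (add_le_add h1 h2)) h3)
    refine (mul_le_mul_of_nonneg_left h4 hN0.le).trans ?_
    have h5 : (N : ℝ) * (1 / (4 * (N : ℝ) * (n + 1) + 1)) ≤ 1 / 4 * (1 / ((n : ℝ) + 1)) := by
      rw [mul_one_div, div_mul_div_comm, div_le_div_iff₀ (by positivity) (by positivity)]
      nlinarith
    have h6 : (N : ℝ) * (B (ds.length + 2) * (N : ℝ)⁻¹ * (N : ℝ)⁻¹) ≤
        1 / 2 * (1 / ((n : ℝ) + 1)) := by
      have : (N : ℝ) * (B (ds.length + 2) * (N : ℝ)⁻¹ * (N : ℝ)⁻¹) = B (ds.length + 2) / N := by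
        field_simp
      rw [this, div_mul_div_comm, div_le_div_iff₀ hN0 (by positivity), hN']
      have : (0 : ℝ) ≤ n := Nat.cast_nonneg n
      nlinarith
    rw [mul_add, mul_add]
    linarith

lemma GEff.fd {f : X → ℝ} (hf : GEff f) :
    ∃ (E : List (Fin 4) × XQ × ℕ → ℚ) (B : ℕ → ℕ), Primrec E ∧ Primrec B ∧
      (∀ ds q n, |D ds f (ι q) - E (ds, q, n)| ≤ 1 / ((n : ℝ) + 1)) ∧
      ∀ ds p, |D ds f p| ≤ B ds.length := by
  obtain ⟨B, hB, h1⟩ := hf.bnd
  obtain ⟨C, E, hE, h2⟩ := hf.app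
  exact ⟨_, B, primrec_fdApprox hB C hE, hB, fun ds => fdApprox_spec hf.smooth h1 h2 ds,
    abs_D_le hf.smooth h1⟩

lemma GEff.deriv {f : X → ℝ} (hf : GEff f) (d : Fin 4) :
    GEff fun p => fderiv ℝ f p (direction d) := by
  refine ⟨contDiff_D hf.smooth [d], ?_, ?_⟩
  · obtain ⟨B, hB, h1⟩ := hf.bnd
    exact ⟨fun n => B (n + 1), hB.comp Primrec.succ, fun n i hi p =>
      (norm_iteratedFDeriv_D hf.smooth [d] i p).trans (h1 _ _ (by simpa using hi) p)⟩
  · obtain ⟨E, B, hE, -, h1, -⟩ := hf.fd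
    refine ⟨1, fun x => E ([d], x), hE.comp ((Primrec.const _).pair Primrec.id), fun q n => ?_⟩
    simpa [D] using h1 [d] q n

lemma contDiff_mixedDeriv {U : Field} (hU : ContDiff ℝ ∞ U) (ds : List (Fin 4)) :
    ContDiff ℝ ∞ (mixedDeriv ds U) := by
  induction ds with
  | nil => exact hU
  | cons d ds ih =>
    exact (ih.fderiv_right (m := ∞) le_rfl).clm_apply contDiff_const

lemma mixedDeriv_apply {U : Field} (hU : ContDiff ℝ ∞ U) (ds : List (Fin 4)) (j : Fin 3) :
    (fun p => mixedDeriv ds U p j) = D ds fun p => U p j := by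
  induction ds with
  | nil => rfl
  | cons d ds ih =>
    ext p
    simp only [mixedDeriv, D]
    rw [← ih, fderiv_apply (((contDiff_mixedDeriv hU ds).differentiable (by simp)) p) j]
    rfl

lemma effective_of_geff {U : Field} (h : ∀ j, GEff fun p => U p j) : Effective U := by
  have hU : ContDiff ℝ ∞ U := contDiff_pi.mpr fun j => (h j).smooth
  choose E B hE hB h1 h2 using fun j => (h j).fd
  refine ⟨fun x j => E j x, fun ds => B 0 ds.length + B 1 ds.length + B 2 ds.length, ?_, ?_, ?_, ?_⟩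
  · exact (Primrec.fin_curry.mpr (Primrec.fin_curry₁.mpr hE).swap).to_comp
  · exact (Primrec.nat_add.comp (Primrec.nat_add.comp ((hB 0).comp Primrec.list_length)
      ((hB 1).comp Primrec.list_length)) ((hB 2).comp Primrec.list_length)).to_comp
  · intro ds t q n j
    have := h1 j ds (t, q) n
    rw [← mixedDeriv_apply hU] at this
    exact this
  · intro ds p j
    have := h2 j ds p
    rw [← mixedDeriv_apply hU] at this
    refine this.trans ?_
    have : B j ds.length ≤ B 0 ds.length + B 1 ds.length + B 2 ds.length := by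
      fin_cases j <;> simp <;> omega
    exact_mod_cast this

end Crest.Agent.H6Eff
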