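import Mathlib
import Crest.Agent.H6.EffFD

/-! Auxiliary lemmas for the box-flow construction. -/

set_option autoImplicit false

namespace Crest.Agent.H6Eff

open scoped ContDiff
open Crest.AnalysisR.BoxFlow

/-- a cutoff: `1` on `[-r, r]`, `0` outside `(-(r + ε), r + ε)` -/
noncomputable def bump (r ε : ℚ) (z : ℝ) : ℝ :=
  Real.smoothTransition ((r + ε - z) * (ε⁻¹ : ℚ)) * Real.smoothTransition ((r + ε + z) * (ε⁻¹ : ℚ))

lemma bump_eq_one {r ε : ℚ} (hε : 0 < ε) {z : ℝ} (hz : |z| ≤ r) : bump r ε z = 1 := by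
  have hε' : (0 : ℝ) < ε := by exact_mod_cast hε
  rw [abs_le] at hz
  rw [bump, Real.smoothTransition.one_of_one_le, Real.smoothTransition.one_of_one_le, one_mul]
  · push_cast; rw [← div_eq_mul_inv, le_div_iff₀ hε']; linarith
  · push_cast; rw [← div_eq_mul_inv, le_div_iff₀ hε']; linarith

lemma bump_eq_zero {r ε : ℚ} (hε : 0 < ε) {z : ℝ} (hz : (r : ℝ) + ε ≤ |z|) : bump r ε z = 0 := by
  have hε' : (0 : ℝ) < ε := by exact_mod_cast hε
  have hi : (0 : ℝ) ≤ (ε⁻¹ : ℚ) := by push_cast; positivity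
  rcases le_abs.mp hz with h | h
  · rw [bump, Real.smoothTransition.zero_of_nonpos (x := (r + ε - z) * (ε⁻¹ : ℚ)), zero_mul]
    exact mul_nonpos_of_nonpos_of_nonneg (by linarith) hi
  · rw [bump, Real.smoothTransition.zero_of_nonpos (x := (r + ε + z) * (ε⁻¹ : ℚ)), mul_zero]
    exact mul_nonpos_of_nonpos_of_nonneg (by linarith) hi

lemma LEff.bump {f : X → ℝ} (hf : LEff f) (r ε : ℚ) : LEff fun p => bump r ε (f p) :=
  (((((LEff.const r).add (LEff.const ε)).sub hf).mul (LEff.const _)).sT).mul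
    (((((LEff.const r).add (LEff.const ε)).add hf).mul (LEff.const _)).sT)

lemma LEff.deriv {f : X → ℝ} (hf : LEff f) (d : Fin 4) :
    LEff fun p => fderiv ℝ f p (direction d) := by
  have key : ∀ R : ℕ, ∃ g : X → ℝ, GEff g ∧ ∀ p : X, ‖p‖ ≤ R →
      g =ᶠ[nhds p] fun p => fderiv ℝ f p (direction d) := by
    intro R
    let κ : X → ℝ := fun p => H6Eff.bump (R + 1) 1 p.1 * (H6Eff.bump (R + 1) 1 (p.2 0) *
      (H6Eff.bump (R + 1) 1 (p.2 1) * H6Eff.bump (R + 1) 1 (p.2 2)))
    have hκ : LEff κ := (LEff.time.bump _ _).mul (((LEff.coord 0).bump _ _).mul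
      (((LEff.coord 1).bump _ _).mul ((LEff.coord 2).bump _ _)))
    have h1 : GEff fun p => κ p * f p := by
      refine (hκ.mul hf).geff (R + 2) fun p hp => ?_
      have : κ p = 0 := by
        by_contra hne
        have hb : ∀ z : ℝ, H6Eff.bump (R + 1) 1 z ≠ 0 → |z| ≤ ((R + 2 : ℕ) : ℝ) := by
          intro z hz
          by_contra hlt
          refine hz (bump_eq_zero one_pos ?_)
          push_cast at hlt ⊢
          linarith [not_le.mp hlt]
        simp only [κ, mul_eq_zero, not_or] at hne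
        refine absurd hp (not_lt.mpr ?_)
        rw [norm_prod_le_iff, pi_norm_le_iff_of_nonneg (Nat.cast_nonneg _), Fin.forall_fin_succ,
          Fin.forall_fin_two]
        exact ⟨hb _ hne.1, hb _ hne.2.1, hb _ hne.2.2.1, hb _ hne.2.2.2⟩
      rw [this, zero_mul]
    refine ⟨_, h1.deriv d, fun p hp => ?_⟩
    have h2 : (fun p => κ p * f p) =ᶠ[nhds p] f := by
      have : ‖p‖ < (R : ℝ) + 1 := by linarith
      filter_upwards [(isOpen_lt continuous_norm continuous_const).mem_nhds this] with x hx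
      have hx' : ‖x‖ ≤ (R : ℝ) + 1 := le_of_lt hx
      have hb : ∀ z : ℝ, |z| ≤ (R : ℝ) + 1 → H6Eff.bump (R + 1) 1 z = 1 := fun z hz =>
        bump_eq_one one_pos (by push_cast; exact hz)
      have a1 := hb x.1 ((norm_fst_le x).trans hx')
      have a2 := fun j => hb (x.2 j) (((norm_le_pi_norm x.2 j).trans (norm_snd_le x)).trans hx')
      simp only [κ, a1, a2, one_mul]
    filter_upwards [h2.fderiv (𝕜 := ℝ)] with x hx
    rw [hx]
  refine ⟨contDiff_D hf.smooth [d], fun R => ?_, fun R => ?_⟩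
  · obtain ⟨g, hg, h⟩ := key R
    obtain ⟨B, hB, h1⟩ := hg.bnd
    refine ⟨B, hB, fun n i hi p hp => ?_⟩
    rw [← ((h p hp).iteratedFDeriv ℝ i).eq_of_nhds]
    exact h1 n i hi p
  · obtain ⟨g, hg, h⟩ := key R
    obtain ⟨C, E, hE, h1⟩ := hg.app
    refine ⟨C, E, hE, fun q n hq => ?_⟩
    have := h1 q n
    rw [(h _ hq).eq_of_nhds] at this
    exact this

lemma contDiff_of_time {g : ℝ → ℝ} (hg : LEff fun p : X => g p.1) : ContDiff ℝ ∞ g :=
  hg.smooth.comp (f := fun t : ℝ => ((t, 0) : X)) (by fun_prop)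

lemma LEff.tderiv {g : ℝ → ℝ} (hg : LEff fun p : X => g p.1) :
    LEff fun p : X => _root_.deriv g p.1 := by
  refine (hg.deriv 0).of_eq fun p => ?_
  have h1 : HasFDerivAt (fun p : X => g p.1) _ p :=
    (((contDiff_of_time hg).differentiable (by simp)) p.1).hasDerivAt.comp_hasFDerivAt p
      (hasFDerivAt_fst (𝕜 := ℝ))
  rw [h1.fderiv]
  simp [direction]

/-- global solutions for a compactly supported field active only in `(0, 1)` -/
lemma exists_global_solution {U : Field} (hU : ContDiff ℝ ∞ U) (hc : HasCompactSupport U)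
    (h0 : ∀ p : X, p.1 ∉ Set.Icc (1 / 4 : ℝ) (3 / 4) → U p = 0) (x : Fin 3 → ℝ) :
    ∃ γ : ℝ → Fin 3 → ℝ, γ 0 = x ∧ ∀ t, HasDerivAt γ (U (t, γ t)) t := by
  obtain ⟨K, hK⟩ := ContDiff.lipschitzWith_of_hasCompactSupport hc hU (by simp)
  obtain ⟨L, hL⟩ := hc.exists_bound_of_continuous hU.continuous
  have hL0 : 0 ≤ L := (norm_nonneg _).trans (hL 0)
  have hpl : IsPicardLindelof (fun t y => U (t, y)) (tmin := 0) (tmax := 1) ⟨0, by simp⟩ x
      ⟨L, hL0⟩ 0 ⟨L, hL0⟩ K := by
    refine ⟨fun t _ => ?_, fun y _ => ?_, fun t _ y _ => hL _, by simp⟩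
    · have := hK.comp (LipschitzWith.prodMk_left t)
      rw [mul_one] at this
      exact this.lipschitzOnWith
    · exact (hU.continuous.comp (continuous_id.prodMk continuous_const)).continuousOn
  obtain ⟨α, hα0, hα⟩ := hpl.exists_eq_forall_mem_Icc_hasDerivWithinAt₀
  refine ⟨fun t => α (max 0 (min t 1)), by simpa using hα0, fun t => ?_⟩
  have h1 : HasDerivWithinAt (fun t => α (max 0 (min t 1))) (U (t, α (max 0 (min t 1))))
      (Set.Iic 0) t := by
    by_cases ht : t ∈ Set.Iic (0 : ℝ)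
    · rw [h0 _ (fun h => by have := h.1; have : t ≤ 0 := ht; simp only at *; linarith)]
      refine (hasDerivWithinAt_const t _ (α 0)).congr (fun s hs => ?_) ?_
      · rw [max_eq_left ((min_le_left _ _).trans hs)]
      · rw [max_eq_left ((min_le_left _ _).trans ht)]
    · exact HasFDerivWithinAt.of_notMem_closure (by rwa [closure_Iic])
  have h2 : HasDerivWithinAt (fun t => α (max 0 (min t 1))) (U (t, α (max 0 (min t 1))))
      (Set.Ici 1) t := by
    by_cases ht : t ∈ Set.Ici (1 : ℝ)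
    · rw [h0 _ (fun h => by have := h.2; have : 1 ≤ t := ht; simp only at *; linarith)]
      refine (hasDerivWithinAt_const t _ (α 1)).congr (fun s hs => ?_) ?_
      · rw [min_eq_right hs, max_eq_right zero_le_one]
      · rw [min_eq_right ht, max_eq_right zero_le_one]
    · exact HasFDerivWithinAt.of_notMem_closure (by rwa [closure_Ici])
  have h3 : HasDerivWithinAt (fun t => α (max 0 (min t 1))) (U (t, α (max 0 (min t 1))))
      (Set.Icc 0 1) t := by
    by_cases ht : t ∈ Set.Icc (0 : ℝ) 1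
    · have e : ∀ s ∈ Set.Icc (0 : ℝ) 1, max 0 (min s 1) = s := fun s hs => by
        rw [min_eq_left hs.2, max_eq_right hs.1]
      rw [e t ht]
      exact (hα t ht).congr (fun s hs => by rw [e s hs]) (by rw [e t ht])
    · exact HasFDerivWithinAt.of_notMem_closure (by rwa [closure_Icc])
  have := (h1.union h3).union h2
  rwa [Set.Iic_union_Icc_eq_Iic zero_le_one, Set.Iic_union_Ici, hasDerivWithinAt_univ] at this

/-- the divergence-free field with stream functions `ψ`, `ψ'` -/
noncomputable def curl (ψ ψ' : X → ℝ) : Field := fun p =>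
  ![fderiv ℝ ψ p (direction 3), fderiv ℝ ψ' p (direction 3),
    -fderiv ℝ ψ p (direction 1) - fderiv ℝ ψ' p (direction 2)]

lemma direction_one : direction 1 = (0, Pi.single 0 1) := rfl
lemma direction_two : direction 2 = (0, Pi.single 1 1) := rfl
lemma direction_three : direction 3 = (0, Pi.single 2 1) := rfl

lemma fderiv_fderiv_symm {f : X → ℝ} (hf : ContDiff ℝ ∞ f) (p v w : X) :
    fderiv ℝ (fun p => fderiv ℝ f p v) p w = fderiv ℝ (fun p => fderiv ℝ f p w) p v := by
  have hd : DifferentiableAt ℝ (fderiv ℝ f) p :=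
    ((hf.fderiv_right (m := ∞) le_rfl).differentiable (by simp)) p
  rw [fderiv_clm_apply hd (differentiableAt_const _), fderiv_clm_apply hd (differentiableAt_const _)]
  have := (hf.contDiffAt (x := p)).isSymmSndFDerivAt (by simp; exact cast_le_top 2)
  simpa using this w v

lemma leff_curl {ψ ψ' : X → ℝ} (h : LEff ψ) (h' : LEff ψ') (j : Fin 3) :
    LEff fun p => curl ψ ψ' p j := by
  fin_cases j
  · exact h.deriv 3
  · exact h'.deriv 3
  · exact (h.deriv 1).neg.sub (h'.deriv 2)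

lemma spaceDiv_curl {ψ ψ' : X → ℝ} (h : LEff ψ) (h' : LEff ψ') (p : X) :
    spaceDiv (curl ψ ψ') p = 0 := by
  have hU : ContDiff ℝ ∞ (curl ψ ψ') := contDiff_pi.mpr fun j => (leff_curl h h' j).smooth
  have e : ∀ (v : X) j, fderiv ℝ (curl ψ ψ') p v j = fderiv ℝ (fun p => curl ψ ψ' p j) p v := by
    intro v j
    rw [fderiv_apply ((hU.differentiable (by simp)) p) j]; rfl
  simp only [spaceDiv, Fin.sum_univ_three, e]
  have d1 := ((h.deriv 1).smooth.differentiable (by simp)) p
  have d2 := ((h'.deriv 2).smooth.differentiable (by simp)) p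
  have e0 : (fun p => curl ψ ψ' p 0) = fun p => fderiv ℝ ψ p (direction 3) := rfl
  have e1 : (fun p => curl ψ ψ' p 1) = fun p => fderiv ℝ ψ' p (direction 3) := rfl
  have e2 : (fun p => curl ψ ψ' p 2) =
    fun p => -fderiv ℝ ψ p (direction 1) - fderiv ℝ ψ' p (direction 2) := rfl
  rw [e0, e1, e2, fderiv_fun_sub d1.fun_neg d2, fderiv_fun_neg, ← direction_one, ← direction_two,
    ← direction_three, fderiv_fderiv_symm h.smooth p (direction 3) (direction 1),
    fderiv_fderiv_symm h'.smooth p (direction 3) (direction 2)]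
  simp

lemma curl_congr {ψ ψ' φ φ' : X → ℝ} {p : X} (h : ψ =ᶠ[nhds p] φ) (h' : ψ' =ᶠ[nhds p] φ') :
    curl ψ ψ' p = curl φ φ' p := by
  simp only [curl, h.fderiv_eq, h'.fderiv_eq]

lemma curl_zero (p : X) : curl (fun _ => 0) (fun _ => 0) p = 0 := by
  ext j; fin_cases j <;> simp [curl]

lemma fderiv_space {f : X → ℝ} {p : X} (hf : DifferentiableAt ℝ f p) (j : Fin 3) {r : ℝ}
    (h : HasDerivAt (fun s : ℝ => f (p.1, p.2 + s • Pi.single j 1)) r 0) :
    fderiv ℝ f p (0, Pi.single j 1) = r := by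
  have h1 : HasDerivAt (fun s : ℝ => p + s • ((0, Pi.single j 1) : X)) (0, Pi.single j 1) 0 := by
    simpa using ((hasDerivAt_id (0 : ℝ)).smul_const ((0, Pi.single j 1) : X)).const_add p
  have h2 : HasFDerivAt f (fderiv ℝ f p) (p + (0 : ℝ) • ((0, Pi.single j 1) : X)) := by
    simpa using hf.hasFDerivAt
  have h3 := h2.comp_hasDerivAt (0 : ℝ) h1
  refine h3.unique ?_
  refine h.congr_of_eventuallyEq (Filter.Eventually.of_forall fun s => ?_)
  simp only [Function.comp_apply]
  congr 1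
  ext <;> simp

/-- the stream functions of an affine diagonal field -/
lemma curl_affine {c v D : Fin 3 → ℝ → ℝ} (hc : ∀ j, Differentiable ℝ (c j))
    (hv : ∀ j, Differentiable ℝ (v j)) (hD : ∀ j, Differentiable ℝ (D j))
    (p : X) (hsum : D 0 p.1 + D 1 p.1 + D 2 p.1 = 0) :
    curl (fun p => D 0 p.1 * (p.2 0 - c 0 p.1) * (p.2 2 - c 2 p.1) + v 0 p.1 * (p.2 2 - c 2 p.1)
        - v 2 p.1 * (p.2 0 - c 0 p.1))
      (fun p => D 1 p.1 * (p.2 1 - c 1 p.1) * (p.2 2 - c 2 p.1) + v 1 p.1 * (p.2 2 - c 2 p.1)) p =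
      fun j => v j p.1 + D j p.1 * (p.2 j - c j p.1) := by
  have hc0 := hc 0; have hc1 := hc 1; have hc2 := hc 2
  have hv0 := hv 0; have hv1 := hv 1; have hv2 := hv 2
  have hD0 := hD 0; have hD1 := hD 1
  have d1 : DifferentiableAt ℝ (fun p : X => D 0 p.1 * (p.2 0 - c 0 p.1) * (p.2 2 - c 2 p.1) +
      v 0 p.1 * (p.2 2 - c 2 p.1) - v 2 p.1 * (p.2 0 - c 0 p.1)) p := by fun_prop
  have d2 : DifferentiableAt ℝ (fun p : X => D 1 p.1 * (p.2 1 - c 1 p.1) * (p.2 2 - c 2 p.1) +
      v 1 p.1 * (p.2 2 - c 2 p.1)) p := by fun_prop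
  have lin : ∀ α β : ℝ, HasDerivAt (fun s : ℝ => α + β * s) β 0 := fun α β => by
    simpa using ((hasDerivAt_id (0 : ℝ)).const_mul β).const_add α
  have e1 := fderiv_space d1 2 (r := v 0 p.1 + D 0 p.1 * (p.2 0 - c 0 p.1))
    ((lin _ _).congr_of_eventuallyEq (Filter.Eventually.of_forall fun s => by
      simp only [Pi.add_apply, Pi.smul_apply, smul_eq_mul]
      simp
      change _ = (D 0 p.1 * (p.2 0 - c 0 p.1) * (p.2 2 - c 2 p.1) +
        v 0 p.1 * (p.2 2 - c 2 p.1) - v 2 p.1 * (p.2 0 - c 0 p.1)) + _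
      ring))
  have e2 := fderiv_space d2 2 (r := v 1 p.1 + D 1 p.1 * (p.2 1 - c 1 p.1))
    ((lin _ _).congr_of_eventuallyEq (Filter.Eventually.of_forall fun s => by
      simp only [Pi.add_apply, Pi.smul_apply, smul_eq_mul]
      simp
      change _ = (D 1 p.1 * (p.2 1 - c 1 p.1) * (p.2 2 - c 2 p.1) +
        v 1 p.1 * (p.2 2 - c 2 p.1)) + _
      ring))
  have e3 := fderiv_space d1 0 (r := D 0 p.1 * (p.2 2 - c 2 p.1) - v 2 p.1)
    ((lin _ _).congr_of_eventuallyEq (Filter.Eventually.of_forall fun s => by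
      simp only [Pi.add_apply, Pi.smul_apply, smul_eq_mul]
      simp
      change _ = (D 0 p.1 * (p.2 0 - c 0 p.1) * (p.2 2 - c 2 p.1) +
        v 0 p.1 * (p.2 2 - c 2 p.1) - v 2 p.1 * (p.2 0 - c 0 p.1)) + _
      ring))
  have e4 := fderiv_space d2 1 (r := D 1 p.1 * (p.2 2 - c 2 p.1))
    ((lin _ _).congr_of_eventuallyEq (Filter.Eventually.of_forall fun s => by
      simp only [Pi.add_apply, Pi.smul_apply, smul_eq_mul]
      simp
      change _ = (D 1 p.1 * (p.2 1 - c 1 p.1) * (p.2 2 - c 2 p.1) +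
        v 1 p.1 * (p.2 2 - c 2 p.1)) + _
      ring))
  simp only [curl, direction_one, direction_two, direction_three, e1, e2, e3, e4]
  ext j
  fin_cases j
  · rfl
  · rfl
  · have : D 2 p.1 = -D 0 p.1 - D 1 p.1 := by linarith
    simp [this]; ring

lemma exists_sep_of_disjoint {a h a' h' : Fin 3 → ℚ} (hh : ∀ j, 0 < h j) (hh' : ∀ j, 0 < h' j)
    (hd : Disjoint (box a h) (box a' h')) : ∃ j, h j + h' j < |a j - a' j| := by
  by_contra hne
  push Not at hne
  refine Set.disjoint_left.mp hd (show (fun j =>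
    (((h' j * a j + h j * a' j) / (h j + h' j) : ℚ) : ℝ)) ∈ box a h from fun j => ?_) (fun j => ?_)
  · have h1 := hh j; have h2 := hh' j; have h3 := hne j
    have e : (h' j * a j + h j * a' j) / (h j + h' j) - a j =
        -(h j / (h j + h' j) * (a j - a' j)) := by field_simp; ring
    have : |(h' j * a j + h j * a' j) / (h j + h' j) - a j| ≤ h j := by
      rw [e, abs_neg, abs_mul, abs_of_pos (by positivity), div_mul_eq_mul_div,
        div_le_iff₀ (by positivity)]
      exact mul_le_mul_of_nonneg_left h3 h1.le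
    beta_reduce
    exact_mod_cast this
  · have h1 := hh j; have h2 := hh' j; have h3 := hne j
    have e : (h' j * a j + h j * a' j) / (h j + h' j) - a' j =
        h' j / (h j + h' j) * (a j - a' j) := by field_simp; ring
    have : |(h' j * a j + h j * a' j) / (h j + h' j) - a' j| ≤ h' j := by
      rw [e, abs_mul, abs_of_pos (by positivity), div_mul_eq_mul_div,
        div_le_iff₀ (by positivity)]
      exact mul_le_mul_of_nonneg_left h3 h2.le
    beta_reduce
    exact_mod_cast this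

lemma exists_generic {κ : Type*} [Finite κ] (u v : κ → Fin 3 → ℝ) :
    ∃ w : Fin 3 → ℚ, ∀ i, ratPoint w ∉ Submodule.span ℝ {u i, v i} := by
  have h1 : (⋃ i, (Submodule.span ℝ {u i, v i} : Set (Fin 3 → ℝ))) ≠ Set.univ := by
    intro h
    obtain ⟨i, hi⟩ := Subspace.exists_eq_top_of_iUnion_eq_univ h
    classical
    have := finrank_span_finset_le_card (R := ℝ) ({u i, v i} : Finset (Fin 3 → ℝ))
    have h2 : ({u i, v i} : Finset (Fin 3 → ℝ)).card ≤ 2 := Finset.card_le_two
    rw [Set.finrank, Finset.coe_pair, hi] at this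
    simp at this
    omega
  have h2 : IsClosed (⋃ i, (Submodule.span ℝ {u i, v i} : Set (Fin 3 → ℝ))) :=
    isClosed_iUnion_of_finite fun i => Submodule.closed_of_finiteDimensional _
  have h3 : DenseRange ratPoint := DenseRange.piMap fun _ : Fin 3 => Rat.denseRange_cast
  obtain ⟨w, hw⟩ := h3.exists_mem_open h2.isOpen_compl (Set.nonempty_compl.mpr h1)
  exact ⟨w, fun i hi => hw (Set.mem_iUnion.mpr ⟨i, hi⟩)⟩

end Crest.Agent.H6Eff
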