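import Mathlib
import Crest.Agent.H6.BoxAux

/-! The flow carrying moving boxes along prescribed tubes. -/

set_option autoImplicit false

namespace Crest.Agent.H6Eff

open scoped ContDiff
open Crest.AnalysisR.BoxFlow

theorem exists_flow_of_tubes {n : ℕ} (c H : Fin n → Fin 3 → ℝ → ℝ) (ν : ℚ) (hν : 0 < ν)
    (hc : ∀ i j, LEff fun p : X => c i j p.1) (hH : ∀ i j, LEff fun p : X => H i j p.1)
    (δ : ℝ) (hδ0 : 0 < δ) (hδ : ∀ i j t, δ ≤ H i j t)
    (M : ℝ) (hcM : ∀ i j t, |c i j t| ≤ M) (hHM : ∀ i j t, H i j t ≤ M)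
    (hvol : ∀ i, ∃ V, ∀ t, H i 0 t * H i 1 t * H i 2 t = V)
    (hstat : ∀ i j t, t ∉ Set.Icc (1 / 4 : ℝ) (3 / 4) →
      deriv (c i j) t = 0 ∧ deriv (H i j) t = 0)
    (hsep : ∀ t i i', i ≠ i' → ∃ j, (1 + 2 * ν) * (H i j t + H i' j t) ≤ |c i j t - c i' j t|) :
    ∃ (U : Field) (Φ : ℝ → (Fin 3 → ℝ) → (Fin 3 → ℝ)),
      ContDiff ℝ ∞ U ∧ HasCompactSupport U ∧ Effective U ∧
      (∀ p : ℝ × (Fin 3 → ℝ), p.1 ∉ Set.Icc (1 / 4 : ℝ) (3 / 4) → U p = 0) ∧
      (∀ p : ℝ × (Fin 3 → ℝ), spaceDiv U p = 0) ∧ IsFlow U Φ ∧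
      ∀ i x, (∀ j, |x j - c i j 0| < (1 + ν) * H i j 0) →
        Φ 1 x = fun j => c i j 1 + H i j 1 / H i j 0 * (x j - c i j 0) := by
  have hν' : (0 : ℝ) < ν := by exact_mod_cast hν
  have hpos : ∀ i j t, 0 < H i j t := fun i j t => hδ0.trans_le (hδ i j t)
  have hcd : ∀ i j, Differentiable ℝ (c i j) := fun i j =>
    (contDiff_of_time (hc i j)).differentiable (by simp)
  have hHd : ∀ i j, Differentiable ℝ (H i j) := fun i j =>
    (contDiff_of_time (hH i j)).differentiable (by simp)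
  set v : Fin n → Fin 3 → ℝ → ℝ := fun i j => deriv (c i j) with hv
  set Dg : Fin n → Fin 3 → ℝ → ℝ := fun i j t => deriv (H i j) t * (H i j t)⁻¹ with hDg
  have hvE : ∀ i j, LEff fun p : X => v i j p.1 := fun i j => (hc i j).tderiv
  have hiE : ∀ i j, LEff fun p : X => (H i j p.1)⁻¹ := fun i j =>
    (hH i j).inv δ hδ0 fun p => hδ i j p.1
  have hDE : ∀ i j, LEff fun p : X => Dg i j p.1 := fun i j => (hH i j).tderiv.mul (hiE i j)
  have hyE : ∀ i j, LEff fun p : X => p.2 j - c i j p.1 := fun i j => (LEff.coord j).sub (hc i j)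
  have hsum : ∀ i t, Dg i 0 t + Dg i 1 t + Dg i 2 t = 0 := by
    intro i t
    obtain ⟨V, hV⟩ := hvol i
    have h1 := (((hHd i 0 t).hasDerivAt.mul (hHd i 1 t).hasDerivAt).mul (hHd i 2 t).hasDerivAt)
    have h2 : HasDerivAt (H i 0 * H i 1 * H i 2) 0 t :=
      (hasDerivAt_const t V).congr_of_eventuallyEq (Filter.Eventually.of_forall hV)
    have h3 := h1.unique h2
    have a0 := hpos i 0 t; have a1 := hpos i 1 t; have a2 := hpos i 2 t
    simp only [hDg, Pi.mul_apply] at h3 ⊢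
    field_simp
    linarith
  set χ : Fin n → X → ℝ := fun i p =>
    bump (1 + ν) ν ((p.2 0 - c i 0 p.1) * (H i 0 p.1)⁻¹) *
      (bump (1 + ν) ν ((p.2 1 - c i 1 p.1) * (H i 1 p.1)⁻¹) *
        bump (1 + ν) ν ((p.2 2 - c i 2 p.1) * (H i 2 p.1)⁻¹)) with hχ
  have hχE : ∀ i, LEff (χ i) := fun i => (((hyE i 0).mul (hiE i 0)).bump _ _).mul
    ((((hyE i 1).mul (hiE i 1)).bump _ _).mul (((hyE i 2).mul (hiE i 2)).bump _ _))
  have hχ1 : ∀ i (p : X), (∀ j, |p.2 j - c i j p.1| < (1 + ν) * H i j p.1) → χ i p = 1 := by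
    intro i p hp
    have : ∀ j, bump (1 + ν) ν ((p.2 j - c i j p.1) * (H i j p.1)⁻¹) = 1 := fun j => by
      refine bump_eq_one hν ?_
      rw [abs_mul, abs_of_pos (inv_pos.mpr (hpos i j _)), ← div_eq_mul_inv,
        div_le_iff₀ (hpos i j _)]
      push_cast
      exact (hp j).le
    simp only [hχ, this, mul_one]
  have hχ0 : ∀ i (p : X) j, (1 + 2 * ν) * H i j p.1 ≤ |p.2 j - c i j p.1| → χ i p = 0 := by
    intro i p j hp
    have : bump (1 + ν) ν ((p.2 j - c i j p.1) * (H i j p.1)⁻¹) = 0 := by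
      refine bump_eq_zero hν ?_
      rw [abs_mul, abs_of_pos (inv_pos.mpr (hpos i j _)), ← div_eq_mul_inv,
        le_div_iff₀ (hpos i j _)]
      push_cast
      refine le_trans (le_of_eq ?_) hp
      ring
    fin_cases j
    · simp only [hχ]; exact mul_eq_zero_of_left this _
    · simp only [hχ]; exact mul_eq_zero_of_right _ (mul_eq_zero_of_left this _)
    · simp only [hχ]; exact mul_eq_zero_of_right _ (mul_eq_zero_of_right _ this)
  set φ : Fin n → X → ℝ := fun i p => Dg i 0 p.1 * (p.2 0 - c i 0 p.1) * (p.2 2 - c i 2 p.1) +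
    v i 0 p.1 * (p.2 2 - c i 2 p.1) - v i 2 p.1 * (p.2 0 - c i 0 p.1) with hφ
  set φ' : Fin n → X → ℝ := fun i p => Dg i 1 p.1 * (p.2 1 - c i 1 p.1) * (p.2 2 - c i 2 p.1) +
    v i 1 p.1 * (p.2 2 - c i 2 p.1) with hφ'
  have hφE : ∀ i, LEff (φ i) := fun i =>
    ((((hDE i 0).mul (hyE i 0)).mul (hyE i 2)).add ((hvE i 0).mul (hyE i 2))).sub
      ((hvE i 2).mul (hyE i 0))
  have hφE' : ∀ i, LEff (φ' i) := fun i =>
    (((hDE i 1).mul (hyE i 1)).mul (hyE i 2)).add ((hvE i 1).mul (hyE i 2))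
  set ψ : X → ℝ := fun p => ∑ i, χ i p * φ i p with hψ
  set ψ' : X → ℝ := fun p => ∑ i, χ i p * φ' i p with hψ'
  have hψE : LEff ψ := LEff.sum _ fun i _ => (hχE i).mul (hφE i)
  have hψE' : LEff ψ' := LEff.sum _ fun i _ => (hχE i).mul (hφE' i)
  set U : Field := curl ψ ψ' with hU
  have hUE : ∀ j, LEff fun p => U p j := leff_curl hψE hψE'
  have hUs : ContDiff ℝ ∞ U := contDiff_pi.mpr fun j => (hUE j).smooth
  -- vanishing
  have hzero : ∀ W : Set X, IsOpen W → (∀ p ∈ W, ψ p = 0 ∧ ψ' p = 0) → ∀ p ∈ W, U p = 0 := by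
    intro W hW h p hp
    rw [hU, curl_congr (φ := fun _ => 0) (φ' := fun _ => 0), curl_zero]
    · filter_upwards [hW.mem_nhds hp] with x hx using (h x hx).1
    · filter_upwards [hW.mem_nhds hp] with x hx using (h x hx).2
  have hU0 : ∀ p : X, p.1 ∉ Set.Icc (1 / 4 : ℝ) (3 / 4) → U p = 0 := by
    refine hzero {p : X | p.1 ∉ Set.Icc (1 / 4 : ℝ) (3 / 4)}
      (isClosed_Icc.isOpen_compl.preimage continuous_fst) fun p hp => ?_
    have a1 : ∀ i j, v i j p.1 = 0 := fun i j => (hstat i j p.1 hp).1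
    have a2 : ∀ i j, Dg i j p.1 = 0 := fun i j => by
      simp only [hDg]; rw [(hstat i j p.1 hp).2, zero_mul]
    simp [hψ, hψ', hφ, hφ', a1, a2]
  obtain ⟨R, hR⟩ := exists_nat_ge (|M| + (1 + 2 * ν) * |M| + 1)
  have hM0 : 0 ≤ |M| := abs_nonneg M
  have hνM : 0 ≤ (1 + 2 * (ν : ℝ)) * |M| := by positivity
  have hU1 : ∀ p : X, (R : ℝ) < ‖p.2‖ → U p = 0 := by
    refine hzero {p : X | (R : ℝ) < ‖p.2‖}
      (isOpen_lt continuous_const (continuous_norm.comp continuous_snd)) fun p hp => ?_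
    have : ∀ i, χ i p = 0 := by
      intro i
      obtain ⟨j, hj⟩ : ∃ j, (R : ℝ) < |p.2 j| := by
        by_contra hne
        push Not at hne
        exact absurd hp (not_lt.mpr ((pi_norm_le_iff_of_nonneg (Nat.cast_nonneg R)).mpr hne))
      refine hχ0 i p j ?_
      have a1 := (hcM i j p.1).trans (le_abs_self M)
      have a2 := (hHM i j p.1).trans (le_abs_self M)
      have a3 := abs_sub_abs_le_abs_sub (p.2 j) (c i j p.1)
      have a4 := mul_le_mul_of_nonneg_left a2 (show (0 : ℝ) ≤ 1 + 2 * ν by positivity)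
      linarith
    simp [hψ, hψ', this]
  have hU2 : ∀ p : X, (R : ℝ) < ‖p‖ → U p = 0 := by
    intro p hp
    rw [Prod.norm_def, lt_max_iff] at hp
    rcases hp with hp | hp
    · refine hU0 p fun h => ?_
      have h1 : ‖p.1‖ ≤ 1 := by
        rw [Real.norm_eq_abs, abs_le]; constructor <;> linarith [h.1, h.2]
      linarith
    · exact hU1 p hp
  have hUc : HasCompactSupport U := by
    refine HasCompactSupport.intro (isCompact_closedBall (0 : X) R) fun p hp => hU2 p ?_
    rwa [mem_closedBall_zero_iff, not_le] at hp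
  have hUeff : Effective U :=
    effective_of_geff fun j => (hUE j).geff R fun p hp => by rw [hU2 p hp]; rfl
  -- the tubes
  have htube : ∀ i i' (p : X), i ≠ i' → (∀ j, |p.2 j - c i j p.1| < (1 + ν) * H i j p.1) →
      ∃ j, (1 + 2 * ν) * H i' j p.1 ≤ |p.2 j - c i' j p.1| := by
    intro i i' p hii hp
    obtain ⟨j, hj⟩ := hsep p.1 i i' hii
    refine ⟨j, ?_⟩
    have a1 := hp j
    have a2 := abs_sub_le (c i j p.1) (p.2 j) (c i' j p.1)
    rw [abs_sub_comm (c i j p.1) (p.2 j)] at a2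
    have a3 := mul_pos hν' (hpos i j p.1)
    nlinarith
  have hUW : ∀ i (p : X), (∀ j, |p.2 j - c i j p.1| < (1 + ν) * H i j p.1) →
      U p = fun j => v i j p.1 + Dg i j p.1 * (p.2 j - c i j p.1) := by
    intro i p hp
    have hW : IsOpen {p : X | ∀ j, |p.2 j - c i j p.1| < (1 + ν) * H i j p.1} := by
      rw [Set.ofPred_forall]
      refine isOpen_iInter_of_finite fun j => isOpen_lt (hyE i j).smooth.continuous.abs ?_
      exact continuous_const.mul (hH i j).smooth.continuous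
    have hs : ∀ (f : Fin n → X → ℝ) (x : X), (∀ j, |x.2 j - c i j x.1| < (1 + ν) * H i j x.1) →
        ∑ i, χ i x * f i x = f i x := by
      intro f x hx
      rw [Finset.sum_eq_single i, hχ1 i x hx, one_mul]
      · intro i' _ hi'
        obtain ⟨j, hj⟩ := htube i i' x hi'.symm hx
        rw [hχ0 i' x j hj, zero_mul]
      · simp
    rw [hU, curl_congr (φ := φ i) (φ' := φ' i)]
    · exact curl_affine (hcd i)
        (fun j => (contDiff_of_time (hvE i j)).differentiable (by simp))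
        (fun j => (contDiff_of_time (hDE i j)).differentiable (by simp)) p (hsum i p.1)
    · filter_upwards [hW.mem_nhds hp] with x hx using hs φ x hx
    · filter_upwards [hW.mem_nhds hp] with x hx using hs φ' x hx
  have hsol : ∀ x : Fin 3 → ℝ, ∃ γ : ℝ → Fin 3 → ℝ, γ 0 = x ∧
      (∀ t, HasDerivAt γ (U (t, γ t)) t) ∧
      ∀ i, (∀ j, |x j - c i j 0| < (1 + ν) * H i j 0) →
        γ 1 = fun j => c i j 1 + H i j 1 / H i j 0 * (x j - c i j 0) := by
    intro x
    by_cases hx : ∃ i, ∀ j, |x j - c i j 0| < (1 + ν) * H i j 0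
    · obtain ⟨i, hi⟩ := hx
      refine ⟨fun t j => c i j t + H i j t / H i j 0 * (x j - c i j 0), ?_, fun t => ?_,
        fun i' hi' => ?_⟩
      · ext j
        beta_reduce
        rw [div_self (hpos i j 0).ne']; ring
      · rw [hUW i]
        · refine hasDerivAt_pi.mpr fun j => ?_
          have := (hcd i j t).hasDerivAt.add
            (((hHd i j t).hasDerivAt.div_const (H i j 0)).mul_const (x j - c i j 0))
          refine HasDerivAt.congr_deriv this ?_
          have a1 := hpos i j t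
          have a2 := hpos i j 0
          simp only [hv, hDg]
          field_simp
          ring
        · intro j
          have a1 := hpos i j t
          have a2 := hpos i j 0
          simp only [add_sub_cancel_left]
          rw [abs_mul, abs_of_pos (div_pos a1 a2), div_mul_eq_mul_div, div_lt_iff₀ a2]
          have := mul_lt_mul_of_pos_left (hi j) a1
          linarith
      · have : i = i' := by
          by_contra hne
          obtain ⟨j, hj⟩ := htube i i' (0, x) hne hi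
          have a1 := hi' j
          have a3 := mul_pos hν' (hpos i' j 0)
          simp only at hj
          nlinarith
        rw [this]
    · obtain ⟨γ, h1, h2⟩ := exists_global_solution hUs hUc hU0 x
      exact ⟨γ, h1, h2, fun i hi => absurd ⟨i, hi⟩ hx⟩
  choose γ h1 h2 h3 using hsol
  exact ⟨U, fun t x => γ x t, hUs, hUc, hUeff, hU0, spaceDiv_curl hψE hψE',
    ⟨h1, fun t x => h2 x t⟩, fun i x hx => h3 x i hx⟩

end Crest.Agent.H6Eff
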