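import Mathlib

/-! Klein's inequality for the logarithm and upper bounds for Fuglede–Kadison determinants. -/

namespace Crest.Agent.H6.FK

variable {A : Type*} [CStarAlgebra A] [PartialOrder A] [StarOrderedRing A]

/-- a positive functional which is tracial on a subalgebra closed under functional calculus. -/
structure Tr (A : Type*) [CStarAlgebra A] [PartialOrder A] where
  S : StarSubalgebra ℝ A
  τ : A →ₗ[ℝ] ℝ
  cfc_mem : ∀ (f : ℝ → ℝ) a, a ∈ S → cfc f a ∈ S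
  pos : ∀ x, 0 ≤ x → 0 ≤ τ x
  tr : ∀ x ∈ S, ∀ y ∈ S, τ (x * y) = τ (y * x)
  st : ∀ x, τ (star x) = τ x

variable (T : Tr A)

theorem Tr.pos_mul {a y : A} (ha : a ∈ T.S) (hy : y ∈ T.S) (hy0 : 0 ≤ y) (f : ℝ → ℝ)
    (hf : ContinuousOn f (spectrum ℝ a)) (h0 : ∀ x ∈ spectrum ℝ a, 0 ≤ f x) :
    0 ≤ T.τ (cfc f a * y) := by
  have hs := T.cfc_mem (fun x => √(f x)) a ha
  have e : cfc f a = cfc (fun x => √(f x)) a * cfc (fun x => √(f x)) a := by
    rw [← cfc_mul _ _ a hf.sqrt hf.sqrt]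
    exact cfc_congr fun x hx => (Real.mul_self_sqrt (h0 x hx)).symm
  rw [e, mul_assoc, T.tr _ hs _ (mul_mem hs hy)]
  exact T.pos _ ((cfc_predicate (p := IsSelfAdjoint) _ a).conjugate_nonneg hy0)

theorem exists_part {K : Set ℝ} (hK : IsCompact K) (h0 : ∀ x ∈ K, 0 < x) {ε : ℝ} (hε : 0 < ε) :
    ∃ (n : ℕ) (ψ : Fin n → C(ℝ, ℝ)) (l : Fin n → ℝ), (∀ i, 0 < l i) ∧ (∀ i x, 0 ≤ ψ i x) ∧
      ∀ x ∈ K, ∑ i, ψ i x = 1 ∧ ∑ i, Real.log (l i) * ψ i x ≤ Real.log x + ε ∧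
        ∑ i, (l i)⁻¹ * ψ i x ≤ x⁻¹ + ε := by
  let U : K → Set ℝ := fun l => Set.Ioi 0 ∩ (fun x => (Real.log x, x⁻¹)) ⁻¹'
    (Set.Ioi (Real.log l - ε) ×ˢ Set.Ioi ((l : ℝ)⁻¹ - ε))
  have hU : ∀ l, IsOpen (U l) := fun l =>
    ContinuousOn.isOpen_inter_preimage ((Real.continuousOn_log.mono fun x hx => ne_of_gt hx).prodMk
      (continuousOn_inv₀.mono fun x hx => ne_of_gt hx)) isOpen_Ioi (isOpen_Ioi.prod isOpen_Ioi)
  obtain ⟨t, ht⟩ := hK.elim_finite_subcover U hU fun x hx =>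
    Set.mem_iUnion.2 ⟨⟨x, hx⟩, h0 x hx, by simpa, by simpa⟩
  obtain ⟨ψ, h1, h2, h3, -⟩ := exists_continuous_sum_one_of_isOpen_isCompact
    (s := fun i => U (t.equivFin.symm i)) (fun i => hU _) hK (fun x hx => by
      obtain ⟨l, hl, h⟩ := Set.mem_iUnion₂.1 (ht hx)
      exact Set.mem_iUnion.2 ⟨t.equivFin ⟨l, hl⟩, by simpa using h⟩)
  refine ⟨_, ψ, fun i => (t.equivFin.symm i).1, fun i => h0 _ (t.equivFin.symm i).1.2,
    fun i x => (h3 i x).1, fun x hx => ?_⟩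
  have h4 : ∑ i, ψ i x = 1 := by simpa using h2 hx
  have key : ∀ (c : Fin t.card → ℝ) (r : ℝ), (∀ i, x ∈ U (t.equivFin.symm i) → c i ≤ r) →
      ∑ i, c i * ψ i x ≤ r := by
    intro c r h
    rw [← mul_one r, ← h4, Finset.mul_sum]
    refine Finset.sum_le_sum fun i _ => ?_
    by_cases h5 : ψ i x = 0
    · simp [h5]
    · exact mul_le_mul_of_nonneg_right (h i (h1 i (subset_tsupport _ h5))) (h3 i x).1
  exact ⟨h4, key _ _ fun i h => (sub_lt_iff_lt_add.1 h.2.1).le,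
    key _ _ fun i h => (sub_lt_iff_lt_add.1 h.2.2).le⟩

/-- **Klein's inequality.** -/
theorem Tr.klein {a b : A} (ha : a ∈ T.S) (hb : b ∈ T.S) (ha0 : IsStrictlyPositive a)
    (hb0 : IsStrictlyPositive b) :
    T.τ (cfc Real.log b) ≤ T.τ (cfc Real.log a) + T.τ (cfc (fun x : ℝ => x⁻¹) a * b) - T.τ 1 := by
  have hsa : IsSelfAdjoint a := ha0.nonneg.isSelfAdjoint
  have hsb : IsSelfAdjoint b := hb0.nonneg.isSelfAdjoint
  have hK : ∀ x ∈ spectrum ℝ a, 0 < x := fun x hx => ha0.spectrum_pos hx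
  have hK' : ∀ x ∈ spectrum ℝ b, 0 < x := fun x hx => hb0.spectrum_pos hx
  have h1 := T.pos _ zero_le_one
  have h2 := T.pos _ hb0.nonneg
  refine le_of_forall_pos_le_add fun δ hδ => ?_
  obtain ⟨ε, hε, hεδ⟩ : ∃ ε, 0 < ε ∧ ε * (T.τ 1 + T.τ b) ≤ δ :=
    ⟨δ / (T.τ 1 + T.τ b + 1), by positivity, by
      rw [div_mul_eq_mul_div, div_le_iff₀ (by positivity)]; nlinarith⟩
  obtain ⟨n, ψ, l, hl, hψ, h⟩ := exists_part (spectrum.isCompact (𝕜 := ℝ) a) hK hε
  have hsum : ∀ c : Fin n → ℝ, cfc (fun x => ∑ i, c i * ψ i x) a = ∑ i, c i • cfc (ψ i) a := by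
    intro c
    have := cfc_sum_univ (fun i x => c i * ψ i x) a (fun i => by fun_prop)
    rw [show (fun x => ∑ i, c i * ψ i x) = ∑ i, fun x => c i * ψ i x by funext x; simp, this]
    exact Finset.sum_congr rfl fun i _ => cfc_const_mul _ _ _
  have hbd : ∀ (c : Fin n → ℝ) (f : ℝ → ℝ), ContinuousOn f (spectrum ℝ a) →
      (∀ x ∈ spectrum ℝ a, ∑ i, c i * ψ i x ≤ f x + ε) → ∀ y ∈ T.S, 0 ≤ y →
      ∑ i, c i * T.τ (cfc (ψ i) a * y) ≤ T.τ (cfc f a * y) + ε * T.τ y := by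
    intro c f hf hc y hy hy0
    have := T.pos_mul ha hy hy0 (fun x => f x + ε - ∑ i, c i * ψ i x) (by fun_prop)
      fun x hx => sub_nonneg.2 (hc x hx)
    rw [cfc_sub _ _ a, cfc_add_const _ _ a, hsum] at this
    simp only [sub_mul, add_mul, Finset.sum_mul, smul_mul_assoc, map_sub, map_add, map_sum, map_smul,
      Algebra.algebraMap_eq_smul_one, one_mul, smul_eq_mul] at this
    linarith
  have hone : ∀ y, ∑ i, T.τ (cfc (ψ i) a * y) = T.τ y := by
    intro y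
    have := hsum fun _ => 1
    simp only [one_mul, one_smul] at this
    rw [← map_sum, ← Finset.sum_mul, ← this, cfc_congr (g := 1) fun x hx => (h x hx).1, cfc_one ℝ a,
      one_mul]
  have h3 := hbd _ Real.log (Real.continuousOn_log.mono fun x hx => (hK x hx).ne')
    (fun x hx => (h x hx).2.1) 1 (one_mem _) zero_le_one
  have h4 := hbd _ (fun x => x⁻¹) (continuousOn_inv₀.mono fun x hx => (hK x hx).ne')
    (fun x hx => (h x hx).2.2) b hb hb0.nonneg
  have h5 : ∀ i, T.τ (cfc (ψ i) a * cfc Real.log b) ≤ Real.log (l i) * T.τ (cfc (ψ i) a * 1) +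
      (l i)⁻¹ * T.τ (cfc (ψ i) a * b) - T.τ (cfc (ψ i) a * 1) := by
    intro i
    have e : cfc Real.log b ≤ cfc (fun x => (l i)⁻¹ * x + (Real.log (l i) - 1)) b :=
      cfc_mono (fun x hx => by
        have := Real.log_le_sub_one_of_pos (div_pos (hK' x hx) (hl i))
        rw [Real.log_div (hK' x hx).ne' (hl i).ne', div_eq_inv_mul] at this
        linarith) (Real.continuousOn_log.mono fun x hx => (hK' x hx).ne')
    rw [cfc_add_const _ _ b, cfc_const_mul_id _ b, Algebra.algebraMap_eq_smul_one] at e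
    have := T.pos_mul ha (sub_mem (add_mem (SMulMemClass.smul_mem _ hb)
      (SMulMemClass.smul_mem _ (one_mem _))) (T.cfc_mem _ _ hb)) (sub_nonneg.2 e) (ψ i)
      (by fun_prop) fun x _ => hψ i x
    simp only [mul_sub, mul_add, mul_smul_comm, map_sub, map_add, map_smul, smul_eq_mul] at this
    linarith
  have h6 := Finset.sum_le_sum fun i (_ : i ∈ Finset.univ) => h5 i
  rw [Finset.sum_sub_distrib, Finset.sum_add_distrib, hone, hone] at h6
  rw [mul_one] at h3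
  linarith

/-- twice the logarithm of the determinant. -/
noncomputable def Tr.L (x : A) : ℝ := T.τ (cfc Real.log (star x * x))

/-- multiplication by `v` increases `L` by at most `c`. -/
def Tr.Bd (v : A) (c : ℝ) : Prop :=
  v ∈ T.S ∧ IsUnit v ∧ ∀ x ∈ T.S, IsUnit x → T.L (v * x) ≤ T.L x + c

variable {T}

theorem Tr.Bd.mul {v w : A} {c d : ℝ} (h : T.Bd v c) (h' : T.Bd w d) : T.Bd (v * w) (c + d) := by
  refine ⟨mul_mem h.1 h'.1, h.2.1.mul h'.2.1, fun x hx hu => ?_⟩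
  have h1 := h.2.2 _ (mul_mem h'.1 hx) (h'.2.1.mul hu)
  have h2 := h'.2.2 _ hx hu
  rw [mul_assoc]; linarith

theorem Tr.Bd.pow {v : A} {c : ℝ} (h : T.Bd v c) (n : ℕ) : T.Bd (v ^ n) (n * c) := by
  induction n with
  | zero => exact ⟨by simp, by simp, fun x _ _ => by simp⟩
  | succ n ih => rw [pow_succ]; push_cast; rw [add_mul, one_mul]; exact ih.mul h

theorem Tr.Bd.neg {v : A} {c : ℝ} (h : T.Bd v c) (hc : c < 0) : T.L v < 0 := by
  have := h.2.2 1 (one_mem _) isUnit_one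
  simp only [mul_one, Tr.L, star_one, cfc_apply_one, Real.log_one, map_zero] at this ⊢
  linarith

theorem Tr.bd_of_mem {v : A} (hv : v ∈ T.S) (hu : IsUnit v) : T.Bd v (T.τ (star v * v) - T.τ 1) := by
  refine ⟨hv, hu, fun x hx hxu => ?_⟩
  have h0 : ∀ y : A, IsUnit y → IsStrictlyPositive (star y * y) := fun y hy =>
    ⟨star_mul_self_nonneg y, hy.star.mul hy⟩
  have hm : ∀ y ∈ T.S, star y * y ∈ T.S := fun y hy => mul_mem (star_mem hy) hy
  have := T.klein (hm x hx) (hm _ (mul_mem hv hx)) (h0 x hxu) (h0 _ (hu.mul hxu))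
  have e1 : cfc (fun t : ℝ => t⁻¹) (star x * x) * (star x * x) = 1 := by
    have hne : ∀ t ∈ spectrum ℝ (star x * x), t ≠ 0 := fun t ht => ((h0 x hxu).spectrum_pos ht).ne'
    conv_lhs => enter [2]; rw [← cfc_id' ℝ (star x * x)]
    rw [← cfc_mul _ _ _ (continuousOn_inv₀.mono hne), ← cfc_one ℝ (star x * x)]
    exact cfc_congr fun t ht => inv_mul_cancel₀ (hne t ht)
  have e2 : x * (cfc (fun t : ℝ => t⁻¹) (star x * x) * star x) = 1 :=
    hxu.mul_right_cancel (by rw [mul_assoc, mul_assoc, e1, mul_one, one_mul])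
  have e3 : T.τ (cfc (fun t : ℝ => t⁻¹) (star x * x) * (star (v * x) * (v * x))) =
      T.τ (star v * v) := by
    rw [star_mul, ← mul_assoc, ← mul_assoc, T.tr _ (mul_mem (mul_mem (T.cfc_mem _ _ (hm x hx))
      (mul_mem (star_mem hx) (star_mem hv))) hv) _ hx, ← mul_assoc _ (star x), mul_assoc _ _ v,
      ← mul_assoc x, e2, one_mul]
  unfold Tr.L
  linarith

theorem Tr.bd_of_pow {v y : A} {c C : ℝ} (hy : y ∈ T.S) (hu : IsUnit v)
    (h : ∀ k : ℕ, C ≤ k → ∃ s : ℝ, (1 + s • y) ^ k = v ∧ k * (k * (s * T.τ y) - c) ≤ C ∧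
      |k * s| ≤ C) : T.Bd v (2 * c) := by
  have hyy := T.pos _ (star_mul_self_nonneg y)
  have key : ∀ ε, 0 < ε → T.Bd v (2 * c + ε) := by
    intro ε hε
    obtain ⟨k, hk⟩ := exists_nat_gt (max (max C 1) ((2 * C + C ^ 2 * T.τ (star y * y)) / ε))
    simp only [max_lt_iff] at hk
    obtain ⟨⟨h1, h2⟩, h3⟩ := hk
    obtain ⟨s, rfl, h4, h5⟩ := h k h1.le
    have hk0 : k ≠ 0 := by rintro rfl; norm_num at h2
    have h6 := (T.bd_of_mem (add_mem (one_mem _) (SMulMemClass.smul_mem s hy))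
      ((isUnit_pow_iff hk0).1 hu)).pow k
    refine ⟨h6.1, h6.2.1, fun x hx hxu => (h6.2.2 x hx hxu).trans (add_le_add le_rfl ?_)⟩
    simp only [star_add, star_one, star_smul, star_trivial, add_mul, mul_add, one_mul, mul_one,
      smul_mul_smul_comm, map_add, map_smul, T.st, smul_eq_mul]
    rw [div_lt_iff₀ hε] at h3
    have h7 : (k * s) ^ 2 ≤ C ^ 2 := sq_le_sq' (neg_le_of_abs_le h5) (le_of_abs_le h5)
    have h8 := mul_le_mul_of_nonneg_right h7 hyy
    refine le_of_mul_le_mul_left ?_ (show (0 : ℝ) < k by linarith)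
    nlinarith
  exact ⟨(key 1 one_pos).1, hu, fun x hx hxu => le_of_forall_pos_le_add fun ε hε => by
    have := (key ε hε).2.2 x hx hxu; linarith⟩

theorem Tr.bd_nil {y : A} (hy : y ∈ T.S) (h2 : y * y = 0) (h0 : T.τ y = 0) : T.Bd (1 + y) 0 := by
  have hp : ∀ (s : ℝ) (k : ℕ), (1 + s • y) ^ k = 1 + (k * s) • y := by
    intro s k
    induction k with
    | zero => simp
    | succ k ih =>
      rw [pow_succ, ih]
      simp only [add_mul, mul_add, one_mul, mul_one, smul_mul_smul_comm, h2, smul_zero,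
        Nat.cast_succ, add_smul]
      abel
  have := T.bd_of_pow (v := 1 + y) (c := 0) (C := 1) hy
    ⟨⟨1 + y, 1 - y, by simp [add_mul, mul_sub, h2], by simp [sub_mul, mul_add, h2]⟩, rfl⟩
    fun k hk => ⟨(k : ℝ)⁻¹, by
      have : (k : ℝ) * (k : ℝ)⁻¹ = 1 := mul_inv_cancel₀ (by linarith)
      simp [hp, this, h0]⟩
  simpa using this

theorem Tr.bd_idem {y : A} (hy : y ∈ T.S) (h2 : y * y = y) {r : ℝ} (hr : 0 < r) :
    T.Bd (1 + (r - 1) • y) (2 * (Real.log r * T.τ y)) := by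
  have hm : ∀ s t : ℝ, (1 + (s - 1) • y) * (1 + (t - 1) • y) = 1 + (s * t - 1) • y := by
    intro s t
    simp only [add_mul, mul_add, one_mul, mul_one, smul_mul_smul_comm, h2, add_assoc, ← add_smul]
    congr 2; ring
  have hp : ∀ (s : ℝ) (k : ℕ), (1 + (s - 1) • y) ^ k = 1 + (s ^ k - 1) • y := by
    intro s k
    induction k with
    | zero => simp
    | succ k ih => rw [pow_succ, ih, hm, pow_succ]
  set t := Real.log r
  refine T.bd_of_pow (C := 2 * |t| + t ^ 2 * |T.τ y| + 1) hy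
    ⟨⟨_, 1 + (r⁻¹ - 1) • y, by rw [hm]; simp [hr.ne'], by rw [hm]; simp [hr.ne']⟩, rfl⟩
    fun k hk => ⟨Real.exp (t / k) - 1, ?_⟩
  have h3 : 0 ≤ t ^ 2 * |T.τ y| := by positivity
  have h4 := abs_nonneg t
  have hk0 : (0 : ℝ) < k := by linarith
  have h5 : |t / k| ≤ 1 := by rw [abs_div, abs_of_pos hk0, div_le_one hk0]; linarith
  refine ⟨?_, ?_, ?_⟩
  · rw [hp, ← Real.exp_nat_mul, mul_div_cancel₀ _ hk0.ne', Real.exp_log hr]
  · have h6 := Real.abs_exp_sub_one_sub_id_le h5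
    have e : k * (k * ((Real.exp (t / k) - 1) * T.τ y) - t * T.τ y) =
        k ^ 2 * (Real.exp (t / k) - 1 - t / k) * T.τ y := by field_simp
    rw [e]
    refine (le_abs_self _).trans ?_
    rw [abs_mul, abs_mul, abs_of_pos (pow_pos hk0 2)]
    have : (k : ℝ) ^ 2 * |Real.exp (t / k) - 1 - t / k| ≤ t ^ 2 := by
      refine (mul_le_mul_of_nonneg_left h6 (by positivity)).trans (le_of_eq ?_)
      field_simp
    nlinarith [abs_nonneg (T.τ y)]
  · have h6 := Real.abs_exp_sub_one_le h5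
    rw [abs_div, abs_of_pos hk0, ← mul_div_assoc, le_div_iff₀ hk0] at h6
    rw [abs_mul, abs_of_pos hk0]
    linarith

end Crest.Agent.H6.FK
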