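import Mathlib

/-! Matrix units give (non-unital) homomorphisms from matrix rings. -/

namespace Crest.Agent.H6.MU

variable {ι R S : Type*} [Fintype ι] [DecidableEq ι] [Ring R] [Ring S]

/-- the homomorphism defined by a system of matrix units commuting with the coefficients. -/
def muHom (e : ι → ι → S) (he : ∀ i j k l, e i j * e k l = if j = k then e i l else 0)
    (φ : R →+* S) (hc : ∀ r i j, Commute (φ r) (e i j)) : Matrix ι ι R →ₙ+* S where
  toFun M := ∑ i, ∑ j, e i j * φ (M i j)
  map_zero' := by simp
  map_add' M N := by simp [mul_add, Finset.sum_add_distrib]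
  map_mul' M N := by
    have : ∀ i j k l, e i j * φ (M i j) * (e k l * φ (N k l)) =
        if j = k then e i l * φ (M i j * N k l) else 0 := by
      intro i j k l
      rw [mul_assoc, ← mul_assoc (φ _), (hc _ _ _).eq, mul_assoc, ← mul_assoc, he, map_mul]
      split_ifs <;> simp
    rw [Finset.sum_mul]
    refine Finset.sum_congr rfl fun i _ => ?_
    calc ∑ l, e i l * φ ((M * N) i l) = ∑ l, ∑ j, e i l * φ (M i j * N j l) := by
          simp only [Matrix.mul_apply, map_sum, Finset.mul_sum]
      _ = ∑ j, ∑ l, e i l * φ (M i j * N j l) := Finset.sum_comm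
      _ = _ := by
          rw [Finset.sum_mul]
          refine Finset.sum_congr rfl fun j _ => ?_
          simp only [Finset.mul_sum, this]
          rw [Finset.sum_comm (f := fun k l => if j = k then _ else _)]
          simp

theorem muHom_apply (e : ι → ι → S) (he) (φ : R →+* S) (hc) (M : Matrix ι ι R) :
    muHom e he φ hc M = ∑ i, ∑ j, e i j * φ (M i j) := rfl

theorem muHom_smul (e : ι → ι → S) (he) (φ : R →+* S) (hc) (r : R) (M : Matrix ι ι R) :
    muHom e he φ hc (r • M) = φ r * muHom e he φ hc M := by
  simp only [muHom_apply, Finset.mul_sum, Matrix.smul_apply, smul_eq_mul, map_mul, ← mul_assoc,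
    (hc _ _ _).eq]

theorem muHom_single (e : ι → ι → S) (he) (φ : R →+* S) (hc) (i j : ι) :
    muHom e he φ hc (Matrix.single i j 1) = e i j := by
  simp [muHom_apply, Matrix.single, ite_and, apply_ite φ]

theorem exists_of_corner {x y f t : S} (hf : f * f = f) (h1 : x * f = x)
    (h4 : f * y = y) (hxy : x * y = f) (ht : t * f = t) (hty : t * y = 0)
    (ht0 : t ≠ 0) : ∃ a b : S, a * b = 1 ∧ b * a ≠ 1 := by
  refine ⟨x + (1 - f), y + (1 - f), ?_, fun h => ht0 ?_⟩
  · simp only [add_mul, mul_add, mul_sub, sub_mul, hf, h1, h4, hxy, one_mul, mul_one]; abel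
  · rw [← mul_one t, ← h, ← mul_assoc, mul_add t, hty, mul_sub, ht]; simp

end Crest.Agent.H6.MU
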