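import Crest.Agent.H6.FK
import Crest.Agent.H6.MU
import Crest.Prelude.Def_GroupVNA
import Crest.Prelude.Def_GroupRingDet

/-! The regular representation of matrices over an integral group ring, and its trace. -/

namespace Crest.Agent.H6.FK

open Crest.OpAlg Crest.AlgebraR.GroupRingDet
open scoped InnerProductSpace

variable {G : Type} [Group G] {n : ℕ}

abbrev HH (n : ℕ) (G : Type) := ltwo (Fin n × G)

noncomputable def rx (e : Equiv.Perm (Fin n × G)) : HH n G →L[ℂ] HH n G :=
  ((ltwoReindex e : HH n G ≃ₗᵢ[ℂ] HH n G) : HH n G →L[ℂ] HH n G)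

omit [Group G] in
theorem rx_apply (e : Equiv.Perm (Fin n × G)) (η : HH n G) (x) : rx e η x = η (e x) := rfl

noncomputable def lam : G →* (HH n G →L[ℂ] HH n G) where
  toFun g := rx (Equiv.prodCongr (Equiv.refl _) (Equiv.mulLeft g⁻¹))
  map_one' := by ext η ⟨i, h⟩; simp [rx_apply]
  map_mul' g k := by ext η ⟨i, h⟩; simp [rx_apply, mul_assoc]

theorem lam_apply (g : G) (η : HH n G) (i h) : lam g η (i, h) = η (i, g⁻¹ * h) := rfl

noncomputable def rho (g : G) : HH n G →L[ℂ] HH n G :=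
  rx (Equiv.prodCongr (Equiv.refl _) (Equiv.mulRight g))

theorem rho_apply (g : G) (η : HH n G) (i h) : rho g η (i, h) = η (i, h * g) := rfl

theorem star_rho (g : G) : star (rho g : HH n G →L[ℂ] HH n G) = rho g⁻¹ := by
  rw [ContinuousLinearMap.star_eq_adjoint, rho, rx, LinearIsometryEquiv.adjoint_eq_symm]
  ext η ⟨i, h⟩
  rfl

noncomputable def eu (i j : Fin n) : HH n G →L[ℂ] HH n G :=
  lp.mapCLM 2 (fun x : Fin n × G => if x.1 = i then (1 : ℂ →L[ℂ] ℂ) else 0) zero_le_one
    (fun x => by split_ifs <;> simp) * rx (Equiv.prodCongr (Equiv.swap i j) (Equiv.refl _))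

omit [Group G] in
theorem eu_apply (i j : Fin n) (η : HH n G) (l h) :
    eu i j η (l, h) = if l = i then η (j, h) else 0 := by
  change (if l = i then (1 : ℂ →L[ℂ] ℂ) else 0) (η (Equiv.swap i j l, h)) = _
  split_ifs with h
  · simp [h]
  · simp

noncomputable def bb (n : ℕ) (G : Type) : HilbertBasis (Fin n × G) ℂ (HH n G) := default

omit [Group G] in
theorem inner_bb (x) (η : HH n G) : ⟪bb n G x, η⟫_ℂ = η x :=
  ((bb n G).repr_apply_apply η x).symm

open Classical in
omit [Group G] in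
theorem bb_apply (x y) : bb n G x y = if y = x then 1 else 0 := by
  rw [← inner_bb, orthonormal_iff_ite.1 (bb n G).orthonormal]

/-- the trace on the commutant of the right regular representation. -/
theorem exists_tr {H : Type} [NormedAddCommGroup H] [InnerProductSpace ℂ H] [CompleteSpace H]
    (b : HilbertBasis (Fin n × G) ℂ H) (ρ : G → H →L[ℂ] H) (h1 : ∀ g, star (ρ g) = ρ g⁻¹)
    (h2 : ∀ g i h, ρ g (b (i, h)) = b (i, h * g⁻¹)) :
    ∃ T : Tr (H →L[ℂ] H), (∀ x, (∀ g, ρ g * x = x * ρ g) → x ∈ T.S) ∧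
      (∀ x, T.τ x = opTrace b x) ∧ ∀ x, T.L x = 2 * logDet b x := by
  let S := StarSubalgebra.centralizer ℝ (Set.range ρ)
  have key : ∀ x ∈ S, ∀ y : H →L[ℂ] H, opTrace b (x * y) =
      (∑ i, ∑ l, ∑' k, ⟪b (i, k⁻¹), x (b (l, 1))⟫_ℂ * ⟪b (l, k), y (b (i, 1))⟫_ℂ).re := by
    intro x hx y
    rw [opTrace, Complex.re_sum]
    refine Finset.sum_congr rfl fun i _ => congrArg _ ?_
    rw [mul_apply_eq_comp, ← ContinuousLinearMap.adjoint_inner_left,
      ← b.tsum_inner_mul_inner, (b.summable_inner_mul_inner _ _).tsum_prod, tsum_fintype]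
    refine Finset.sum_congr rfl fun l _ => tsum_congr fun k => ?_
    have h3 := (((StarSubalgebra.mem_centralizer_iff ℝ).1 hx) _ ⟨k⁻¹, rfl⟩).1
    have h4 : x (b (l, k)) = ρ k⁻¹ (x (b (l, 1))) := by
      rw [← mul_apply_eq_comp, h3, mul_apply_eq_comp, h2]; simp
    rw [ContinuousLinearMap.adjoint_inner_left, h4, ← h1, ContinuousLinearMap.star_eq_adjoint,
      ContinuousLinearMap.adjoint_inner_right, h2, one_mul]
  refine ⟨⟨S, ⟨⟨opTrace b, fun x y => ?_⟩, fun c x => ?_⟩, fun f a ha => ?_, fun x hx => ?_,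
    fun x hx y hy => ?_, fun x => ?_⟩, fun x hx => ?_, fun x => rfl, fun x => ?_⟩
  · simp [opTrace, Finset.sum_add_distrib]
  · simp only [opTrace, Finset.mul_sum, smul_eq_mul, RingHom.id_apply]
    refine Finset.sum_congr rfl fun i _ => ?_
    rw [show (c • x) (b (i, 1)) = (c : ℂ) • x (b (i, 1)) from rfl, inner_smul_right]; simp
  · have : IsClosed (S : Set (H →L[ℂ] H)) := by
      rw [StarSubalgebra.coe_centralizer]; exact Set.isClosed_centralizer _
    exact cfc_mem f ha
  · change 0 ≤ opTrace b x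
    exact Finset.sum_nonneg fun i _ =>
      ((ContinuousLinearMap.nonneg_iff_isPositive x).1 hx).re_inner_nonneg_right _
  · change opTrace _ _ = opTrace _ _
    rw [key x hx, key y hy, Finset.sum_comm]
    refine congrArg _ (Finset.sum_congr rfl fun i _ => Finset.sum_congr rfl fun l _ => ?_)
    rw [← (Equiv.inv G).tsum_eq]
    simp [mul_comm]
  · change opTrace _ _ = opTrace _ _
    refine Finset.sum_congr rfl fun i _ => ?_
    rw [ContinuousLinearMap.star_eq_adjoint, ContinuousLinearMap.adjoint_inner_right,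
      ← inner_conj_symm, Complex.conj_re]
  · refine (StarSubalgebra.mem_centralizer_iff ℝ).2 ?_
    rintro _ ⟨g, rfl⟩
    rw [h1]
    exact ⟨hx _, hx _⟩
  · change opTrace b _ = _
    rw [logDet]; ring

theorem rho_bb (g : G) (i : Fin n) (h : G) : rho g (bb n G (i, h)) = bb n G (i, h * g⁻¹) := by
  ext ⟨j, k⟩
  rw [rho_apply, bb_apply, bb_apply]
  have : (j, k * g) = (i, h) ↔ (j, k) = (i, h * g⁻¹) := by
    rw [Prod.mk.injEq, Prod.mk.injEq, eq_mul_inv_iff_mul_eq]
  by_cases h1 : (j, k * g) = (i, h)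
  · rw [if_pos h1, if_pos (this.1 h1)]
  · rw [if_neg h1, if_neg (mt this.2 h1)]

theorem exists_rep (n : ℕ) (G : Type) [Group G] :
    ∃ Φ : Matrix (Fin n) (Fin n) (MonoidAlgebra ℤ G) →+* (HH n G →L[ℂ] HH n G),
      ∀ M, (∀ g, rho g * Φ M = Φ M * rho g) ∧ IsRegularRepOperator (bb n G) M (Φ M) := by
  classical
  let φ : MonoidAlgebra ℤ G →+* (HH n G →L[ℂ] HH n G) := (MonoidAlgebra.lift ℤ _ G lam).toRingHom
  have hφ : ∀ g, φ (MonoidAlgebra.of ℤ G g) = lam g := fun g => MonoidAlgebra.lift_of _ _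
  have hcom : ∀ y, (∀ g, Commute (lam g) y) → ∀ r, Commute (φ r) y := by
    intro y hy r
    induction r using MonoidAlgebra.induction_on with
    | of g => rw [hφ]; exact hy g
    | add a b ha hb => rw [map_add]; exact ha.add_left hb
    | smul n a ha => rw [map_zsmul]; exact ha.smul_left _
  let Φ := MU.muHom eu (fun i j k l => by
      ext η ⟨m, h⟩
      by_cases h1 : j = k <;> by_cases h2 : m = i <;> simp [eu_apply, h1, h2]) φ
    (fun r i j => hcom _ (fun g => by ext η ⟨m, h⟩; simp [eu_apply, lam_apply]) r)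
  have hΦ : ∀ M η i h, Φ M η (i, h) = ∑ j, φ (M i j) η (j, h) := by
    intro M η i h
    simp only [Φ, MU.muHom_apply, sum_apply, lp.coeFn_sum, Finset.sum_apply,
      mul_apply_eq_comp, eu_apply]
    rw [Finset.sum_comm]
    simp
  refine ⟨{ Φ with map_one' := ?_ }, fun M => ⟨fun g => ?_, fun i j g h => ?_⟩⟩
  · ext η ⟨i, h⟩
    change Φ 1 η (i, h) = _
    rw [hΦ, Finset.sum_eq_single i (fun j _ hj => by simp [hj.symm]) (by simp)]
    simp
  · exact (Commute.sum_left _ _ _ fun i _ => Commute.sum_left _ _ _ fun j _ => Commute.mul_left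
        (by ext η ⟨m, h⟩; simp [eu_apply, rho_apply])
        (hcom _ (fun k => by ext η ⟨m, h⟩; simp [lam_apply, rho_apply, mul_assoc]) _)).symm
  · have : ∀ (r : MonoidAlgebra ℤ G) l, φ r (bb n G (j, g)) (l, h) =
        if l = j then (r.coeff (h * g⁻¹) : ℂ) else 0 := by
      intro r l
      induction r using MonoidAlgebra.induction_on with
      | of k =>
        rw [hφ, lam_apply, bb_apply]
        by_cases h1 : l = j <;>
          simp [h1, Finsupp.single_apply, inv_mul_eq_iff_eq_mul, eq_mul_inv_iff_mul_eq,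
            eq_comm (a := h)]
      | add a b ha hb =>
        rw [map_add]
        change φ a (bb _ G (j, g)) (l, h) + φ b (bb _ G (j, g)) (l, h) = _
        rw [ha, hb]; split_ifs <;> simp
      | smul n a ha =>
        rw [map_zsmul, ← Int.cast_smul_eq_zsmul ℂ, MonoidAlgebra.coeff_smul_apply]
        change (n : ℂ) * φ a (bb _ G (j, g)) (l, h) = _
        rw [ha]; simp
    change ⟪_, Φ M _⟫_ℂ = _
    simp [inner_bb, hΦ, this]

end Crest.Agent.H6.FK
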