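import Crest.Agent.H6.ImmW
import Crest.Prelude.Def_SPSPS

/-! Upper bound of the rank measure on homogeneous depth-five circuits. -/

set_option autoImplicit false
set_option linter.unusedSectionVars false

namespace Crest.Agent.H6.Imm

open Finset MvPolynomial Crest.ArithCircuit

section hom

variable {K ι L B P S R : Type*} [Field K] (C : SPSPS K ι L B P S R)

theorem hom_smul {f : MvPolynomial ι K} {e : ℕ} (c : K) (h : f.IsHomogeneous e) :
    (c • f).IsHomogeneous e := by
  rw [smul_eq_C_mul]
  simpa using (isHomogeneous_C ι c).mul h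

theorem hom_mprod {σ : Type*} (m : Multiset σ) (f : σ → MvPolynomial ι K) (g : σ → ℕ)
    (h : ∀ x, (f x).IsHomogeneous (g x)) : (m.map f).prod.IsHomogeneous (m.map g).sum := by
  induction m using Multiset.induction_on with
  | empty => simpa using isHomogeneous_one ι K
  | cons a m ih => simpa using (h a).mul ih

theorem hom_B (hC : C.IsHomogeneous) (b : B) : (C.valB b).IsHomogeneous (C.degB b) := by
  refine IsHomogeneous.sum _ _ _ fun l hl => hom_smul _ ?_
  rw [← hC.1 b l hl]
  unfold SPSPS.leafVal SPSPS.leafDeg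
  rcases C.leaf l with v | c
  · exact isHomogeneous_X K v
  · exact isHomogeneous_C ι c

theorem hom_P (hC : C.IsHomogeneous) (p : P) : (C.valP p).IsHomogeneous (C.degP p) :=
  hom_mprod _ _ _ (hom_B C hC)

theorem hom_S (hC : C.IsHomogeneous) (s : S) : (C.valS s).IsHomogeneous (C.degS s) := by
  refine IsHomogeneous.sum _ _ _ fun p hp => hom_smul _ ?_
  rw [← hC.2.1 s p hp]
  exact hom_P C hC p

theorem hom_R (hC : C.IsHomogeneous) (r : R) : (C.valR r).IsHomogeneous (C.degR r) :=
  hom_mprod _ _ _ (hom_S C hC)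

theorem degB_le (b : B) : C.degB b ≤ 1 := by
  unfold SPSPS.degB
  refine Finset.sup_le fun l _ => ?_
  unfold SPSPS.leafDeg
  rcases C.leaf l with v | c <;> simp

end hom

theorem mprod_le_exp {σ : Type*} (m : Multiset σ) (f : σ → ℝ) (g : σ → ℕ) (c : ℝ)
    (h0 : ∀ x, 0 ≤ f x) (h : ∀ x ∈ m, f x ≤ Real.exp (-(g x * c))) :
    (m.map f).prod ≤ Real.exp (-(((m.map g).sum : ℕ) * c)) := by
  induction m using Multiset.induction_on with
  | empty => simp
  | cons a m ih =>
    simp only [Multiset.map_cons, Multiset.prod_cons, Multiset.sum_cons]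
    have h1 := h a (Multiset.mem_cons_self _ _)
    have h2 := ih (fun x hx => h x (Multiset.mem_cons_of_mem hx))
    have h3 : 0 ≤ (m.map f).prod := Multiset.prod_nonneg (by
      intro x hx
      obtain ⟨y, _, rfl⟩ := Multiset.mem_map.1 hx
      exact h0 y)
    calc _ ≤ Real.exp (-(g a * c)) * Real.exp (-(((m.map g).sum : ℕ) * c)) := by gcongr
      _ = _ := by rw [← Real.exp_add]; congr 1; push_cast; ring

theorem circuit_rank_le {K L B P S R : Type*} {ι : Type} [Fintype ι] [DecidableEq ι] [Field K]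
    [Fintype P] [Fintype R] (C : SPSPS K ι L B P S R) (hC : C.IsHomogeneous) (τ : ι → Bool)
    (p q k l n : ℕ) (hkl : k + l = n) (a b D r c θ : ℝ) (hD : 0 ≤ D) (hc : 0 ≤ c)
    (hrank : ∀ (m : Multiset (MvPolynomial ι K × ℕ)), (∀ x ∈ m, x.1.IsHomogeneous x.2) →
      ((Mx τ K (Mon τ (p + k) q) (Mon τ p (q + l)) (m.map Prod.fst).prod).rank : ℝ) ≤
        D * (m.map (fun x => W a b x.2)).prod)
    (hsmall : ∀ e : ℕ, e ≤ r → W a b e ≤ Real.exp (-(e * θ)))
    (hone : W a b 1 ≤ Real.exp (-c)) (hθ : r * c ≤ n * θ) :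
    ((Mx τ K (Mon τ (p + k) q) (Mon τ p (q + l)) C.output).rank : ℝ) ≤
      Fintype.card R * ((Fintype.card P + 1) * ((n + 1) * (D * Real.exp (-(r * c))))) := by
  classical
  unfold SPSPS.output
  rw [map_sum]
  refine (rank_sum_le' _ _).trans ?_
  have hpos : 0 ≤ D * Real.exp (-(r * c)) := by positivity
  have key : ∀ ρ ∈ C.inOut, ((Mx τ K (Mon τ (p + k) q) (Mon τ p (q + l))
      (C.coefOut ρ • C.valR ρ)).rank : ℝ) ≤
      (Fintype.card P + 1) * ((n + 1) * (D * Real.exp (-(r * c)))) := by
    intro ρ _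
    by_cases hdeg : C.degR ρ = n
    swap
    · rw [Mx_eq_zero]
      · simp only [Matrix.rank_zero, Nat.cast_zero]; positivity
      · intro γ hγ h
        have := hom_deg τ (hom_smul (C.coefOut ρ) (hom_R C hC ρ)) γ hγ
        omega
    by_cases hs : ∀ s ∈ C.inR ρ, (C.degS s : ℝ) ≤ r
    · have h1 := hrank ((MvPolynomial.C (C.coefOut ρ), 0) ::ₘ
        (C.inR ρ).map (fun s => (C.valS s, C.degS s))) (by
          intro x hx
          rcases Multiset.mem_cons.1 hx with rfl | hx
          · exact isHomogeneous_C _ _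
          · obtain ⟨s, _, rfl⟩ := Multiset.mem_map.1 hx
            exact hom_S C hC s)
      simp only [Multiset.map_cons, Multiset.prod_cons, Multiset.map_map, Function.comp_def,
        W_zero, one_mul] at h1
      rw [smul_eq_C_mul]
      refine h1.trans ?_
      have h2 := mprod_le_exp (C.inR ρ) (fun s => W a b (C.degS s)) C.degS θ
        (fun _ => W_nonneg _ _ _) (fun s hs' => hsmall _ (hs s hs'))
      have h3 : ((C.inR ρ).map C.degS).sum = n := hdeg
      rw [h3] at h2
      have h4 : Real.exp (-(n * θ)) ≤ Real.exp (-(r * c)) := Real.exp_le_exp.2 (by linarith)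
      calc _ ≤ D * Real.exp (-(r * c)) := by gcongr; exact h2.trans h4
        _ = 1 * (1 * (D * Real.exp (-(r * c)))) := by ring
        _ ≤ _ := by gcongr <;> simp
    · push Not at hs
      obtain ⟨s0, hs0, hbig⟩ := hs
      obtain ⟨rest, hrest⟩ := Multiset.exists_cons_of_mem hs0
      have hval : C.coefOut ρ • C.valR ρ = ∑ π ∈ C.inS s0,
          MvPolynomial.C (C.coefOut ρ * C.coefS s0 π) * ((rest.map C.valS).prod * C.valP π) := by
        unfold SPSPS.valR
        rw [hrest, Multiset.map_cons, Multiset.prod_cons]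
        conv_lhs => rw [SPSPS.valS]
        rw [Finset.sum_mul, Finset.smul_sum]
        refine Finset.sum_congr rfl fun π _ => ?_
        simp only [smul_eq_C_mul, map_mul]
        ring
      have hdr : (rest.map C.degS).sum ≤ n := by
        have h3 : ((C.inR ρ).map C.degS).sum = n := hdeg
        rw [hrest, Multiset.map_cons, Multiset.sum_cons] at h3
        omega
      rw [hval, map_sum]
      refine (rank_sum_le' _ _).trans ?_
      have key2 : ∀ π ∈ C.inS s0, ((Mx τ K (Mon τ (p + k) q) (Mon τ p (q + l))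
          (MvPolynomial.C (C.coefOut ρ * C.coefS s0 π) *
            ((rest.map C.valS).prod * C.valP π))).rank : ℝ) ≤
          (n + 1) * (D * Real.exp (-(r * c))) := by
        intro π hπ
        have h1 := hrank ((MvPolynomial.C (C.coefOut ρ * C.coefS s0 π), 0) ::ₘ
          ((rest.map C.valS).prod, (rest.map C.degS).sum) ::ₘ
          (C.inP π).map (fun s => (C.valB s, C.degB s))) (by
            intro x hx
            rcases Multiset.mem_cons.1 hx with rfl | hx
            · exact isHomogeneous_C _ _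
            rcases Multiset.mem_cons.1 hx with rfl | hx
            · exact hom_mprod _ _ _ (hom_S C hC)
            · obtain ⟨s, _, rfl⟩ := Multiset.mem_map.1 hx
              exact hom_B C hC s)
        simp only [Multiset.map_cons, Multiset.prod_cons, Multiset.map_map, Function.comp_def,
          W_zero, one_mul] at h1
        refine h1.trans ?_
        have h2 := mprod_le_exp (C.inP π) (fun s => W a b (C.degB s)) C.degB c
          (fun _ => W_nonneg _ _ _) (fun s _ => by
            have := degB_le C s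
            rcases Nat.le_one_iff_eq_zero_or_eq_one.1 this with h | h
            · simp [h, W_zero]
            · simpa [h] using hone)
        have h3 : ((C.inP π).map C.degB).sum = C.degS s0 := hC.2.1 s0 π hπ
        rw [h3] at h2
        have h4 : Real.exp (-(C.degS s0 * c)) ≤ Real.exp (-(r * c)) :=
          Real.exp_le_exp.2 (by nlinarith)
        have h5 : W a b (rest.map C.degS).sum ≤ n + 1 := by
          refine (W_le_succ _ _ _).trans ?_
          have : (((rest.map C.degS).sum : ℕ) : ℝ) ≤ n := by exact_mod_cast hdr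
          linarith
        have h6 : 0 ≤ ((C.inP π).map (fun s => W a b (C.degB s))).prod :=
          Multiset.prod_nonneg (by
            intro x hx
            obtain ⟨y, _, rfl⟩ := Multiset.mem_map.1 hx
            exact W_nonneg _ _ _)
        calc _ ≤ D * ((n + 1) * Real.exp (-(r * c))) := by gcongr; exact h2.trans h4
          _ = _ := by ring
      refine (Finset.sum_le_sum key2).trans ?_
      rw [Finset.sum_const, nsmul_eq_mul]
      gcongr
      have : ((C.inS s0).card : ℝ) ≤ Fintype.card P := by exact_mod_cast Finset.card_le_univ _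
      linarith
  refine (Finset.sum_le_sum key).trans ?_
  rw [Finset.sum_const, nsmul_eq_mul]
  gcongr
  exact Finset.card_le_univ _

theorem imm_eq (K : Type*) [Field K] (d : ℕ) :
    imm K (d + 1) = ∑ π : Fin d → Fin (d + 1), ∏ k : Fin (d + 1), X (k, edge 0 π k) := by
  rw [imm, prod_ofFn_apply]
  rfl

theorem final_numeric (n Sz L r : ℝ) (hL : 4000 ≤ L) (hr : Real.exp (L / 2) = r)
    (hn : n = r ^ 2) (d : ℕ) (hd : n = d + 1) (a : ℝ) (ha : a = L / 2 + 2 * (L / (8 * r)))
    (hS : 0 ≤ Sz)
    (h : n ^ (2 * d) ≤ Sz * (Sz * ((n + 1) * (Real.exp (a / 2) * Real.exp (-(r * (L / 32)))))) *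
      (2 * (n ^ 2 + n * Real.exp a) ^ (d + 1))) : Real.exp (L * (r / 400)) ≤ Sz := by
  by_contra hlt
  push Not at hlt
  have hr1 : L / 2 + 1 ≤ r := by rw [← hr]; exact Real.add_one_le_exp _
  have hr0 : 0 < r := by linarith
  have hnL : n = Real.exp L := by
    rw [hn, ← hr, ← Real.exp_nat_mul]; congr 1; push_cast; ring
  have hn1 : 1 ≤ n := by rw [hn]; nlinarith
  have hη : 2 * (L / (8 * r)) ≤ 1 / 2 := by
    rw [← mul_div_assoc, div_le_div_iff₀ (by positivity) (by norm_num)]; nlinarith
  have hea : Real.exp a ≤ 2 * r := by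
    rw [ha, Real.exp_add, hr, mul_comm]
    gcongr
    have h1 : Real.exp (2 * (L / (8 * r))) ≤ Real.exp (1 / 2) := Real.exp_le_exp.2 hη
    have h2 : Real.exp (1 / 2) ^ 2 = Real.exp 1 := by rw [← Real.exp_nat_mul]; norm_num
    have h3 := Real.exp_one_lt_d9
    have h4 := Real.exp_pos (1 / 2)
    nlinarith
  have haL : a ≤ L := by linarith
  have h1 : (n ^ 2 + n * Real.exp a) ^ (d + 1) ≤ n ^ (2 * d) * n ^ 2 * Real.exp (2 * r) := by
    have e1 : n ^ 2 + n * Real.exp a ≤ n ^ 2 * Real.exp (2 * r / n) := by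
      have := Real.add_one_le_exp (2 * r / n)
      have e2 : n ^ 2 * (2 * r / n + 1) = n ^ 2 + n * (2 * r) := by field_simp; ring
      calc _ ≤ n ^ 2 + n * (2 * r) := by gcongr
        _ = n ^ 2 * (2 * r / n + 1) := e2.symm
        _ ≤ _ := by gcongr
    calc _ ≤ (n ^ 2 * Real.exp (2 * r / n)) ^ (d + 1) := by gcongr
      _ = _ := by
        rw [mul_pow, ← Real.exp_nat_mul]
        have : ((d + 1 : ℕ) : ℝ) * (2 * r / n) = 2 * r := by
          push_cast; rw [← hd]; field_simp
        rw [this]; ring
  have hnd : 0 < n ^ (2 * d) := by positivity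
  have h2 : n ^ (2 * d) * 1 ≤ n ^ (2 * d) * (Real.exp (L * (r / 400)) * (Real.exp (L * (r / 400)) *
      ((Real.exp 1 * Real.exp L) * (Real.exp (L / 2) * Real.exp (-(r * (L / 32)))))) *
      (Real.exp 1 * (Real.exp L ^ 2 * Real.exp (2 * r)))) := by
    have e1 : (2 : ℝ) ≤ Real.exp 1 := by have := Real.add_one_le_exp (1 : ℝ); linarith
    have e2 : n + 1 ≤ Real.exp 1 * Real.exp L := by rw [← hnL]; nlinarith
    have e3 : Real.exp (a / 2) ≤ Real.exp (L / 2) := Real.exp_le_exp.2 (by linarith)
    calc _ = n ^ (2 * d) := mul_one _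
      _ ≤ _ := h
      _ ≤ Real.exp (L * (r / 400)) * (Real.exp (L * (r / 400)) * ((Real.exp 1 * Real.exp L) *
          (Real.exp (L / 2) * Real.exp (-(r * (L / 32)))))) *
          (Real.exp 1 * (n ^ (2 * d) * n ^ 2 * Real.exp (2 * r))) := by gcongr
      _ = _ := by rw [← hnL]; ring
  have h3 := le_of_mul_le_mul_left h2 hnd
  simp only [sq, ← Real.exp_add] at h3
  rw [Real.one_le_exp_iff] at h3
  nlinarith

end Crest.Agent.H6.Imm
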