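import Mathlib

/-! Linear algebra helpers for the depth-five lower bound. -/

set_option autoImplicit false

namespace Crest.Agent.H6.Imm

open Matrix Finset

/-- path expansion of an ordered matrix product -/
theorem prod_ofFn_apply {R V : Type*} [CommSemiring R] [Fintype V] [DecidableEq V] :
    ∀ (d : ℕ) (M : Fin (d + 1) → Matrix V V R) (i j : V),
      (List.ofFn M).prod i j =
        ∑ π : Fin d → V, ∏ k : Fin (d + 1),
          M k ((Fin.cons i π : Fin (d + 1) → V) k) ((Fin.snoc π j : Fin (d + 1) → V) k)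
  | 0, M, i, j => by
    simp [Fin.snoc]
  | d + 1, M, i, j => by
    rw [List.ofFn_succ, List.prod_cons, Matrix.mul_apply]
    rw [← (Fin.consEquiv (fun _ : Fin (d + 1) => V)).sum_comp, Fintype.sum_prod_type]
    refine Finset.sum_congr rfl fun x _ => ?_
    rw [prod_ofFn_apply d, Finset.mul_sum]
    refine Finset.sum_congr rfl fun π _ => ?_
    rw [Fin.prod_univ_succ (n := d + 1)]
    have h0 : (Fin.consEquiv (fun _ : Fin (d + 1) => V)) (x, π) = Fin.cons x π := rfl
    rw [h0]
    have h : (Fin.snoc (Fin.cons x π : Fin (d + 1) → V) j : Fin (d + 2) → V)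
        = Fin.cons x (Fin.snoc π j) := (Fin.cons_snoc_eq_snoc_cons x π j).symm
    rw [h]
    rfl

theorem rank_add_le' {K m n : Type*} [Field K] [Fintype m] [Fintype n] (A B : Matrix m n K) :
    (A + B).rank ≤ A.rank + B.rank := by
  unfold Matrix.rank
  rw [Matrix.mulVecLin_add]
  calc _ ≤ Module.finrank K ↥(LinearMap.range A.mulVecLin ⊔ LinearMap.range B.mulVecLin) :=
        Submodule.finrank_mono (LinearMap.range_add_le _ _)
    _ ≤ _ := Submodule.finrank_add_le_finrank_add_finrank _ _

theorem rank_sum_le' {K m n σ : Type*} [Field K] [Fintype m] [Fintype n] (s : Finset σ)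
    (A : σ → Matrix m n K) : ((∑ x ∈ s, A x).rank : ℝ) ≤ ∑ x ∈ s, ((A x).rank : ℝ) := by
  classical
  induction s using Finset.induction_on with
  | empty => simp
  | insert a s ha ih =>
    rw [Finset.sum_insert ha, Finset.sum_insert ha]
    have := rank_add_le' (A a) (∑ x ∈ s, A x)
    have h2 : ((A a + ∑ x ∈ s, A x).rank : ℝ) ≤ (A a).rank + (∑ x ∈ s, A x).rank := by
      exact_mod_cast this
    linarith

theorem rank_map_rat {F m : Type*} [Field F] [Fintype m] [DecidableEq m] (f : ℚ →+* F)
    (P : Matrix m m ℚ) : (P.map f).rank = P.rank := by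
  classical
  obtain ⟨V, U, e, hV, hU, h⟩ := Matrix.exists_rank_normal_form P
  have hV' : IsUnit (V.map f) := hV.map (RingHom.mapMatrix f)
  have hU' : IsUnit (U.map f) := hU.map (RingHom.mapMatrix f)
  have h2 : V.map f * P.map f * U.map f = (fromBlocks 1 0 0 0).submatrix e e := by
    rw [← Matrix.map_mul, ← Matrix.map_mul, h]
    ext i j
    simp only [map_apply, submatrix_apply]
    rcases e i with a | a <;> rcases e j with b | b <;> simp [one_apply]
  have h3 : (V.map f * P.map f * U.map f).rank = (P.map f).rank := by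
    rw [Matrix.rank_mul_eq_left_of_isUnit_det _ _ ((isUnit_iff_isUnit_det _).1 hU'),
      Matrix.rank_mul_eq_right_of_isUnit_det _ _ ((isUnit_iff_isUnit_det _).1 hV')]
  rw [← h3, h2, Matrix.rank_submatrix]
  have : (fromBlocks 1 0 0 0 : Matrix (Fin P.rank ⊕ Fin (Fintype.card m - P.rank))
      (Fin P.rank ⊕ Fin (Fintype.card m - P.rank)) F) =
      diagonal (Sum.elim (fun _ => 1) (fun _ => 0)) := by
    rw [← fromBlocks_diagonal]; simp
  rw [this, Matrix.rank_diagonal]
  rw [Fintype.card_subtype]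
  simp [Finset.card_filter]

theorem trace_sq_le {m : Type*} [Fintype m] [DecidableEq m] (P : Matrix m m ℝ)
    (hP : P.IsHermitian) : P.trace ^ 2 ≤ P.rank * (P * P).trace := by
  have h1 := hP.trace_eq_sum_eigenvalues
  have h2 : (P * P).trace = ∑ i, hP.eigenvalues i ^ 2 := by
    conv_lhs => rw [hP.spectral_theorem, ← map_mul, Unitary.conjStarAlgAut_apply]
    rw [Matrix.trace_mul_comm, ← mul_assoc]
    simp [sq]
  rw [h1, h2, hP.rank_eq_card_non_zero_eigs, Fintype.card_subtype]
  simp only [RCLike.ofReal_real_eq_id, id]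
  have h3 : ∑ i, hP.eigenvalues i = ∑ i ∈ univ.filter (fun i => hP.eigenvalues i ≠ 0),
      hP.eigenvalues i := by
    rw [Finset.sum_filter_ne_zero]
  rw [h3]
  refine (sq_sum_le_card_mul_sum_sq).trans ?_
  gcongr
  exact Finset.filter_subset _ _

/-- rank lower bound for a natural-number matrix over any field of characteristic zero -/
theorem rank_lower {K m n : Type*} [Field K] [CharZero K] [Fintype m] [Fintype n]
    [DecidableEq m] [DecidableEq n] (N : Matrix m n ℕ) :
    (∑ a, ∑ b, (N a b : ℝ)) ^ 2 ≤ ((N.map (Nat.cast : ℕ → K)).rank : ℝ) *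
      ∑ b1, ∑ b2, ∑ a1, ∑ a2, ((N a1 b1 * N a1 b2 * N a2 b2 * N a2 b1 : ℕ) : ℝ) := by
  set Q : Matrix m n ℚ := N.map (Nat.cast) with hQ
  set P : Matrix n n ℚ := Qᵀ * Q with hP
  have hK : (P.map (algebraMap ℚ K)).rank ≤ (N.map (Nat.cast : ℕ → K)).rank := by
    have : P.map (algebraMap ℚ K) = (N.map (Nat.cast : ℕ → K))ᵀ * (N.map (Nat.cast : ℕ → K)) := by
      rw [hP, Matrix.map_mul]
      congr 1
      · ext i j; simp [hQ]
      · ext i j; simp [hQ]
    rw [this]
    exact Matrix.rank_mul_le_right _ _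
  rw [rank_map_rat] at hK
  set PR : Matrix n n ℝ := P.map (algebraMap ℚ ℝ) with hPR
  have hR : PR.rank = P.rank := rank_map_rat _ _
  have hent : ∀ i j, PR i j = ∑ a, (N a i : ℝ) * N a j := by
    intro i j
    simp [hPR, hP, Matrix.mul_apply, hQ]
  have hH : PR.IsHermitian := by
    ext i j
    simp only [conjTranspose_apply, star_trivial, hent]
    exact Finset.sum_congr rfl fun a _ => mul_comm _ _
  have h := trace_sq_le PR hH
  have ht1 : ∑ a, ∑ b, (N a b : ℝ) ≤ PR.trace := by
    rw [Finset.sum_comm]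
    unfold Matrix.trace
    refine Finset.sum_le_sum fun b _ => ?_
    simp only [diag_apply, hent]
    refine Finset.sum_le_sum fun a _ => ?_
    have : N a b ≤ N a b * N a b := Nat.le_mul_self _
    exact_mod_cast this
  have ht2 : (PR * PR).trace =
      ∑ b1, ∑ b2, ∑ a1, ∑ a2, ((N a1 b1 * N a1 b2 * N a2 b2 * N a2 b1 : ℕ) : ℝ) := by
    unfold Matrix.trace
    refine Finset.sum_congr rfl fun b1 _ => ?_
    simp only [diag_apply, Matrix.mul_apply, hent]
    refine Finset.sum_congr rfl fun b2 _ => ?_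
    rw [Finset.sum_mul_sum]
    refine Finset.sum_congr rfl fun a1 _ => Finset.sum_congr rfl fun a2 _ => ?_
    push_cast; ring
  have h0 : 0 ≤ ∑ a, ∑ b, (N a b : ℝ) := by positivity
  have h4 : 0 ≤ (PR * PR).trace := by rw [ht2]; positivity
  calc _ ≤ PR.trace ^ 2 := by gcongr
    _ ≤ PR.rank * (PR * PR).trace := h
    _ ≤ _ := by
      rw [← ht2]
      gcongr
      rw [hR]; exact hK

end Crest.Agent.H6.Imm
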