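import Crest.Agent.H6.ImmShift

/-! Lower bound for the shift-operator rank of iterated matrix multiplication. -/

set_option autoImplicit false
set_option linter.unusedSectionVars false

namespace Crest.Agent.H6.Imm

open Matrix Finset MvPolynomial

section general

variable {ι : Type} [Fintype ι] [DecidableEq ι] (τ : ι → Bool)

def ind (γ α α' : ι → ℕ) : ℕ := if Step τ γ α α' then 1 else 0

theorem first_moment (p q k l : ℕ) (γ : ι → ℕ) (h1 : dX τ γ = k) (h2 : dY τ γ = l) :
    (Mon τ p q).card ≤ ∑ a : Mon τ p (q + l), ∑ b : Mon τ (p + k) q, ind τ γ b a := by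
  rw [← Fintype.sum_prod_type']
  simp only [ind]
  rw [← Finset.card_filter]
  let gX : ι → ℕ := fun v => if τ v then γ v else 0
  let gY : ι → ℕ := fun v => if τ v then 0 else γ v
  have x1 : dX τ gX = k := by
    rw [← h1]; unfold dX
    refine Finset.sum_congr rfl fun v _ => ?_
    simp only [gX]; split_ifs <;> rfl
  have x2 : dY τ gX = 0 := by
    unfold dY
    refine Finset.sum_eq_zero fun v _ => ?_
    simp only [gX]; split_ifs <;> rfl
  have y1 : dX τ gY = 0 := by
    unfold dX
    refine Finset.sum_eq_zero fun v _ => ?_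
    simp only [gY]; split_ifs <;> rfl
  have y2 : dY τ gY = l := by
    rw [← h2]; unfold dY
    refine Finset.sum_congr rfl fun v _ => ?_
    simp only [gY]; split_ifs <;> rfl
  have m1 : ∀ β : Mon τ p q, β.1 + gY ∈ Mon τ p (q + l) := by
    intro β
    have := (mem_Mon τ).1 β.2
    rw [mem_Mon, dX_add, dY_add]; omega
  have m2 : ∀ β : Mon τ p q, β.1 + gX ∈ Mon τ (p + k) q := by
    intro β
    have := (mem_Mon τ).1 β.2
    rw [mem_Mon, dX_add, dY_add]; omega
  rw [← Fintype.card_coe, ← Finset.card_univ]
  refine Finset.card_le_card_of_injOn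
    (fun β => ((⟨_, m1 β⟩ : Mon τ p (q + l)), (⟨_, m2 β⟩ : Mon τ (p + k) q))) ?_ ?_
  · intro β _
    simp only [Finset.coe_filter, Finset.mem_univ, true_and, Set.mem_ofPred_eq]
    intro v
    simp only [Pi.add_apply, gX, gY]
    split_ifs <;> simp
  · intro β _ β' _ h
    simp only [Prod.mk.injEq, Subtype.mk.injEq, add_left_inj] at h
    exact Subtype.ext h.1

def dl (γ1 γ2 γ4 : ι → ℕ) : ι → ℕ := fun v => if τ v then max (γ1 v) (γ4 v) else γ2 v - γ1 v

open Classical in
theorem quad_le (S T : Finset (ι → ℕ)) (γ1 γ2 γ3 γ4 : ι → ℕ) :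
    ∑ b1 : S, ∑ b2 : S, ∑ a1 : T, ∑ a2 : T,
      ind τ γ1 b1 a1 * ind τ γ2 b2 a1 * ind τ γ3 b2 a2 * ind τ γ4 b1 a2 ≤
      if γ1 + γ3 = γ2 + γ4 then (S.filter (fun α => dl τ γ1 γ2 γ4 ≤ α)).card else 0 := by
  have key : ∀ b1 : S, ∑ b2 : S, ∑ a1 : T, ∑ a2 : T,
      ind τ γ1 b1 a1 * ind τ γ2 b2 a1 * ind τ γ3 b2 a2 * ind τ γ4 b1 a2 ≤
      if γ1 + γ3 = γ2 + γ4 ∧ dl τ γ1 γ2 γ4 ≤ b1.1 then 1 else 0 := by
    intro b1
    by_cases hex : ∃ (b2 : S) (a1 a2 : T), Step τ γ1 b1 a1 ∧ Step τ γ2 b2 a1 ∧
        Step τ γ3 b2 a2 ∧ Step τ γ4 b1 a2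
    · obtain ⟨c2, d1, d2, s1, s2, s3, s4⟩ := hex
      rw [if_pos]
      · calc _ ≤ ∑ b2 : S, ∑ a1 : T, ∑ a2 : T,
              (if b2 = c2 then 1 else 0) * ((if a1 = d1 then 1 else 0) *
                (if a2 = d2 then 1 else 0)) := by
              refine Finset.sum_le_sum fun b2 _ => Finset.sum_le_sum fun a1 _ =>
                Finset.sum_le_sum fun a2 _ => ?_
              by_cases hh : Step τ γ1 b1 a1 ∧ Step τ γ2 b2 a1 ∧ Step τ γ3 b2 a2 ∧ Step τ γ4 b1 a2
              · obtain ⟨t1, t2, t3, t4⟩ := hh
                have e1 : a1 = d1 := by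
                  ext v
                  have := s1 v; have := t1 v
                  split_ifs at * <;> omega
                have e2 : a2 = d2 := by
                  ext v
                  have := s4 v; have := t4 v
                  split_ifs at * <;> omega
                subst e1 e2
                have e3 : b2 = c2 := by
                  ext v
                  have := s2 v; have := t2 v
                  split_ifs at * <;> omega
                simp [ind, s1, s2, s3, s4, e3]
              · have : ind τ γ1 b1 a1 * ind τ γ2 b2 a1 * ind τ γ3 b2 a2 * ind τ γ4 b1 a2 = 0 := by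
                  simp only [ind]
                  split_ifs <;> simp_all
                rw [this]; exact Nat.zero_le _
          _ = 1 := by simp
      · constructor
        · ext v
          have := s1 v; have := s2 v; have := s3 v; have := s4 v
          simp only [Pi.add_apply]
          split_ifs at * <;> omega
        · intro v
          have := s1 v; have := s2 v; have := s3 v; have := s4 v
          simp only [dl]
          split_ifs at * <;> omega
    · refine le_trans (le_of_eq ?_) (Nat.zero_le _)
      refine Finset.sum_eq_zero fun b2 _ => Finset.sum_eq_zero fun a1 _ =>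
        Finset.sum_eq_zero fun a2 _ => ?_
      simp only [ind]
      split_ifs with g1 g2 g3 g4
      · exact absurd ⟨b2, a1, a2, g1, g2, g3, g4⟩ hex
      all_goals simp
  refine (Finset.sum_le_sum fun b1 _ => key b1).trans ?_
  split_ifs with hc
  · simp only [hc, true_and]
    rw [Finset.card_filter, Finset.sum_coe_sort S (fun α => if dl τ γ1 γ2 γ4 ≤ α then 1 else 0)]
  · simp [hc]

end general

section transfer

variable {V : Type} [Fintype V] [DecidableEq V]

noncomputable def tI (u : V × V × V × V) : ℝ := if u.1 = u.2.1 ∧ u.2.2.1 = u.2.2.2 then 1 else 0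
noncomputable def tII (u : V × V × V × V) : ℝ := if u.1 = u.2.2.2 ∧ u.2.1 = u.2.2.1 then 1 else 0

noncomputable def cI (a : ℝ) (s : Bool) : ℝ := if s then Real.exp (-2 * a) else 1
noncomputable def st (a b : ℝ) (s : Bool) : ℝ := if s then a else -b

noncomputable def Om (a b : ℝ) (s : Bool) : Matrix (V × V × V × V) (V × V × V × V) ℝ :=
  Matrix.of fun u u' => cI a s * (tI u * tI u' + Real.exp (st a b s) * (tII u * tII u'))

theorem tI_nonneg (u : V × V × V × V) : 0 ≤ tI u := by unfold tI; split_ifs <;> norm_num
theorem tII_nonneg (u : V × V × V × V) : 0 ≤ tII u := by unfold tII; split_ifs <;> norm_num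
theorem cI_pos (a : ℝ) (s : Bool) : 0 < cI a s := by unfold cI; split_ifs <;> positivity

theorem sum_tI_tI : ∑ u : V × V × V × V, tI u * tI u = (Fintype.card V : ℝ) ^ 2 := by
  simp [tI, Fintype.sum_prod_type, ite_and, sq]

theorem sum_tII_tII : ∑ u : V × V × V × V, tII u * tII u = (Fintype.card V : ℝ) ^ 2 := by
  simp [tII, Fintype.sum_prod_type, ite_and, sq]

theorem sum_tI_tII : ∑ u : V × V × V × V, tI u * tII u = (Fintype.card V : ℝ) := by
  have : ∀ u : V × V × V × V, tI u * tII u =
      if u.2.1 = u.1 then (if u.2.2.1 = u.1 then (if u.2.2.2 = u.1 then 1 else 0) else 0)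
        else 0 := by
    rintro ⟨x, y, z, w⟩
    simp only [tI, tII]
    split_ifs <;> grind
  simp [this, Fintype.sum_prod_type]

theorem transfer (a b H : ℝ) (w0 : V × V × V × V) (hw : tI w0 = 1) :
    ∀ (d : ℕ) (σ : ℕ → Bool) (hh : ℕ → ℝ), (∀ j, |hh j| ≤ H) →
      (∀ j, hh (j + 1) = hh j + st a b (σ j)) → ∀ u,
      (List.ofFn (fun j : Fin d => (Om a b (σ j) : Matrix _ _ ℝ))).prod u w0 ≤
        (∏ j : Fin d, cI a (σ j)) *
          ((Fintype.card V : ℝ) ^ 2 + Fintype.card V * Real.exp H) ^ d *
            (tI u + Real.exp (-hh 0) * tII u)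
  | 0, σ, hh, _, _, u => by
    simp only [List.ofFn_zero, List.prod_nil, Finset.univ_eq_empty, Finset.prod_empty, pow_zero,
      one_mul, Matrix.one_apply]
    have := tII_nonneg u
    have := tI_nonneg u
    split_ifs with h
    · rw [h, hw]
      have := tII_nonneg w0
      have : 0 ≤ Real.exp (-hh 0) * tII w0 := by positivity
      linarith
    · positivity
  | d + 1, σ, hh, h1, h2, u => by
    rw [List.ofFn_succ, List.prod_cons, Matrix.mul_apply, Fin.prod_univ_succ]
    have ih := transfer a b H w0 hw d (fun j => σ (j + 1)) (fun j => hh (j + 1))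
      (fun j => h1 _) (fun j => h2 _)
    simp only [Fin.val_zero, Fin.val_succ, zero_add] at ih ⊢
    set C := (∏ j : Fin d, cI a (σ (j + 1))) *
      ((Fintype.card V : ℝ) ^ 2 + Fintype.card V * Real.exp H) ^ d with hC
    have hC0 : 0 ≤ C := by
      have : 0 ≤ ∏ j : Fin d, cI a (σ (j + 1)) := Finset.prod_nonneg fun j _ => (cI_pos _ _).le
      positivity
    have hc := cI_pos a (σ 0)
    have t1 := tI_nonneg u
    have t2 := tII_nonneg u
    calc _ ≤ ∑ x, Om a b (σ 0) u x * (C * (tI x + Real.exp (-hh 1) * tII x)) := by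
          refine Finset.sum_le_sum fun x _ => ?_
          refine mul_le_mul_of_nonneg_left (ih x) ?_
          have := tI_nonneg x
          have := tII_nonneg x
          simp only [Om, Matrix.of_apply]
          positivity
      _ = cI a (σ 0) * C * (tI u * ((∑ x : V × V × V × V, tI x * tI x) +
            Real.exp (-hh 1) * ∑ x : V × V × V × V, tI x * tII x) +
            Real.exp (st a b (σ 0)) * tII u * ((∑ x : V × V × V × V, tI x * tII x) +
              Real.exp (-hh 1) * ∑ x : V × V × V × V, tII x * tII x)) := by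
          simp only [Om, Matrix.of_apply, Finset.mul_sum, ← Finset.sum_add_distrib]
          refine Finset.sum_congr rfl fun x _ => by ring
      _ ≤ cI a (σ 0) * C * (((Fintype.card V : ℝ) ^ 2 + Fintype.card V * Real.exp H) *
            (tI u + Real.exp (-hh 0) * tII u)) := by
          rw [sum_tI_tI, sum_tI_tII, sum_tII_tII]
          refine mul_le_mul_of_nonneg_left ?_ (by positivity)
          have e1 : Real.exp (-hh 1) ≤ Real.exp H :=
            Real.exp_le_exp.2 (by have := abs_le.1 (h1 1); linarith)
          have e2 : Real.exp (st a b (σ 0)) ≤ Real.exp (-hh 0) * Real.exp H := by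
            rw [← Real.exp_add]
            refine Real.exp_le_exp.2 ?_
            have := abs_le.1 (h1 1)
            have := h2 0
            simp only [zero_add] at this
            linarith
          have e3 : Real.exp (st a b (σ 0)) * Real.exp (-hh 1) = Real.exp (-hh 0) := by
            rw [← Real.exp_add]
            congr 1
            have := h2 0
            simp only [zero_add] at this
            linarith
          have n0 : (0 : ℝ) ≤ Fintype.card V := Nat.cast_nonneg _
          have f1 : tI u * (Real.exp (-hh 1) * Fintype.card V) ≤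
              tI u * (Real.exp H * Fintype.card V) := by gcongr
          have f2 : Real.exp (st a b (σ 0)) * tII u * Fintype.card V ≤
              Real.exp (-hh 0) * Real.exp H * tII u * Fintype.card V := by gcongr
          have f3 : Real.exp (st a b (σ 0)) * tII u * (Real.exp (-hh 1) * (Fintype.card V : ℝ) ^ 2)
              = Real.exp (-hh 0) * tII u * (Fintype.card V : ℝ) ^ 2 := by
            rw [← e3]; ring
          nlinarith
      _ = _ := by rw [hC]; ring

end transfer

end Crest.Agent.H6.Imm
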