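import Crest.Agent.H6.ImmLower

/-! Rank lower bound for the path polynomial. -/

set_option autoImplicit false
set_option linter.unusedSectionVars false

namespace Crest.Agent.H6.Imm

open Matrix Finset MvPolynomial

variable {V : Type} [Fintype V] [DecidableEq V] {d : ℕ}

def edge (v0 : V) (π : Fin d → V) (k : Fin (d + 1)) : V × V :=
  ((Fin.cons v0 π : Fin (d + 1) → V) k, (Fin.snoc π v0 : Fin (d + 1) → V) k)

def mon (v0 : V) (π : Fin d → V) : Fin (d + 1) × V × V → ℕ :=
  fun v => if edge v0 π v.1 = v.2 then 1 else 0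

def tau (σ : ℕ → Bool) : Fin (d + 1) × V × V → Bool := fun v => σ v.1

def kX (σ : ℕ → Bool) (m : ℕ) : ℕ := ∑ j : Fin m, if σ j then 1 else 0
def lY (σ : ℕ → Bool) (m : ℕ) : ℕ := ∑ j : Fin m, if σ j then 0 else 1

theorem kX_add_lY (σ : ℕ → Bool) (m : ℕ) : kX σ m + lY σ m = m := by
  unfold kX lY
  rw [← Finset.sum_add_distrib]
  have : ∀ j : Fin m, ((if σ j then 1 else 0) + if σ j then 0 else 1) = 1 := by
    intro j; split_ifs <;> rfl
  simp [this]

theorem dX_layer (σ : ℕ → Bool) (γ : Fin (d + 1) × V × V → ℕ) :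
    dX (tau σ) γ = ∑ j : Fin (d + 1), if σ j then ∑ e, γ (j, e) else 0 := by
  unfold dX
  rw [Fintype.sum_prod_type]
  refine Finset.sum_congr rfl fun j _ => ?_
  simp only [tau]
  split_ifs <;> simp

theorem dY_layer (σ : ℕ → Bool) (γ : Fin (d + 1) × V × V → ℕ) :
    dY (tau σ) γ = ∑ j : Fin (d + 1), if σ j then 0 else ∑ e, γ (j, e) := by
  unfold dY
  rw [Fintype.sum_prod_type]
  refine Finset.sum_congr rfl fun j _ => ?_
  simp only [tau]
  split_ifs <;> simp

theorem dX_mon (σ : ℕ → Bool) (v0 : V) (π : Fin d → V) :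
    dX (tau σ) (mon v0 π) = kX σ (d + 1) := by
  rw [dX_layer]; simp [mon, kX]

theorem dY_mon (σ : ℕ → Bool) (v0 : V) (π : Fin d → V) :
    dY (tau σ) (mon v0 π) = lY σ (d + 1) := by
  rw [dY_layer]; simp [mon, lY]

theorem prod_X_eq {K : Type*} [Field K] (v0 : V) (π : Fin d → V) :
    ∃ γ : (Fin (d + 1) × V × V) →₀ ℕ, (γ : _ → ℕ) = mon v0 π ∧
      ∏ k : Fin (d + 1), (X (k, edge v0 π k) : MvPolynomial _ K) = monomial γ 1 := by
  refine ⟨∑ k : Fin (d + 1), Finsupp.single (k, edge v0 π k) 1, ?_, ?_⟩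
  · ext ⟨j, e⟩
    simp only [Finsupp.coe_finsetSum, Finset.sum_apply, Finsupp.single_apply, mon, Prod.mk.injEq]
    rw [Finset.sum_eq_single j]
    · simp
    · intro b _ hb; simp [hb]
    · simp
  · rw [monomial_sum_one]
    rfl

theorem layer_bound (a b : ℝ) (s : Bool) (x y : V × V × V × V)
    (h : ∀ e : V × V, (if (x.1, y.1) = e then 1 else 0) + (if (x.2.2.1, y.2.2.1) = e then 1 else 0)
      = (if (x.2.1, y.2.1) = e then 1 else 0) + (if (x.2.2.2, y.2.2.2) = e then 1 else 0)) :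
    Real.exp (-((if s then ((∑ e : V × V, max (if (x.1, y.1) = e then 1 else 0)
        (if (x.2.2.2, y.2.2.2) = e then 1 else 0) : ℕ) : ℝ) * a else 0) +
      (if s then 0 else ((∑ e : V × V, ((if (x.2.1, y.2.1) = e then 1 else 0) -
        (if (x.1, y.1) = e then 1 else 0)) : ℕ) : ℝ) * b))) ≤ Om a b s x y := by
  obtain ⟨x1, x2, x3, x4⟩ := x
  obtain ⟨y1, y2, y3, y4⟩ := y
  simp only at h ⊢
  have hcase : ((x1, y1) = (x2, y2) ∧ (x3, y3) = (x4, y4)) ∨
      ((x1, y1) = (x4, y4) ∧ (x2, y2) = (x3, y3)) := by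
    have h1 := h (x1, y1)
    have h2 := h (x2, y2)
    have h3 := h (x3, y3)
    generalize (x1, y1) = e1 at *
    generalize (x2, y2) = e2 at *
    generalize (x3, y3) = e3 at *
    generalize (x4, y4) = e4 at *
    grind
  have t1 := tI_nonneg (x1, x2, x3, x4)
  have t2 := tI_nonneg (y1, y2, y3, y4)
  have t3 := tII_nonneg (x1, x2, x3, x4)
  have t4 := tII_nonneg (y1, y2, y3, y4)
  have hII : (x1, y1) = (x4, y4) ∧ (x2, y2) = (x3, y3) →
      tII (x1, x2, x3, x4) * tII (y1, y2, y3, y4) = 1 := by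
    simp only [Prod.mk.injEq, tII]
    rintro ⟨⟨rfl, rfl⟩, rfl, rfl⟩
    simp
  have hI : (x1, y1) = (x2, y2) ∧ (x3, y3) = (x4, y4) →
      tI (x1, x2, x3, x4) * tI (y1, y2, y3, y4) = 1 := by
    simp only [Prod.mk.injEq, tI]
    rintro ⟨⟨rfl, rfl⟩, rfl, rfl⟩
    simp
  cases s
  · simp only [Bool.false_eq_true, if_false, zero_add, Om, Matrix.of_apply, cI, st, one_mul]
    by_cases h12 : (x1, y1) = (x2, y2)
    · have : (x3, y3) = (x4, y4) := by
        rcases hcase with hc | hc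
        · exact hc.2
        · rw [← hc.2, ← hc.1, h12]
      rw [hI ⟨h12, this⟩, h12]
      simp only [Nat.sub_self, Finset.sum_const_zero, Nat.cast_zero, zero_mul, neg_zero,
        Real.exp_zero]
      have : 0 ≤ Real.exp (-b) * (tII (x1, x2, x3, x4) * tII (y1, y2, y3, y4)) := by positivity
      linarith
    · have hc := hcase.resolve_left (fun hc => h12 hc.1)
      rw [hII hc]
      have : (∑ e : V × V, ((if (x2, y2) = e then 1 else 0) -
          (if (x1, y1) = e then 1 else 0)) : ℕ) = 1 := by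
        rw [Finset.sum_eq_single (x2, y2)]
        · rw [if_pos rfl, if_neg h12]
        · intro e _ he; rw [if_neg (Ne.symm he)]; simp
        · simp
      rw [this]
      have : 0 ≤ tI (x1, x2, x3, x4) * tI (y1, y2, y3, y4) := by positivity
      simp only [Nat.cast_one, one_mul, mul_one]
      linarith
  · simp only [if_true, add_zero, Om, Matrix.of_apply, cI, st]
    by_cases h14 : (x1, y1) = (x4, y4)
    · have : (x2, y2) = (x3, y3) := by
        rcases hcase with hc | hc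
        · rw [← hc.1, hc.2, h14]
        · exact hc.2
      rw [hII ⟨h14, this⟩, h14]
      simp only [max_self, Finset.sum_ite_eq, Finset.mem_univ, if_true, Nat.cast_one, one_mul,
        mul_one, mul_add, ← Real.exp_add]
      have : 0 ≤ Real.exp (-2 * a) * (tI (x1, x2, x3, x4) * tI (y1, y2, y3, y4)) := by positivity
      have e : -2 * a + a = -a := by ring
      rw [e]
      linarith
    · have hc := hcase.resolve_right (fun hc => h14 hc.1)
      rw [hI hc]
      have : (∑ e : V × V, max (if (x1, y1) = e then 1 else 0)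
          (if (x4, y4) = e then 1 else 0) : ℕ) = 2 := by
        have : ∀ e : V × V, (max (if (x1, y1) = e then 1 else 0)
            (if (x4, y4) = e then 1 else 0) : ℕ) = (if (x1, y1) = e then 1 else 0) +
              (if (x4, y4) = e then 1 else 0) := by
          intro e
          split_ifs with g1 g2
          · exact absurd (g1.trans g2.symm) h14
          all_goals simp
        simp only [this, Finset.sum_add_distrib]
        simp
      rw [this]
      have : 0 ≤ Real.exp (-2 * a) *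
        (Real.exp a * (tII (x1, x2, x3, x4) * tII (y1, y2, y3, y4))) := by positivity
      have e : -(((2 : ℕ) : ℝ) * a) = -2 * a := by push_cast; ring
      rw [e, mul_add]
      linarith

def zip4 (π1 π2 π3 π4 : Fin d → V) : Fin d → V × V × V × V := fun j => (π1 j, π2 j, π3 j, π4 j)

theorem cons_zip4 (v0 : V) (π1 π2 π3 π4 : Fin d → V) (k : Fin (d + 1)) :
    (Fin.cons (v0, v0, v0, v0) (zip4 π1 π2 π3 π4) : Fin (d + 1) → V × V × V × V) k =
      ((edge v0 π1 k).1, (edge v0 π2 k).1, (edge v0 π3 k).1, (edge v0 π4 k).1) := by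
  refine Fin.cases ?_ (fun j => ?_) k <;> simp [edge, zip4]

theorem snoc_zip4 (v0 : V) (π1 π2 π3 π4 : Fin d → V) (k : Fin (d + 1)) :
    (Fin.snoc (zip4 π1 π2 π3 π4) (v0, v0, v0, v0) : Fin (d + 1) → V × V × V × V) k =
      ((edge v0 π1 k).2, (edge v0 π2 k).2, (edge v0 π3 k).2, (edge v0 π4 k).2) := by
  refine Fin.lastCases ?_ (fun j => ?_) k <;> simp [edge, zip4]

theorem sum_zip4 (f : (Fin d → V × V × V × V) → ℝ) :
    ∑ π1 : Fin d → V, ∑ π2 : Fin d → V, ∑ π3 : Fin d → V, ∑ π4 : Fin d → V,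
      f (zip4 π1 π2 π3 π4) = ∑ P, f P := by
  let e : (Fin d → V) × (Fin d → V) × (Fin d → V) × (Fin d → V) ≃ (Fin d → V × V × V × V) :=
    { toFun := fun x => zip4 x.1 x.2.1 x.2.2.1 x.2.2.2
      invFun := fun P => (fun j => (P j).1, fun j => (P j).2.1, fun j => (P j).2.2.1,
        fun j => (P j).2.2.2)
      left_inv := fun x => rfl
      right_inv := fun P => rfl }
  rw [← e.sum_comp]
  simp only [Fintype.sum_prod_type]
  rfl

open Classical in
theorem quad_bound (σ : ℕ → Bool) (a b F : ℝ) (v0 : V)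
    (hF : ∀ s t : ℕ, ((Mon (tau (d := d) (V := V) σ) s t).card : ℝ) ≤
      F * Real.exp (s * a + t * b))
    (P Q : ℕ) (T : Finset (Fin (d + 1) × V × V → ℕ)) (π1 π2 π3 π4 : Fin d → V) :
    ((∑ b1 : Mon (tau (d := d) (V := V) σ) P Q, ∑ b2 : Mon (tau (d := d) (V := V) σ) P Q, ∑ a1 : T, ∑ a2 : T,
      ind (tau σ) (mon v0 π1) b1 a1 * ind (tau σ) (mon v0 π2) b2 a1 *
        ind (tau σ) (mon v0 π3) b2 a2 * ind (tau σ) (mon v0 π4) b1 a2 : ℕ) : ℝ) ≤
      F * Real.exp (P * a + Q * b) * ∏ k : Fin (d + 1), Om a b (σ k)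
        ((Fin.cons (v0, v0, v0, v0) (zip4 π1 π2 π3 π4) : Fin (d + 1) → V × V × V × V) k)
        ((Fin.snoc (zip4 π1 π2 π3 π4) (v0, v0, v0, v0) : Fin (d + 1) → V × V × V × V) k) := by
  have hF0 : 0 ≤ F := by
    have := hF 0 0
    simp only [Nat.cast_zero, zero_mul, add_zero, Real.exp_zero, mul_one] at this
    exact le_trans (Nat.cast_nonneg _) this
  refine le_trans (Nat.cast_le.2 (quad_le (tau σ) _ T _ _ _ _)) ?_
  split_ifs with hc
  · refine (card_ge_le (tau σ) a b F hF P Q _).trans ?_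
    rw [sub_eq_add_neg, Real.exp_add, ← mul_assoc]
    refine mul_le_mul_of_nonneg_left ?_ (by positivity)
    rw [dX_layer, dY_layer]
    push_cast
    rw [Finset.sum_mul, Finset.sum_mul, ← Finset.sum_add_distrib, ← Finset.sum_neg_distrib,
      Real.exp_sum]
    refine Finset.prod_le_prod (fun _ _ => (Real.exp_pos _).le) fun k _ => ?_
    rw [cons_zip4, snoc_zip4]
    refine le_trans (le_of_eq ?_) (layer_bound a b (σ k) _ _ ?_)
    · congr 2
      cases hk : σ k <;> simp [dl, tau, hk, mon]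
    · intro e
      have := congrFun hc (k, e)
      simpa [mon] using this
  · simp only [Nat.cast_zero]
    refine mul_nonneg (by positivity) (Finset.prod_nonneg fun k _ => ?_)
    simp only [Om, Matrix.of_apply]
    have := cI_pos a (σ k)
    refine mul_nonneg this.le (add_nonneg (mul_nonneg (tI_nonneg _) (tI_nonneg _))
      (mul_nonneg (Real.exp_pos _).le (mul_nonneg (tII_nonneg _) (tII_nonneg _))))

theorem prod_cI (a : ℝ) (σ : ℕ → Bool) (m : ℕ) :
    ∏ j : Fin m, cI a (σ j) = Real.exp (-2 * a * kX σ m) := by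
  unfold kX
  push_cast
  rw [Finset.mul_sum, Real.exp_sum]
  refine Finset.prod_congr rfl fun j _ => ?_
  unfold cI
  split_ifs <;> simp

theorem path_rank_lower {K : Type*} [Field K] [CharZero K] (σ : ℕ → Bool) (a b F H : ℝ) (v0 : V)
    (hh : ℕ → ℝ) (h0 : hh 0 = 0) (h1 : ∀ j, |hh j| ≤ H)
    (h2 : ∀ j, hh (j + 1) = hh j + st a b (σ j)) (p q : ℕ) (hF0 : 0 < F)
    (hpq : ((Mon (tau (d := d) (V := V) σ) p q).card : ℝ) = F * Real.exp (p * a + q * b))
    (hF : ∀ s t : ℕ, ((Mon (tau (d := d) (V := V) σ) s t).card : ℝ) ≤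
      F * Real.exp (s * a + t * b)) :
    F * Real.exp ((p + kX σ (d + 1)) * a + q * b) * (Fintype.card V : ℝ) ^ (2 * d) ≤
      ((Mx (tau σ) K (Mon (tau σ) (p + kX σ (d + 1)) q) (Mon (tau σ) p (q + lY σ (d + 1)))
        (∑ π : Fin d → V, ∏ k : Fin (d + 1), X (k, edge v0 π k))).rank : ℝ) *
        (2 * ((Fintype.card V : ℝ) ^ 2 + Fintype.card V * Real.exp H) ^ (d + 1)) := by
  classical
  set S := Mon (tau (d := d) (V := V) σ) (p + kX σ (d + 1)) q with hS
  set T := Mon (tau (d := d) (V := V) σ) p (q + lY σ (d + 1)) with hT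
  set N : Matrix T S ℕ := Matrix.of fun a1 b1 => ∑ π : Fin d → V, ind (tau σ) (mon v0 π) b1 a1
    with hN
  have hM : Mx (tau σ) K S T (∑ π : Fin d → V, ∏ k : Fin (d + 1), X (k, edge v0 π k)) =
      N.map (Nat.cast : ℕ → K) := by
    rw [map_sum]
    ext a1 b1
    simp only [Matrix.sum_apply, hN, Matrix.map_apply, Matrix.of_apply, Nat.cast_sum]
    refine Finset.sum_congr rfl fun π _ => ?_
    obtain ⟨γ, g1, g2⟩ := prod_X_eq (K := K) v0 π
    rw [g2, Mx_monomial, g1]
    simp [E, ind]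
  rw [hM]
  have hlow := rank_lower (K := K) N
  set r : ℝ := ((N.map (Nat.cast : ℕ → K)).rank : ℝ) with hr
  set n : ℝ := (Fintype.card V : ℝ) with hn
  set ρ : ℝ := n ^ 2 + n * Real.exp H with hρ
  have e1 : n ^ d * (F * Real.exp (p * a + q * b)) ≤ ∑ a1, ∑ b1, (N a1 b1 : ℝ) := by
    have : ∑ a1, ∑ b1, N a1 b1 = ∑ π : Fin d → V, ∑ a1 : T, ∑ b1 : S,
        ind (tau σ) (mon v0 π) b1 a1 := by
      simp only [hN, Matrix.of_apply]
      rw [Finset.sum_comm (s := (univ : Finset (Fin d → V)))]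
      refine Finset.sum_congr rfl fun a1 _ => Finset.sum_comm
    have h3 : ∑ π : Fin d → V, (Mon (tau (d := d) (V := V) σ) p q).card ≤
        ∑ a1, ∑ b1, N a1 b1 := by
      rw [this]
      exact Finset.sum_le_sum fun π _ =>
        first_moment (tau σ) p q _ _ _ (dX_mon σ v0 π) (dY_mon σ v0 π)
    rw [← hpq]
    have h4 : ((∑ π : Fin d → V, (Mon (tau (d := d) (V := V) σ) p q).card : ℕ) : ℝ) ≤
        ((∑ a1, ∑ b1, N a1 b1 : ℕ) : ℝ) := by exact_mod_cast h3
    simpa [hn] using h4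
  have e2 : ∑ b1, ∑ b2, ∑ a1, ∑ a2, ((N a1 b1 * N a1 b2 * N a2 b2 * N a2 b1 : ℕ) : ℝ) ≤
      F * Real.exp ((p + kX σ (d + 1) : ℕ) * a + q * b) *
        (Real.exp (-2 * a * kX σ (d + 1)) * ρ ^ (d + 1) * 2) := by
    have h3 : ∑ b1, ∑ b2, ∑ a1, ∑ a2, N a1 b1 * N a1 b2 * N a2 b2 * N a2 b1 =
        ∑ π1 : Fin d → V, ∑ π2 : Fin d → V, ∑ π3 : Fin d → V, ∑ π4 : Fin d → V,
          ∑ b1 : S, ∑ b2 : S, ∑ a1 : T, ∑ a2 : T,
          ind (tau σ) (mon v0 π1) b1 a1 * ind (tau σ) (mon v0 π2) b2 a1 *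
            ind (tau σ) (mon v0 π3) b2 a2 * ind (tau σ) (mon v0 π4) b1 a2 := by
      have h4 : ∀ (b1 b2 : S) (a1 a2 : T), N a1 b1 * N a1 b2 * N a2 b2 * N a2 b1 =
          ∑ x : (Fin d → V) × (Fin d → V) × (Fin d → V) × (Fin d → V),
          ind (tau σ) (mon v0 x.1) b1 a1 * ind (tau σ) (mon v0 x.2.1) b2 a1 *
            ind (tau σ) (mon v0 x.2.2.1) b2 a2 * ind (tau σ) (mon v0 x.2.2.2) b1 a2 := by
        intro b1 b2 a1 a2
        simp only [hN, Matrix.of_apply, Fintype.sum_prod_type, ← Finset.mul_sum,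
          ← Finset.sum_mul]
      simp only [h4]
      have h5 : ∀ (G : (Fin d → V) → (Fin d → V) → (Fin d → V) → (Fin d → V) → ℕ),
          ∑ π1, ∑ π2, ∑ π3, ∑ π4, G π1 π2 π3 π4 =
          ∑ x : (Fin d → V) × (Fin d → V) × (Fin d → V) × (Fin d → V),
            G x.1 x.2.1 x.2.2.1 x.2.2.2 := by
        intro G; simp only [Fintype.sum_prod_type]
      rw [h5, Finset.sum_comm (s := (univ : Finset ((Fin d → V) × _)))]
      refine Finset.sum_congr rfl fun b1 _ => ?_
      rw [Finset.sum_comm (s := (univ : Finset ((Fin d → V) × _)))]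
      refine Finset.sum_congr rfl fun b2 _ => ?_
      rw [Finset.sum_comm (s := (univ : Finset ((Fin d → V) × _)))]
      refine Finset.sum_congr rfl fun a1 _ => ?_
      rw [Finset.sum_comm (s := (univ : Finset ((Fin d → V) × _)))]
    have h6 : ∑ b1, ∑ b2, ∑ a1, ∑ a2, ((N a1 b1 * N a1 b2 * N a2 b2 * N a2 b1 : ℕ) : ℝ) =
        ((∑ b1, ∑ b2, ∑ a1, ∑ a2, N a1 b1 * N a1 b2 * N a2 b2 * N a2 b1 : ℕ) : ℝ) := by
      simp only [Nat.cast_sum]
    rw [h6, h3]
    have ht := transfer a b H (v0, v0, v0, v0) (by simp [tI]) (d + 1) σ hh h1 h2 (v0, v0, v0, v0)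
    rw [prod_ofFn_apply, prod_cI, h0, ← sum_zip4] at ht
    have h7 : tI (v0, v0, v0, v0) + Real.exp (-0) * tII (v0, v0, v0, v0) = 2 := by
      simp [tI, tII]; norm_num
    rw [h7] at ht
    refine le_trans ?_ (mul_le_mul_of_nonneg_left ht (by positivity))
    rw [Nat.cast_sum, Finset.mul_sum]
    refine Finset.sum_le_sum fun π1 _ => ?_
    rw [Nat.cast_sum, Finset.mul_sum]
    refine Finset.sum_le_sum fun π2 _ => ?_
    rw [Nat.cast_sum, Finset.mul_sum]
    refine Finset.sum_le_sum fun π3 _ => ?_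
    rw [Nat.cast_sum, Finset.mul_sum]
    refine Finset.sum_le_sum fun π4 _ => ?_
    exact quad_bound σ a b F v0 hF _ _ T π1 π2 π3 π4
  have hr0 : 0 ≤ r := Nat.cast_nonneg _
  have hn0 : 0 ≤ n := Nat.cast_nonneg _
  have e3 : (n ^ d * (F * Real.exp (p * a + q * b))) ^ 2 ≤ r *
      (F * Real.exp ((p + kX σ (d + 1) : ℕ) * a + q * b) *
        (Real.exp (-2 * a * kX σ (d + 1)) * ρ ^ (d + 1) * 2)) := by
    refine le_trans ?_ (hlow.trans (mul_le_mul_of_nonneg_left e2 hr0))
    gcongr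
  set G : ℝ := F * Real.exp (p * a + q * b - kX σ (d + 1) * a) with hG
  have hG0 : 0 < G := by positivity
  refine le_of_mul_le_mul_left ?_ hG0
  calc _ = (n ^ d * (F * Real.exp (p * a + q * b))) ^ 2 := by
        have : Real.exp (p * a + q * b - kX σ (d + 1) * a) *
            Real.exp ((p + kX σ (d + 1)) * a + q * b) = Real.exp (p * a + q * b) ^ 2 := by
          rw [sq, ← Real.exp_add, ← Real.exp_add]; congr 1; ring
        rw [hG, mul_pow, mul_pow, ← this]; ring
    _ ≤ _ := e3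
    _ = _ := by
        have : Real.exp ((p + kX σ (d + 1) : ℕ) * a + q * b) * Real.exp (-2 * a * kX σ (d + 1)) =
            Real.exp (p * a + q * b - kX σ (d + 1) * a) := by
          rw [← Real.exp_add]; congr 1; push_cast; ring
        rw [hG, ← this]; ring

/-- the greedy potential -/
noncomputable def gr (a b : ℝ) : ℕ → ℝ
  | 0 => 0
  | j + 1 => if gr a b j ≤ 0 then gr a b j + a else gr a b j - b

noncomputable def grs (a b : ℝ) (j : ℕ) : Bool := decide (gr a b j ≤ 0)

theorem gr_succ (a b : ℝ) (j : ℕ) : gr a b (j + 1) = gr a b j + st a b (grs a b j) := by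
  simp only [gr, st, grs, decide_eq_true_eq]
  split_ifs <;> ring

theorem gr_abs (a b : ℝ) (hb : 0 ≤ b) (hab : b ≤ a) : ∀ j, |gr a b j| ≤ a
  | 0 => by simp [gr]; linarith
  | j + 1 => by
    have := abs_le.1 (gr_abs a b hb hab j)
    simp only [gr]
    rw [abs_le]
    split_ifs with h
    · constructor <;> linarith
    · constructor <;> linarith

theorem gr_eq (a b : ℝ) : ∀ m, gr a b m = kX (grs a b) m * a - lY (grs a b) m * b
  | 0 => by simp [gr, kX, lY]
  | m + 1 => by
    rw [gr_succ, gr_eq a b m]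
    simp only [kX, lY, Fin.sum_univ_castSucc, Fin.val_castSucc, Fin.val_last, st]
    by_cases h : grs a b m = true
    · simp only [h, if_true]; push_cast; ring
    · simp only [h]; push_cast; simp; ring

end Crest.Agent.H6.Imm
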