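import Crest.Agent.H6.ImmLin

/-! The shift-operator rank measure. -/

set_option autoImplicit false
set_option linter.unusedSectionVars false

namespace Crest.Agent.H6.Imm

open Matrix Finset MvPolynomial

variable {ι : Type} [Fintype ι] [DecidableEq ι] (τ : ι → Bool)

def dX (α : ι → ℕ) : ℕ := ∑ v, if τ v then α v else 0
def dY (α : ι → ℕ) : ℕ := ∑ v, if τ v then 0 else α v

def Mon (p q : ℕ) : Finset (ι → ℕ) :=
  (Fintype.piFinset fun _ => range (p + q + 1)).filter (fun α => dX τ α = p ∧ dY τ α = q)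

theorem dX_add_dY (α : ι → ℕ) : dX τ α + dY τ α = ∑ v, α v := by
  unfold dX dY
  rw [← Finset.sum_add_distrib]
  refine Finset.sum_congr rfl fun v _ => ?_
  split_ifs <;> simp

theorem mem_Mon {p q : ℕ} {α : ι → ℕ} : α ∈ Mon τ p q ↔ dX τ α = p ∧ dY τ α = q := by
  unfold Mon
  rw [Finset.mem_filter]
  refine ⟨fun h => h.2, fun h => ⟨?_, h⟩⟩
  rw [Fintype.mem_piFinset]
  intro v
  rw [Finset.mem_range, ← h.1, ← h.2, dX_add_dY]
  have : α v ≤ ∑ v, α v :=
    Finset.single_le_sum (f := α) (fun _ _ => Nat.zero_le _) (Finset.mem_univ v)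
  omega

theorem card_Mon_le (p q : ℕ) : (Mon τ p q).card ≤ (p + q + 1) ^ Fintype.card ι := by
  unfold Mon
  refine (Finset.card_filter_le _ _).trans ?_
  rw [Fintype.card_piFinset]
  simp

theorem dX_add (α β : ι → ℕ) : dX τ (α + β) = dX τ α + dX τ β := by
  unfold dX
  rw [← Finset.sum_add_distrib]
  refine Finset.sum_congr rfl fun v _ => ?_
  split_ifs <;> simp

theorem dY_add (α β : ι → ℕ) : dY τ (α + β) = dY τ α + dY τ β := by
  unfold dY
  rw [← Finset.sum_add_distrib]
  refine Finset.sum_congr rfl fun v _ => ?_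
  split_ifs <;> simp

def Step (γ α α' : ι → ℕ) : Prop :=
  ∀ v, if τ v then α v = α' v + γ v else α' v = α v + γ v

instance (γ α α' : ι → ℕ) : Decidable (Step τ γ α α') := by unfold Step; infer_instance

theorem Step.dX {γ α α' : ι → ℕ} (h : Step τ γ α α') : dX τ α = dX τ α' + dX τ γ := by
  unfold Imm.dX
  rw [← Finset.sum_add_distrib]
  refine Finset.sum_congr rfl fun v _ => ?_
  have := h v
  split_ifs at this ⊢ <;> simp [this]

theorem Step.dY {γ α α' : ι → ℕ} (h : Step τ γ α α') : dY τ α' = dY τ α + dY τ γ := by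
  unfold Imm.dY
  rw [← Finset.sum_add_distrib]
  refine Finset.sum_congr rfl fun v _ => ?_
  have := h v
  split_ifs at this ⊢ <;> simp [this]

variable (K : Type*) [Field K]

def E (S T : Finset (ι → ℕ)) (γ : ι → ℕ) : Matrix T S K :=
  Matrix.of fun α' α => if Step τ γ α α' then 1 else 0

noncomputable def Mx (S T : Finset (ι → ℕ)) : MvPolynomial ι K →ₗ[K] Matrix T S K :=
  (basisMonomials ι K).constr K (fun γ => E τ K S T γ)

variable {K}

theorem Mx_monomial (S T : Finset (ι → ℕ)) (γ : ι →₀ ℕ) (c : K) :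
    Mx τ K S T (monomial γ c) = c • E τ K S T γ := by
  have : (monomial γ c : MvPolynomial ι K) = c • basisMonomials ι K γ := by
    simp [smul_monomial]
  rw [this, map_smul, Mx, Module.Basis.constr_basis]

theorem E_mul (S T : Finset (ι → ℕ)) (P Q k l : ℕ) (hS : ∀ α ∈ S, α ∈ Mon τ (P + k) Q)
    (γ' γ : ι → ℕ) (h1 : dX τ γ = k) (h2 : dY τ γ = l) :
    E τ K S T (γ' + γ) = E τ K (Mon τ P (Q + l)) T γ' * E τ K S (Mon τ P (Q + l)) γ := by
  ext α' α
  simp only [E, Matrix.mul_apply, Matrix.of_apply]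
  split_ifs with h
  · let mid : ι → ℕ := fun v => if τ v then α'.1 v + γ' v else α.1 v + γ v
    have hm1 : Step τ γ α mid := by
      intro v
      have := h v
      simp only [mid]
      split_ifs at this ⊢
      · simp only [Pi.add_apply] at this; omega
      · rfl
    have hm2 : Step τ γ' mid α' := by
      intro v
      have := h v
      simp only [mid]
      split_ifs at this ⊢
      · rfl
      · simp only [Pi.add_apply] at this; omega
    have hα := (mem_Mon τ).1 (hS _ α.2)
    have hmem : mid ∈ Mon τ P (Q + l) := by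
      rw [mem_Mon]
      have a1 := hm1.dX
      have a2 := hm1.dY
      omega
    rw [Finset.sum_eq_single ⟨mid, hmem⟩]
    · simp [hm1, hm2]
    · intro b _ hb
      split_ifs with g1 g2
      · exfalso
        apply hb
        ext v
        have a1 := g1 v
        have a2 := g2 v
        simp only [mid]
        split_ifs at a1 a2 ⊢ <;> omega
      all_goals simp
    · simp
  · symm
    refine Finset.sum_eq_zero fun b _ => ?_
    split_ifs with g1 g2
    · exfalso
      apply h
      intro v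
      have a1 := g1 v
      have a2 := g2 v
      simp only [Pi.add_apply]
      split_ifs at a1 a2 ⊢ <;> omega
    all_goals simp

def BiHom (g : MvPolynomial ι K) (k l : ℕ) : Prop :=
  ∀ γ : ι →₀ ℕ, coeff γ g ≠ 0 → dX τ γ = k ∧ dY τ γ = l

theorem BiHom.mul {g h : MvPolynomial ι K} {k l k' l' : ℕ} (hg : BiHom τ g k l)
    (hh : BiHom τ h k' l') : BiHom τ (g * h) (k + k') (l + l') := by
  intro γ hγ
  rw [coeff_mul] at hγ
  obtain ⟨⟨a, b⟩, hab, hne⟩ := Finset.exists_ne_zero_of_sum_ne_zero hγ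
  have h1 := hg a (left_ne_zero_of_mul hne)
  have h2 := hh b (right_ne_zero_of_mul hne)
  rw [Finset.HasAntidiagonal.mem_antidiagonal] at hab
  simp only at hab
  rw [← hab, Finsupp.coe_add, dX_add, dY_add]
  omega

theorem BiHom.one : BiHom τ (1 : MvPolynomial ι K) 0 0 := by
  intro γ hγ
  rw [coeff_one] at hγ
  have : γ = 0 := by
    by_contra h
    exact hγ (if_neg (Ne.symm h))
  subst this
  simp [dX, dY]

theorem Mx_mul (S T : Finset (ι → ℕ)) (P Q k l : ℕ) (hS : ∀ α ∈ S, α ∈ Mon τ (P + k) Q)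
    (h g : MvPolynomial ι K) (hg : BiHom τ g k l) :
    Mx τ K S T (h * g) = Mx τ K (Mon τ P (Q + l)) T h * Mx τ K S (Mon τ P (Q + l)) g := by
  conv_lhs => rw [h.as_sum, g.as_sum]
  conv_rhs => rw [h.as_sum, g.as_sum]
  simp only [Finset.sum_mul_sum, map_sum, Matrix.sum_mul, Matrix.mul_sum, monomial_mul,
    Mx_monomial]
  rw [Finset.sum_comm]
  refine Finset.sum_congr rfl fun γ hγ => Finset.sum_congr rfl fun γ' _ => ?_
  have := hg γ (mem_support_iff.1 hγ)
  rw [Finsupp.coe_add, E_mul τ S T P Q k l hS _ _ this.1 this.2, Matrix.smul_mul,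
    Matrix.mul_smul, smul_smul]

theorem Mx_eq_zero (p q k l : ℕ) (f : MvPolynomial ι K)
    (hf : ∀ γ : ι →₀ ℕ, coeff γ f ≠ 0 → ¬ (dX τ γ = k ∧ dY τ γ = l)) :
    Mx τ K (Mon τ (p + k) q) (Mon τ p (q + l)) f = 0 := by
  rw [f.as_sum, map_sum]
  refine Finset.sum_eq_zero fun γ hγ => ?_
  rw [Mx_monomial]
  have := hf γ (mem_support_iff.1 hγ)
  have h0 : E τ K (Mon τ (p + k) q) (Mon τ p (q + l)) γ = 0 := by
    ext α' α
    simp only [E, Matrix.of_apply, Matrix.zero_apply]
    rw [if_neg]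
    intro h
    apply this
    have a1 := h.dX
    have a2 := h.dY
    have b1 := (mem_Mon τ).1 α.2
    have b2 := (mem_Mon τ).1 α'.2
    omega
  rw [h0, smul_zero]

theorem hom_deg {Q : MvPolynomial ι K} {e : ℕ} (hQ : Q.IsHomogeneous e) (γ : ι →₀ ℕ)
    (hγ : coeff γ Q ≠ 0) : dX τ γ + dY τ γ = e := by
  have := hQ hγ
  rw [dX_add_dY, ← this, Finsupp.weight_apply, Finsupp.sum_fintype]
  · simp
  · simp

theorem exists_comp {Q : MvPolynomial ι K} {e : ℕ} (hQ : Q.IsHomogeneous e) :
    ∃ c : ℕ → MvPolynomial ι K, Q = ∑ i ∈ range (e + 1), c i ∧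
      ∀ i ∈ range (e + 1), BiHom τ (c i) i (e - i) := by
  refine ⟨fun i => ∑ γ ∈ Q.support.filter (fun γ : ι →₀ ℕ => dX τ γ = i), monomial γ (coeff γ Q), ?_, ?_⟩
  · rw [Finset.sum_fiberwise_of_maps_to]
    · exact Q.as_sum
    · intro γ hγ
      have := hom_deg τ hQ γ (mem_support_iff.1 hγ)
      rw [Finset.mem_range]; omega
  · intro i _ γ hγ
    simp only [coeff_sum, coeff_monomial] at hγ
    obtain ⟨δ, hδ, hne⟩ := Finset.exists_ne_zero_of_sum_ne_zero hγ
    rw [Finset.mem_filter] at hδ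
    have hδγ : δ = γ := by
      by_contra h
      exact hne (if_neg h)
    subst hδγ
    have := hom_deg τ hQ δ (mem_support_iff.1 hδ.1)
    omega

/-- the local weight -/
noncomputable def W (a b : ℝ) (e : ℕ) : ℝ :=
  ∑ i ∈ range (e + 1), Real.exp (-|i * a - (e - i : ℕ) * b| / 2)

theorem W_nonneg (a b : ℝ) (e : ℕ) : 0 ≤ W a b e := by unfold W; positivity

theorem rank_prod_aux (a b F : ℝ) (p q k l : ℕ)
    (hF : ∀ s t : ℕ, ((Mon τ s t).card : ℝ) ≤ F * Real.exp (s * a + t * b))
    (m : Multiset (MvPolynomial ι K × ℕ)) (hm : ∀ x ∈ m, x.1.IsHomogeneous x.2) :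
    ∀ (g h : MvPolynomial ι K) (kg lg kh lh : ℕ), BiHom τ g kg lg → BiHom τ h kh lh →
      ((Mx τ K (Mon τ (p + k) q) (Mon τ p (q + l)) (h * g * (m.map Prod.fst).prod)).rank : ℝ) ≤
        F * Real.exp ((p + k) * a + q * b - (k * a - l * b) / 2) *
          Real.exp (-(kg * a - lg * b) / 2 + (kh * a - lh * b) / 2) *
            (m.map (fun x => W a b x.2)).prod := by
  have hF0 : 0 ≤ F := by
    have := hF 0 0
    simp only [Nat.cast_zero, zero_mul, add_zero, Real.exp_zero, mul_one] at this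
    exact le_trans (Nat.cast_nonneg _) this
  induction m using Multiset.induction_on with
  | empty =>
    intro g h kg lg kh lh hg hh
    simp only [Multiset.map_zero, Multiset.prod_zero, mul_one]
    by_cases hc : kh + kg = k ∧ lh + lg = l
    · obtain ⟨h1, h2⟩ := hc
      have e1 : p + k = (p + kh) + kg := by omega
      rw [Mx_mul τ _ _ (p + kh) q kg lg (by intro α hα; rwa [← e1]) h g hg]
      have := (Matrix.rank_mul_le_left (Mx τ K (Mon τ (p + kh) (q + lg)) (Mon τ p (q + l)) h)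
        (Mx τ K (Mon τ (p + k) q) (Mon τ (p + kh) (q + lg)) g)).trans (Matrix.rank_le_card_width _)
      rw [Fintype.card_coe] at this
      refine le_trans (by exact_mod_cast this) ((hF _ _).trans (le_of_eq ?_))
      rw [mul_assoc, ← Real.exp_add, ← h1, ← h2]
      congr 2
      push_cast; ring
    · rw [Mx_eq_zero]
      · simp only [rank_zero, Nat.cast_zero]; positivity
      · intro γ hγ hh'
        have := (hh.mul τ hg) γ hγ
        apply hc
        omega
  | cons x m ih =>
    intro g h kg lg kh lh hg hh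
    have ih' := ih (fun y hy => hm y (Multiset.mem_cons_of_mem hy))
    obtain ⟨c, hc, hcb⟩ := exists_comp τ (hm x (Multiset.mem_cons_self _ _))
    simp only [Multiset.map_cons, Multiset.prod_cons]
    rw [hc, Finset.sum_mul, Finset.mul_sum, map_sum]
    refine (rank_sum_le' _ _).trans ?_
    rw [W, Finset.sum_mul, Finset.mul_sum]
    refine Finset.sum_le_sum fun i hi => ?_
    rcases le_total 0 ((i : ℝ) * a - (x.2 - i : ℕ) * b) with h0 | h0
    · have e1 : h * g * (c i * (m.map Prod.fst).prod) = h * (g * c i) * (m.map Prod.fst).prod := by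
        ring
      rw [e1]
      refine (ih' _ _ _ _ _ _ (hg.mul τ (hcb i hi)) hh).trans (le_of_eq ?_)
      rw [abs_of_nonneg h0]
      simp only [← mul_assoc]
      congr 1
      simp only [mul_assoc, ← Real.exp_add]
      congr 2
      push_cast; ring
    · have e1 : h * g * (c i * (m.map Prod.fst).prod) = (h * c i) * g * (m.map Prod.fst).prod := by
        ring
      rw [e1]
      refine (ih' _ _ _ _ _ _ hg (hh.mul τ (hcb i hi))).trans (le_of_eq ?_)
      rw [abs_of_nonpos h0]
      simp only [← mul_assoc]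
      congr 1
      simp only [mul_assoc, ← Real.exp_add]
      congr 2
      push_cast; ring

theorem rank_prod (a b F : ℝ) (p q k l : ℕ)
    (hF : ∀ s t : ℕ, ((Mon τ s t).card : ℝ) ≤ F * Real.exp (s * a + t * b))
    (m : Multiset (MvPolynomial ι K × ℕ)) (hm : ∀ x ∈ m, x.1.IsHomogeneous x.2) :
    ((Mx τ K (Mon τ (p + k) q) (Mon τ p (q + l)) (m.map Prod.fst).prod).rank : ℝ) ≤
        F * Real.exp ((p + k) * a + q * b - (k * a - l * b) / 2) *
            (m.map (fun x => W a b x.2)).prod := by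
  have := rank_prod_aux τ a b F p q k l hF m hm 1 1 0 0 0 0 (BiHom.one τ) (BiHom.one τ)
  simpa using this

/-- existence of the maximiser -/
theorem exists_max (a b : ℝ) (ha : 1 ≤ a) (hb : 1 ≤ b) :
    ∃ (F : ℝ) (p q : ℕ), 0 < F ∧ ((Mon τ p q).card : ℝ) = F * Real.exp (p * a + q * b) ∧
      ∀ s t : ℕ, ((Mon τ s t).card : ℝ) ≤ F * Real.exp (s * a + t * b) := by
  set f : ℕ × ℕ → ℝ := fun x => ((Mon τ x.1 x.2).card : ℝ) * Real.exp (-(x.1 * a + x.2 * b))
    with hf
  have h00 : 1 ≤ f (0, 0) := by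
    have : 0 < (Mon τ 0 0).card := Finset.card_pos.2 ⟨0, (mem_Mon τ).2 (by simp [dX, dY])⟩
    simp only [hf, Nat.cast_zero, zero_mul, add_zero, neg_zero, Real.exp_zero, mul_one]
    exact_mod_cast this
  have hT : ∃ T : ℕ, ∀ x : ℕ × ℕ, T ≤ x.1 + x.2 → f x < 1 := by
    have h1 := Real.tendsto_pow_mul_exp_neg_atTop_nhds_zero (Fintype.card ι)
    have h2 := (h1.comp (Filter.tendsto_atTop_add_const_right _ (1 : ℝ)
      tendsto_natCast_atTop_atTop)).eventually (gt_mem_nhds (Real.exp_pos (-1)))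
    obtain ⟨T, hT⟩ := Filter.eventually_atTop.1 h2
    refine ⟨T, fun x hx => ?_⟩
    have h3 := hT _ hx
    simp only [Function.comp] at h3
    have h4 : ((Mon τ x.1 x.2).card : ℝ) ≤ (((x.1 + x.2 : ℕ) : ℝ) + 1) ^ Fintype.card ι := by
      exact_mod_cast card_Mon_le τ x.1 x.2
    have h5 : Real.exp (-(x.1 * a + x.2 * b)) ≤
        Real.exp (-(((x.1 + x.2 : ℕ) : ℝ) + 1)) * Real.exp 1 := by
      rw [← Real.exp_add]
      apply Real.exp_le_exp.2
      push_cast
      have : (0 : ℝ) ≤ x.1 := Nat.cast_nonneg _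
      have : (0 : ℝ) ≤ x.2 := Nat.cast_nonneg _
      nlinarith
    calc f x ≤ (((x.1 + x.2 : ℕ) : ℝ) + 1) ^ Fintype.card ι *
          (Real.exp (-(((x.1 + x.2 : ℕ) : ℝ) + 1)) * Real.exp 1) := by
          simp only [hf]; gcongr
      _ < Real.exp (-1) * Real.exp 1 := by
          rw [← mul_assoc]; gcongr
      _ = 1 := by rw [← Real.exp_add]; simp
  obtain ⟨T, hT⟩ := hT
  obtain ⟨x, -, hx⟩ := Finset.exists_max_image (range (T + 1) ×ˢ range (T + 1)) f
    ⟨(0, 0), by simp⟩
  have hx0 : 1 ≤ f x := h00.trans (hx _ (by simp))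
  refine ⟨f x, x.1, x.2, by linarith, ?_, fun s t => ?_⟩
  · simp only [hf, mul_assoc, ← Real.exp_add]; simp
  · have : f (s, t) ≤ f x := by
      by_cases hst : T ≤ s + t
      · exact (hT (s, t) hst).le.trans hx0
      · exact hx _ (by simp; omega)
    calc _ = f (s, t) * Real.exp (s * a + t * b) := by
          simp only [hf, mul_assoc, ← Real.exp_add]; simp
      _ ≤ _ := by gcongr

open Classical in
/-- counting states above a given vector -/
theorem card_ge_le (a b F : ℝ)
    (hF : ∀ s t : ℕ, ((Mon τ s t).card : ℝ) ≤ F * Real.exp (s * a + t * b))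
    (P Q : ℕ) (δ : ι → ℕ) :
    (((Mon τ P Q).filter (fun α => δ ≤ α)).card : ℝ) ≤
      F * Real.exp (P * a + Q * b - (dX τ δ * a + dY τ δ * b)) := by
  have hF0 : 0 ≤ F := by
    have := hF 0 0
    simp only [Nat.cast_zero, zero_mul, add_zero, Real.exp_zero, mul_one] at this
    exact le_trans (Nat.cast_nonneg _) this
  rcases ((Mon τ P Q).filter (fun α => δ ≤ α)).eq_empty_or_nonempty with h | ⟨α₀, h⟩
  · rw [h]; simp only [card_empty, Nat.cast_zero]; positivity
  have key : ∀ α ∈ (Mon τ P Q).filter (fun α => δ ≤ α),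
      dX τ (α - δ) + dX τ δ = P ∧ dY τ (α - δ) + dY τ δ = Q := by
    intro α hα
    rw [Finset.mem_filter, mem_Mon] at hα
    rw [← dX_add, ← dY_add, tsub_add_cancel_of_le hα.2]
    exact hα.1
  have h0 := key α₀ h
  have hc : ((Mon τ P Q).filter (fun α => δ ≤ α)).card ≤
      (Mon τ (P - dX τ δ) (Q - dY τ δ)).card := by
    refine Finset.card_le_card_of_injOn (fun α => α - δ) ?_ ?_
    · intro α hα
      have := key α hα
      simp only [Finset.mem_coe, mem_Mon]
      omega
    · intro α hα β hβ hab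
      simp only [Finset.coe_filter, Set.mem_ofPred_eq] at hα hβ
      simp only at hab
      rw [← tsub_add_cancel_of_le hα.2, ← tsub_add_cancel_of_le hβ.2, hab]
  refine le_trans (by exact_mod_cast hc) ((hF _ _).trans (le_of_eq ?_))
  rw [Nat.cast_sub (by omega), Nat.cast_sub (by omega)]
  congr 2
  ring

end Crest.Agent.H6.Imm
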