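import Crest.Agent.H6.ImmLin
import Crest.Prelude.Def_SPSPS

/-! A homogeneous depth-five circuit for iterated matrix multiplication. -/

set_option autoImplicit false
set_option linter.unusedSectionVars false

namespace Crest.Agent.H6.Imm

open Finset MvPolynomial Crest.ArithCircuit

section reindex

variable {K ι L B P S R L' B' P' S' R' : Type*} [CommSemiring K]

def reidx (C : SPSPS K ι L B P S R) (eL : L ≃ L') (eB : B ≃ B') (eP : P ≃ P') (eS : S ≃ S')
    (eR : R ≃ R') : SPSPS K ι L' B' P' S' R' where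
  leaf l := C.leaf (eL.symm l)
  inB b := (C.inB (eB.symm b)).map eL.toEmbedding
  coefB b l := C.coefB (eB.symm b) (eL.symm l)
  inP p := (C.inP (eP.symm p)).map eB
  inS s := (C.inS (eS.symm s)).map eP.toEmbedding
  coefS s p := C.coefS (eS.symm s) (eP.symm p)
  inR r := (C.inR (eR.symm r)).map eS
  inOut := C.inOut.map eR.toEmbedding
  coefOut r := C.coefOut (eR.symm r)

variable (C : SPSPS K ι L B P S R) (eL : L ≃ L') (eB : B ≃ B') (eP : P ≃ P') (eS : S ≃ S')
    (eR : R ≃ R')

theorem reidx_output : (reidx C eL eB eP eS eR).output = C.output := by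
  simp [SPSPS.output, SPSPS.valR, SPSPS.valS, SPSPS.valP, SPSPS.valB, SPSPS.leafVal, reidx,
    Multiset.map_map, Function.comp_def]

theorem reidx_leafDeg (l : L') : (reidx C eL eB eP eS eR).leafDeg l = C.leafDeg (eL.symm l) := rfl

theorem reidx_degB (b : B') : (reidx C eL eB eP eS eR).degB b = C.degB (eB.symm b) := by
  simp [SPSPS.degB, reidx, Finset.sup_map, Function.comp_def, SPSPS.leafDeg]
  rfl

theorem reidx_degP (b : P') : (reidx C eL eB eP eS eR).degP b = C.degP (eP.symm b) := by
  have : (reidx C eL eB eP eS eR).degB = fun b => C.degB (eB.symm b) :=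
    funext (reidx_degB C eL eB eP eS eR)
  unfold SPSPS.degP
  rw [this]
  simp [reidx, Multiset.map_map, Function.comp_def]

theorem reidx_degS (b : S') : (reidx C eL eB eP eS eR).degS b = C.degS (eS.symm b) := by
  have : (reidx C eL eB eP eS eR).degP = fun b => C.degP (eP.symm b) :=
    funext (reidx_degP C eL eB eP eS eR)
  unfold SPSPS.degS
  rw [this]
  simp [reidx, Finset.sup_map, Function.comp_def]

theorem reidx_degR (b : R') : (reidx C eL eB eP eS eR).degR b = C.degR (eR.symm b) := by
  have : (reidx C eL eB eP eS eR).degS = fun b => C.degS (eS.symm b) :=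
    funext (reidx_degS C eL eB eP eS eR)
  unfold SPSPS.degR
  rw [this]
  simp [reidx, Multiset.map_map, Function.comp_def]

theorem reidx_degOut : (reidx C eL eB eP eS eR).degOut = C.degOut := by
  have : (reidx C eL eB eP eS eR).degR = fun b => C.degR (eR.symm b) :=
    funext (reidx_degR C eL eB eP eS eR)
  unfold SPSPS.degOut
  rw [this]
  simp [reidx, Finset.sup_map, Function.comp_def]

theorem reidx_hom (h : C.IsHomogeneous) : (reidx C eL eB eP eS eR).IsHomogeneous := by
  refine ⟨fun b l hl => ?_, fun s p hp => ?_, fun r hr => ?_⟩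
  · rw [reidx_leafDeg, reidx_degB]
    exact h.1 _ _ (by simpa [reidx] using hl)
  · rw [reidx_degP, reidx_degS]
    exact h.2.1 _ _ (by simpa [reidx] using hp)
  · rw [reidx_degR, reidx_degOut]
    exact h.2.2 _ (by simpa [reidx] using hr)

end reindex

theorem ofFn_eq_range {α : Type*} (f : ℕ → α) (m : ℕ) :
    List.ofFn (fun i : Fin m => f i) = (List.range m).map f := by
  apply List.ext_getElem <;> simp

theorem prod_range_mul {M : Type*} [Monoid M] (f : ℕ → M) (t : ℕ) : ∀ r : ℕ,
    ((List.range (r * t)).map f).prod =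
      ((List.range r).map (fun c => ((List.range t).map (fun u => f (c * t + u))).prod)).prod
  | 0 => by simp
  | r + 1 => by
    rw [List.range_succ, List.map_append, List.prod_append, ← prod_range_mul f t r, Nat.succ_mul,
      List.range_add, List.map_append, List.prod_append]
    simp [Function.comp_def]

section circ

variable (K : Type*) [Field K] (d t r : ℕ)

def idx (k : ℕ) : Fin (d + 1) := ⟨k % (d + 1), Nat.mod_lt _ (Nat.succ_pos _)⟩

noncomputable def Mp (k : ℕ) : Matrix (Fin (d + 1)) (Fin (d + 1))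
    (MvPolynomial (Fin (d + 1) × Fin (d + 1) × Fin (d + 1)) K) :=
  if k < d + 1 then varMatrix K (d + 1) (idx d k) else 1

def circ : SPSPS K (Fin (d + 1) × Fin (d + 1) × Fin (d + 1))
    (Fin (d + 1) × Fin (d + 1) × Fin (d + 1)) (Fin (d + 1) × Fin (d + 1) × Fin (d + 1))
    (Fin (r + 1) × Fin (d + 1) × Fin (d + 1) × (Fin t → Fin (d + 1)))
    (Fin (r + 1) × Fin (d + 1) × Fin (d + 1)) (Fin r → Fin (d + 1)) where
  leaf l := Sum.inl l
  inB b := {b}
  coefB _ _ := 1
  inP p := (univ.filter (fun u : Fin (t + 1) => p.1 * (t + 1) + u < d + 1)).val.map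
    (fun u : Fin (t + 1) => (idx d (p.1 * (t + 1) + u),
      (Fin.cons p.2.1 p.2.2.2 : Fin (t + 1) → Fin (d + 1)) u,
      (Fin.snoc p.2.2.2 p.2.2.1 : Fin (t + 1) → Fin (d + 1)) u))
  inS s := univ.map ⟨fun π => (s.1, s.2.1, s.2.2, π), fun _ _ h => by simpa using h⟩
  coefS _ p := ∏ u ∈ univ.filter (fun u : Fin (t + 1) => ¬ p.1 * (t + 1) + u < d + 1),
    if (Fin.cons p.2.1 p.2.2.2 : Fin (t + 1) → Fin (d + 1)) u =
      (Fin.snoc p.2.2.2 p.2.2.1 : Fin (t + 1) → Fin (d + 1)) u then 1 else 0
  inR ρ := (univ : Finset (Fin (r + 1))).val.map (fun c => (c,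
    (Fin.cons 0 ρ : Fin (r + 1) → Fin (d + 1)) c, (Fin.snoc ρ 0 : Fin (r + 1) → Fin (d + 1)) c))
  inOut := univ
  coefOut _ := 1

theorem circ_valB (b) : (circ K d t r).valB b = X b := by
  simp [SPSPS.valB, circ, SPSPS.leafVal]

theorem circ_degB (b) : (circ K d t r).degB b = 1 := by
  simp [SPSPS.degB, circ, SPSPS.leafDeg]

theorem circ_degP (p) : (circ K d t r).degP p =
    (univ.filter (fun u : Fin (t + 1) => p.1 * (t + 1) + u < d + 1)).card := by
  have : (circ K d t r).degB = fun _ => 1 := funext (circ_degB K d t r)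
  unfold SPSPS.degP
  rw [this]
  simp only [circ, Multiset.map_map, Function.comp_def, Multiset.map_const', Multiset.sum_replicate,
    smul_eq_mul, mul_one]
  rfl

theorem circ_degS (s) : (circ K d t r).degS s =
    (univ.filter (fun u : Fin (t + 1) => s.1 * (t + 1) + u < d + 1)).card := by
  unfold SPSPS.degS
  have : (circ K d t r).degP = fun p =>
      (univ.filter (fun u : Fin (t + 1) => p.1 * (t + 1) + u < d + 1)).card :=
    funext (circ_degP K d t r)
  rw [this]
  simp only [circ, Finset.sup_map, Function.comp_def, Function.Embedding.coeFn_mk]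
  exact Finset.sup_const Finset.univ_nonempty _

theorem circ_degR (ρ) : (circ K d t r).degR ρ = ∑ c : Fin (r + 1),
    (univ.filter (fun u : Fin (t + 1) => c * (t + 1) + u < d + 1)).card := by
  unfold SPSPS.degR
  have : (circ K d t r).degS = fun p =>
      (univ.filter (fun u : Fin (t + 1) => p.1 * (t + 1) + u < d + 1)).card :=
    funext (circ_degS K d t r)
  rw [this]
  simp only [circ, Multiset.map_map, Function.comp_def]
  rfl

theorem circ_hom : (circ K d t r).IsHomogeneous := by
  refine ⟨fun b l _ => ?_, fun s p hp => ?_, fun ρ _ => ?_⟩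
  · rw [circ_degB]; rfl
  · rw [circ_degP, circ_degS]
    simp only [circ, Finset.mem_map, Function.Embedding.coeFn_mk] at hp
    obtain ⟨π, _, rfl⟩ := hp
    rfl
  · unfold SPSPS.degOut
    have : (circ K d t r).degR = fun _ => ∑ c : Fin (r + 1),
        (univ.filter (fun u : Fin (t + 1) => c * (t + 1) + u < d + 1)).card :=
      funext (circ_degR K d t r)
    rw [this]
    exact (Finset.sup_const Finset.univ_nonempty _).symm

theorem circ_valS (s) : (circ K d t r).valS s =
    (List.ofFn (fun u : Fin (t + 1) => Mp K d (s.1 * (t + 1) + u))).prod s.2.1 s.2.2 := by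
  rw [prod_ofFn_apply]
  unfold SPSPS.valS SPSPS.valP
  have : (circ K d t r).valB = X := funext (circ_valB K d t r)
  rw [this]
  simp only [circ, Finset.sum_map, Function.Embedding.coeFn_mk, Multiset.map_map,
    Function.comp_def]
  refine Finset.sum_congr rfl fun π _ => ?_
  rw [← Finset.prod_filter_mul_prod_filter_not univ
    (fun u : Fin (t + 1) => s.1 * (t + 1) + u < d + 1), smul_eq_C_mul, mul_comm, map_prod]
  congr 1
  · rw [← Finset.prod_eq_multiset_prod]
    refine Finset.prod_congr rfl fun u hu => ?_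
    rw [Mp, if_pos (Finset.mem_filter.1 hu).2]
    rfl
  · refine Finset.prod_congr rfl fun u hu => ?_
    rw [Mp, if_neg (Finset.mem_filter.1 hu).2, Matrix.one_apply]
    split_ifs <;> simp

theorem circ_output (h : d + 1 ≤ (r + 1) * (t + 1)) : (circ K d t r).output = imm K (d + 1) := by
  have h1 : (circ K d t r).output = (List.ofFn (fun c : Fin (r + 1) =>
      (List.ofFn (fun u : Fin (t + 1) => Mp K d (c * (t + 1) + u))).prod)).prod 0 0 := by
    rw [prod_ofFn_apply]
    unfold SPSPS.output SPSPS.valR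
    have : (circ K d t r).valS = fun s =>
        (List.ofFn (fun u : Fin (t + 1) => Mp K d (s.1 * (t + 1) + u))).prod s.2.1 s.2.2 :=
      funext (circ_valS K d t r)
    rw [this]
    simp only [circ, Multiset.map_map, Function.comp_def, one_smul]
    rfl
  rw [h1, imm]
  refine congrFun (congrFun ?_ 0) 0
  have h2 : ∀ c : ℕ, List.ofFn (fun u : Fin (t + 1) => Mp K d (c * (t + 1) + u)) =
      (List.range (t + 1)).map (fun u => Mp K d (c * (t + 1) + u)) :=
    fun c => ofFn_eq_range (fun u => Mp K d (c * (t + 1) + u)) _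
  simp only [h2]
  rw [ofFn_eq_range (fun c => ((List.range (t + 1)).map
    (fun u => Mp K d (c * (t + 1) + u))).prod), ← prod_range_mul]
  obtain ⟨e, he⟩ := Nat.exists_eq_add_of_le h
  rw [he, List.range_add, List.map_append, List.prod_append, ← ofFn_eq_range]
  have h3 : (List.map (Mp K d) (List.map (fun x => d + 1 + x) (List.range e))).prod = 1 := by
    apply List.prod_eq_one
    intro x hx
    simp only [List.map_map, List.mem_map, Function.comp] at hx
    obtain ⟨y, _, rfl⟩ := hx
    rw [Mp, if_neg (by omega)]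
  rw [h3, mul_one]
  congr 2
  funext i
  rw [Mp, if_pos i.2]
  congr 1
  exact Fin.ext (Nat.mod_eq_of_lt i.2)

theorem exists_circ (h : d + 1 ≤ (r + 1) * (t + 1)) :
    ∃ (l b p s r' : ℕ) (C : SPSPS K (Fin (d + 1) × Fin (d + 1) × Fin (d + 1))
      (Fin l) (Fin b) (Fin p) (Fin s) (Fin r')), C.IsHomogeneous ∧ C.output = imm K (d + 1) ∧
      C.size = 2 * (d + 1) ^ 3 + (r + 1) * (d + 1) ^ 2 + (r + 1) * (d + 1) ^ (t + 1 + 1) +
        (d + 1) ^ (r + 1 - 1) + 1 := by
  refine ⟨_, _, _, _, _, reidx (circ K d t r) (Fintype.equivFin _) (Fintype.equivFin _)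
    (Fintype.equivFin _) (Fintype.equivFin _) (Fintype.equivFin _),
    reidx_hom _ _ _ _ _ _ (circ_hom K d t r), ?_, ?_⟩
  · rw [reidx_output, circ_output K d t r h]
  · simp only [SPSPS.size, Fintype.card_fin, Fintype.card_prod, Fintype.card_fun,
      Nat.add_sub_cancel]
    ring

end circ

end Crest.Agent.H6.Imm
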