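import Crest.Agent.H6.ImmPaths

/-! Estimates for the local weights. -/

set_option autoImplicit false

namespace Crest.Agent.H6.Imm

open Finset

theorem W_zero (a b : ℝ) : W a b 0 = 1 := by simp [W]

theorem W_le_succ (a b : ℝ) (e : ℕ) : W a b e ≤ e + 1 := by
  unfold W
  calc _ ≤ ∑ _i ∈ range (e + 1), (1 : ℝ) := by
        refine Finset.sum_le_sum fun i _ => ?_
        rw [Real.exp_le_one_iff]
        have := abs_nonneg ((i : ℝ) * a - (e - i : ℕ) * b)
        linarith
    _ = _ := by simp

theorem W_one (a b : ℝ) (hb : 0 ≤ b) (hab : b ≤ a) : W a b 1 ≤ 2 * Real.exp (-b / 2) := by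
  simp only [W, Finset.sum_range_succ, Finset.range_zero, Finset.sum_empty]
  have h1 : |((0 : ℕ) : ℝ) * a - (1 - 0 : ℕ) * b| = b := by simp [abs_of_nonneg hb]
  have h2 : |((1 : ℕ) : ℝ) * a - (1 - 1 : ℕ) * b| = a := by simp [abs_of_nonneg (hb.trans hab)]
  rw [h1, h2]
  have : Real.exp (-a / 2) ≤ Real.exp (-b / 2) := Real.exp_le_exp.2 (by linarith)
  linarith

theorem sum_ite_le_one (m : ℕ) (P : ℕ → Prop) [DecidablePred P]
    (h : ∀ i j, P i → P j → i = j) (c : ℝ) (hc : 0 ≤ c) :
    ∑ i ∈ range m, (if P i then c else 0) ≤ c := by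
  rw [← Finset.sum_filter, Finset.sum_const, nsmul_eq_mul]
  have : ((range m).filter P).card ≤ 1 := Finset.card_le_one.2 fun i hi j hj =>
    h i j (Finset.mem_filter.1 hi).2 (Finset.mem_filter.1 hj).2
  have h2 : (((range m).filter P).card : ℝ) ≤ 1 := by exact_mod_cast this
  nlinarith

theorem W_le (b η : ℝ) (hb : 0 ≤ b) (hη : 0 ≤ η) (e j0 : ℕ) (h1 : 1 ≤ j0) (h2 : j0 ≤ 2)
    (hp : (e + j0) % 2 = 0) :
    W (b + 2 * η) b e ≤ (if j0 = 2 then Real.exp (-(e * η) / 2) else 0) +
      Real.exp (e * η / 2 - j0 * b / 2) * (2 + (e + 1) * Real.exp (-b)) := by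
  unfold W
  set κ := Real.exp (e * η / 2 - j0 * b / 2) with hκ
  have hκ0 : 0 < κ := Real.exp_pos _
  set y := (if j0 = 2 then Real.exp (-(e * η) / 2) else 0) with hy
  have hy0 : 0 ≤ y := by rw [hy]; split_ifs <;> positivity
  have key : ∀ i ∈ range (e + 1), Real.exp (-|i * (b + 2 * η) - (e - i : ℕ) * b| / 2) ≤
      (if 2 * i = e then y else 0) + (if 2 * i = e + j0 then κ else 0) +
        (if 2 * i + j0 = e then κ else 0) + κ * Real.exp (-b) := by
    intro i hi
    rw [Finset.mem_range] at hi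
    rw [Nat.cast_sub (by omega)]
    have p1 : 0 ≤ (if 2 * i = e then y else 0) := by split_ifs <;> positivity
    have p2 : 0 ≤ (if 2 * i = e + j0 then κ else 0) := by split_ifs <;> positivity
    have p3 : 0 ≤ (if 2 * i + j0 = e then κ else 0) := by split_ifs <;> positivity
    have p4 : 0 ≤ κ * Real.exp (-b) := by positivity
    have i0 : (0 : ℝ) ≤ i := Nat.cast_nonneg _
    have e0 : (0 : ℝ) ≤ e := Nat.cast_nonneg _
    have iη : 0 ≤ (i : ℝ) * η := by positivity
    have eη : 0 ≤ (e : ℝ) * η := by positivity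
    have a1 := le_abs_self ((i : ℝ) * (b + 2 * η) - (e - i) * b)
    have a2 := neg_abs_le ((i : ℝ) * (b + 2 * η) - (e - i) * b)
    have hc : 2 * i = e ∨ 2 * i = e + j0 ∨ 2 * i + j0 = e ∨ e + j0 + 2 ≤ 2 * i ∨
      2 * i + j0 + 2 ≤ e := by omega
    rcases hc with hc | hc | hc | hc | hc
    · have hj : j0 = 2 := by omega
      rw [if_pos hc, hy, if_pos hj]
      have : Real.exp (-|i * (b + 2 * η) - (e - i) * b| / 2) ≤ Real.exp (-(e * η) / 2) := by
        apply Real.exp_le_exp.2
        have : (e : ℝ) = 2 * i := by exact_mod_cast hc.symm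
        rw [this] at a1 ⊢
        nlinarith
      linarith
    · rw [if_pos hc]
      have : Real.exp (-|i * (b + 2 * η) - (e - i) * b| / 2) ≤ κ := by
        apply Real.exp_le_exp.2
        have : 2 * (i : ℝ) = e + j0 := by exact_mod_cast hc
        have h5 : (i : ℝ) * (b + 2 * η) - (e - i) * b = j0 * b + 2 * (i * η) := by
          have : (j0 : ℝ) = 2 * i - e := by linarith
          rw [this]; ring
        linarith
      linarith
    · rw [if_pos hc]
      have : Real.exp (-|i * (b + 2 * η) - (e - i) * b| / 2) ≤ κ := by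
        apply Real.exp_le_exp.2
        have h4 : 2 * (i : ℝ) + j0 = e := by exact_mod_cast hc
        have h5 : (i : ℝ) * (b + 2 * η) - (e - i) * b = -(j0 * b) + 2 * (i * η) := by
          have : (j0 : ℝ) = e - 2 * i := by linarith
          rw [this]; ring
        have h6 : 2 * ((i : ℝ) * η) ≤ e * η := by
          have : (0 : ℝ) ≤ j0 := Nat.cast_nonneg _
          nlinarith
        linarith
      linarith
    · have : Real.exp (-|i * (b + 2 * η) - (e - i) * b| / 2) ≤ κ * Real.exp (-b) := by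
        rw [hκ, ← Real.exp_add]
        apply Real.exp_le_exp.2
        have h4 : (e : ℝ) + j0 + 2 ≤ 2 * i := by exact_mod_cast hc
        have h5 : (i : ℝ) * (b + 2 * η) - (e - i) * b = (2 * i - e) * b + 2 * (i * η) := by ring
        have h6 : ((j0 : ℝ) + 2) * b ≤ (2 * i - e) * b := by gcongr; linarith
        linarith
      linarith
    · have : Real.exp (-|i * (b + 2 * η) - (e - i) * b| / 2) ≤ κ * Real.exp (-b) := by
        rw [hκ, ← Real.exp_add]
        apply Real.exp_le_exp.2
        have h4 : 2 * (i : ℝ) + j0 + 2 ≤ e := by exact_mod_cast hc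
        have h5 : (i : ℝ) * (b + 2 * η) - (e - i) * b = -((e - 2 * i) * b) + 2 * (i * η) := by ring
        have h6 : ((j0 : ℝ) + 2) * b ≤ (e - 2 * i) * b := by gcongr; linarith
        have h7 : 2 * ((i : ℝ) * η) ≤ e * η := by
          have : (0 : ℝ) ≤ j0 := Nat.cast_nonneg _
          nlinarith
        linarith
      linarith
  refine (Finset.sum_le_sum key).trans ?_
  simp only [Finset.sum_add_distrib, Finset.sum_const, Finset.card_range, nsmul_eq_mul]
  have s1 := sum_ite_le_one (e + 1) (fun i => 2 * i = e) (fun i j _ _ => by omega) y hy0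
  have s2 := sum_ite_le_one (e + 1) (fun i => 2 * i = e + j0) (fun i j _ _ => by omega) κ hκ0.le
  have s3 := sum_ite_le_one (e + 1) (fun i => 2 * i + j0 = e) (fun i j _ _ => by omega) κ hκ0.le
  push_cast
  nlinarith

theorem W_small (L r : ℝ) (hL : 4000 ≤ L) (hr : Real.exp (L / 2) = r) (e : ℕ) (he : e ≤ r) :
    W (L / 2 + 2 * (L / (8 * r))) (L / 2) e ≤ Real.exp (-(e * (L / (8 * r))) / 4) := by
  have hr1 : 1 ≤ r := by rw [← hr]; exact Real.one_le_exp (by linarith)
  have hr0 : 0 < r := by linarith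
  set η := L / (8 * r) with hη
  have hη0 : 0 < η := by positivity
  have e0 : (0 : ℝ) ≤ e := Nat.cast_nonneg _
  have heη : e * η ≤ L / 8 := by
    rw [hη, ← mul_div_assoc, div_le_div_iff₀ (by positivity) (by norm_num)]
    nlinarith
  have hexp : Real.exp (-(L / 2)) = r⁻¹ := by rw [Real.exp_neg, hr]
  have h4 : 2 + (e + 1) * Real.exp (-(L / 2)) ≤ 4 := by
    rw [hexp]
    have : (e + 1) * r⁻¹ ≤ 2 := by
      rw [← div_eq_mul_inv, div_le_iff₀ hr0]; linarith
    linarith
  have h4e : (4 : ℝ) ≤ Real.exp 3 := by have := Real.add_one_le_exp (3 : ℝ); linarith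
  rcases Nat.eq_zero_or_pos e with rfl | hpos
  · simp [W_zero]
  rcases Nat.mod_two_eq_zero_or_one e with hm | hm
  · have h := W_le (L / 2) η (by linarith) hη0.le e 2 (by norm_num) le_rfl (by omega)
    rw [if_pos rfl] at h
    refine h.trans ?_
    set x := e * η / 4 with hx
    have he2 : (2 : ℝ) ≤ e := by exact_mod_cast (show 2 ≤ e by omega)
    have hx1 : η / 2 ≤ x := by rw [hx]; nlinarith
    have g1 : Real.exp (e * η / 2 - (2 : ℕ) * (L / 2) / 2) = Real.exp (2 * x) * r⁻¹ := by
      rw [← hexp, ← Real.exp_add]; congr 1; rw [hx]; push_cast; ring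
    have g2 : -(e * η) / 2 = -(2 * x) := by rw [hx]; ring
    have g3 : -(e * η) / 4 = -x := by rw [hx]; ring
    rw [g1, g2, g3]
    have key : 4 * (Real.exp (4 * x) * r⁻¹) ≤ x := by
      rcases le_total x 1 with h1 | h1
      · have a1 : Real.exp (4 * x) ≤ Real.exp 1 ^ 4 := by
          rw [← Real.exp_nat_mul]; apply Real.exp_le_exp.2; push_cast; linarith
        have a2 : Real.exp 1 ^ 4 ≤ 2.72 ^ 4 := by
          gcongr; exact (Real.exp_one_lt_d9.le.trans (by norm_num))
        have a3 : Real.exp (4 * x) ≤ 55 := a1.trans (a2.trans (by norm_num))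
        have a4 : η / 2 = L / 16 * r⁻¹ := by rw [hη]; field_simp; norm_num
        have a5 : 0 < r⁻¹ := by positivity
        calc _ ≤ 4 * (55 * r⁻¹) := by gcongr
          _ ≤ L / 16 * r⁻¹ := by nlinarith
          _ ≤ x := by rw [← a4]; exact hx1
      · have a1 : Real.exp 3 * (Real.exp (4 * x) * r⁻¹) ≤ 1 := by
          rw [← hexp, ← Real.exp_add, ← Real.exp_add, Real.exp_le_one_iff, hx]
          linarith
        have a2 : 0 ≤ Real.exp (4 * x) * r⁻¹ := by positivity
        nlinarith
    have k2 : Real.exp (2 * x) = Real.exp (-(2 * x)) * Real.exp (4 * x) := by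
      rw [← Real.exp_add]; congr 1; ring
    have k3 : Real.exp (-x) = Real.exp (-(2 * x)) * Real.exp x := by
      rw [← Real.exp_add]; congr 1; ring
    have k4 := Real.add_one_le_exp x
    have k5 := Real.exp_pos (-(2 * x))
    calc _ ≤ Real.exp (-(2 * x)) + Real.exp (2 * x) * r⁻¹ * 4 := by gcongr
      _ = Real.exp (-(2 * x)) * (1 + 4 * (Real.exp (4 * x) * r⁻¹)) := by rw [k2]; ring
      _ ≤ Real.exp (-(2 * x)) * Real.exp x := by gcongr; linarith
      _ = _ := k3.symm
  · have h := W_le (L / 2) η (by linarith) hη0.le e 1 le_rfl (by norm_num) (by omega)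
    rw [if_neg (by norm_num), zero_add] at h
    refine h.trans ?_
    calc _ ≤ Real.exp (e * η / 2 - (1 : ℕ) * (L / 2) / 2) * Real.exp 3 := by
          gcongr; exact h4.trans h4e
      _ ≤ _ := by
          rw [← Real.exp_add]
          apply Real.exp_le_exp.2
          push_cast
          linarith

end Crest.Agent.H6.Imm
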