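import Mathlib

/-! Folded labelled graphs and walks (small cancellation toolkit, part 1). -/

namespace Crest.Agent.H6.SC

open FreeGroup

/-- A folded graph labelled by letters of `A` (a partial action of the free group). -/
structure LG (A V : Type*) where
  E : V → A × Bool → V → Prop
  symm : ∀ {v d w}, E v d w → E w (d.1, !d.2) v
  det : ∀ {v d w w'}, E v d w → E v d w' → w = w'

variable {A V : Type*}

/-- Walks with respect to an edge relation. -/
def Walk (E : V → A × Bool → V → Prop) : V → List (A × Bool) → V → Prop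
  | v, [], w => v = w
  | v, d :: l, w => ∃ u, E v d u ∧ Walk E u l w

section basic
variable {E : V → A × Bool → V → Prop}

@[simp] theorem walk_nil {v w : V} : Walk E v [] w ↔ v = w := Iff.rfl
@[simp] theorem walk_cons {v w : V} {d l} :
    Walk E v (d :: l) w ↔ ∃ u, E v d u ∧ Walk E u l w := Iff.rfl

theorem walk_single {v w : V} {d} : Walk E v [d] w ↔ E v d w := by simp

theorem walk_append {l₁ l₂ : List (A × Bool)} : ∀ {v w : V},
    Walk E v (l₁ ++ l₂) w ↔ ∃ u, Walk E v l₁ u ∧ Walk E u l₂ w := by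
  induction l₁ with
  | nil => intro v w; simp
  | cons d l ih =>
    intro v w
    simp only [List.cons_append, walk_cons, ih]
    constructor
    · rintro ⟨u, h, u', h1, h2⟩; exact ⟨u', ⟨u, h, h1⟩, h2⟩
    · rintro ⟨u', ⟨u, h, h1⟩, h2⟩; exact ⟨u, h, u', h1, h2⟩

theorem Walk.append {l₁ l₂ : List (A × Bool)} {u v w : V} (h₁ : Walk E u l₁ v)
    (h₂ : Walk E v l₂ w) : Walk E u (l₁ ++ l₂) w := walk_append.2 ⟨v, h₁, h₂⟩

theorem Walk.map {V' : Type*} {E' : V' → A × Bool → V' → Prop} (f : V → V')
    (hf : ∀ v d w, E v d w → E' (f v) d (f w)) :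
    ∀ {l : List (A × Bool)} {v w : V}, Walk E v l w → Walk E' (f v) l (f w) := by
  intro l
  induction l with
  | nil => intro v w h; simp only [walk_nil] at h ⊢; rw [h]
  | cons d l ih => rintro v w ⟨u, h, h'⟩; exact ⟨f u, hf _ _ _ h, ih h'⟩

theorem Walk.mono {E' : V → A × Bool → V → Prop} (hf : ∀ v d w, E v d w → E' v d w)
    {l : List (A × Bool)} {v w : V} (h : Walk E v l w) : Walk E' v l w :=
  Walk.map (fun x => x) hf h

end basic

theorem invRev_single (d : A × Bool) : invRev [d] = [(d.1, !d.2)] := by simp [invRev]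

theorem invRev_cons' (d : A × Bool) (l : List (A × Bool)) :
    invRev (d :: l) = invRev l ++ [(d.1, !d.2)] := by simp [invRev]

theorem invRev_eq_nil {l : List (A × Bool)} : invRev l = [] ↔ l = [] := by simp [invRev]

theorem IsReduced.invRev' {l : List (A × Bool)} (h : IsReduced l) : IsReduced (invRev l) := by
  classical
  rw [isReduced_iff_reduce_eq] at h ⊢
  rw [reduce_invRev, h]

theorem isReduced_reduce [DecidableEq A] (l : List (A × Bool)) : IsReduced (reduce l) :=
  isReduced_iff_reduce_eq.2 reduce.idem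

theorem reduce_length_le [DecidableEq A] (l : List (A × Bool)) : (reduce l).length ≤ l.length :=
  (Red.sublist reduce.red).length_le

theorem red_left {l₁ l₂ : List (A × Bool)} (h : IsReduced (l₁ ++ l₂)) : IsReduced l₁ :=
  h.infix ⟨[], l₂, by simp⟩

theorem red_right {l₁ l₂ : List (A × Bool)} (h : IsReduced (l₁ ++ l₂)) : IsReduced l₂ :=
  h.infix ⟨l₁, [], by simp⟩

theorem not_red_cancel (l₁ l₂ : List (A × Bool)) (d : A × Bool) :
    ¬ IsReduced (l₁ ++ d :: (d.1, !d.2) :: l₂) := by
  intro h
  have := (red_right h)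
  rw [isReduced_cons_cons] at this
  have := this.1 rfl
  simp at this

theorem not_red_invRev {b : List (A × Bool)} (hb : b ≠ []) : ¬ IsReduced (b ++ invRev b) := by
  obtain ⟨b', d, rfl⟩ := List.eq_nil_or_concat' b |>.resolve_left hb
  rw [invRev_append, invRev_single]
  have := not_red_cancel b' (invRev b') d
  simpa using this

theorem exists_cancel_of_not_red {l : List (A × Bool)} (h : ¬ IsReduced l) :
    ∃ l₁ l₂ d, l = l₁ ++ d :: (d.1, !d.2) :: l₂ := by
  rw [isReduced_iff_not_step] at h
  push Not at h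
  obtain ⟨l', h⟩ := h
  cases h with
  | @not L₁ L₂ x b => exact ⟨L₁, L₂, (x, b), rfl⟩

/-- reducedness of a concatenation from the junction. -/
theorem red_append {l₁ l₂ : List (A × Bool)} (h₁ : IsReduced l₁) (h₂ : IsReduced l₂)
    (h : ∀ a ∈ l₁.getLast?, ∀ b ∈ l₂.head?, b ≠ (a.1, !a.2)) : IsReduced (l₁ ++ l₂) := by
  unfold FreeGroup.IsReduced at *
  rw [List.isChain_append]
  refine ⟨h₁, h₂, fun a ha b hb hab => ?_⟩
  have := h a ha b hb
  by_contra hne
  apply this
  obtain ⟨a1, a2⟩ := a
  obtain ⟨b1, b2⟩ := b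
  simp only at hab hne
  subst hab
  cases a2 <;> cases b2 <;> simp_all

namespace LG
variable (Γ : LG A V)

theorem symm' {v w : V} {d : A × Bool} (h : Γ.E w (d.1, !d.2) v) : Γ.E v d w := by
  simpa using Γ.symm h

theorem walk_det : ∀ {l : List (A × Bool)} {v w w' : V},
    Walk Γ.E v l w → Walk Γ.E v l w' → w = w' := by
  intro l
  induction l with
  | nil => intro v w w' h h'; simp only [walk_nil] at h h'; rw [← h, ← h']
  | cons d l ih =>
    rintro v w w' ⟨u, h, h1⟩ ⟨u', h', h1'⟩
    obtain rfl := Γ.det h h'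
    exact ih h1 h1'

theorem walk_inv : ∀ {l : List (A × Bool)} {v w : V},
    Walk Γ.E v l w → Walk Γ.E w (invRev l) v := by
  intro l
  induction l with
  | nil => intro v w h; simp only [walk_nil, invRev_empty] at h ⊢; exact h.symm
  | cons d l ih =>
    rintro v w ⟨u, h, h1⟩
    rw [invRev_cons']
    exact (ih h1).append (walk_single.2 (Γ.symm h))

theorem walk_inv' {l : List (A × Bool)} {v w : V} (h : Walk Γ.E w (invRev l) v) :
    Walk Γ.E v l w := by simpa using Γ.walk_inv h

theorem walk_det' {l : List (A × Bool)} {v v' w : V}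
    (h : Walk Γ.E v l w) (h' : Walk Γ.E v' l w) : v = v' :=
  Γ.walk_det (Γ.walk_inv h) (Γ.walk_inv h')

theorem walk_step {l l' : List (A × Bool)} (h : Red.Step l l') {v w : V}
    (hw : Walk Γ.E v l w) : Walk Γ.E v l' w := by
  cases h with
  | @not L₁ L₂ x b =>
    rw [walk_append] at hw ⊢
    obtain ⟨u, h1, u1, h2, u2, h3, h4⟩ := hw
    have := Γ.det h3 (Γ.symm h2)
    subst this
    exact ⟨_, h1, h4⟩

theorem walk_red {l l' : List (A × Bool)} (h : Red l l') {v w : V}
    (hw : Walk Γ.E v l w) : Walk Γ.E v l' w := by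
  induction h with
  | refl => exact hw
  | tail _ h ih => exact Γ.walk_step h ih

theorem walk_reduce [DecidableEq A] {l : List (A × Bool)} {v w : V}
    (hw : Walk Γ.E v l w) : Walk Γ.E v (reduce l) w := Γ.walk_red reduce.red hw

/-- all nonempty reduced closed walks have length at least `g`. -/
def Girth (g : ℕ) : Prop :=
  ∀ v l, IsReduced l → l ≠ [] → Walk Γ.E v l v → g ≤ l.length

/-- pieces have length at most `L`. -/
def Pieces (L : ℕ) : Prop :=
  ∀ v v' l w w', IsReduced l → Walk Γ.E v l w → Walk Γ.E v' l w' → L < l.length → v = v'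

variable {Γ}

theorem Girth.unique {g : ℕ} (hg : Γ.Girth g) {l₁ l₂ : List (A × Bool)} {v w : V}
    (h₁ : IsReduced l₁) (h₂ : IsReduced l₂) (w₁ : Walk Γ.E v l₁ w) (w₂ : Walk Γ.E v l₂ w)
    (hl : l₁.length + l₂.length < g) : l₁ = l₂ := by
  classical
  have hw := Γ.walk_reduce (w₁.append (Γ.walk_inv w₂))
  have hlen := reduce_length_le (l₁ ++ invRev l₂)
  simp only [List.length_append, invRev_length] at hlen
  have h0 : reduce (l₁ ++ invRev l₂) = [] := by
    by_contra hne
    have := hg v _ (isReduced_reduce _) hne hw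
    omega
  have h1 : FreeGroup.mk (l₁ ++ invRev l₂) = (1 : FreeGroup A) := by
    rw [← toWord_eq_nil_iff, toWord_mk, h0]
  rw [← mul_mk, ← inv_mk, mul_inv_eq_one] at h1
  have := reduce.sound h1
  rwa [h₁.reduce_eq, h₂.reduce_eq] at this

end LG

end Crest.Agent.H6.SC
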