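import Crest.Agent.H6.SC5

/-! Small cancellation toolkit, part 10: central extensions with prescribed holonomy
(asphericity of small cancellation presentations, in cochain form). -/

namespace Crest.Agent.H6.SC

open FreeGroup

variable {A V W M : Type} [AddCommGroup M]

/-- edges of the covering graph defined by a cochain. -/
def LE (E : W → A × Bool → W → Prop) (ω : W → A × Bool → M) (p : W × M) (d : A × Bool)
    (q : W × M) : Prop := E p.1 d q.1 ∧ q.2 = p.2 + ω p.1 d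

/-- walks with holonomy. -/
def HW (E : W → A × Bool → W → Prop) (ω : W → A × Bool → M) (x : W) (l : List (A × Bool))
    (y : W) (m : M) : Prop := Walk (LE E ω) (x, 0) l (y, m)

def Anti (X : LG A W) (ω : W → A × Bool → M) : Prop :=
  ∀ x d y, X.E x d y → ω y (d.1, !d.2) = -ω x d

def LG.lift (X : LG A W) {ω : W → A × Bool → M} (h : Anti X ω) : LG A (W × M) where
  E := LE X.E ω
  symm := by
    rintro p d q ⟨h1, h2⟩
    exact ⟨X.symm h1, by rw [h _ _ _ h1, h2]; abel⟩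
  det := by
    rintro p d q q' ⟨h1, h2⟩ ⟨h3, h4⟩
    exact Prod.ext (X.det h1 h3) (h2.trans h4.symm)

section
variable {E : W → A × Bool → W → Prop} {ω : W → A × Bool → M}

theorem LE_shift {x y : W} {a b : M} {l} (t : M) (h : Walk (LE E ω) (x, a) l (y, b)) :
    Walk (LE E ω) (x, a + t) l (y, b + t) :=
  Walk.map (E := LE E ω) (E' := LE E ω) (fun p : W × M => (p.1, p.2 + t))
    (fun _ _ _ h => ⟨h.1, by simp only [h.2]; abel⟩) h

theorem HW.of {x y : W} {a b : M} {l} (h : Walk (LE E ω) (x, a) l (y, b)) : HW E ω x l y (b - a) := by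
  have := LE_shift (-a) h
  rwa [add_neg_cancel, ← sub_eq_add_neg] at this

theorem HW.append {x y z : W} {l l'} {m m' : M} (h : HW E ω x l y m) (h' : HW E ω y l' z m') :
    HW E ω x (l ++ l') z (m + m') := by
  have := LE_shift m h'
  rw [zero_add, add_comm] at this
  exact Walk.append h this

theorem HW.split {x z : W} {l l'} {m : M} (h : HW E ω x (l ++ l') z m) :
    ∃ y a, HW E ω x l y a ∧ HW E ω y l' z (m - a) := by
  obtain ⟨⟨y, a⟩, h1, h2⟩ := walk_append.1 h
  exact ⟨y, a, h1, HW.of h2⟩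

theorem HW.walk {x y : W} {l} {m : M} (h : HW E ω x l y m) : Walk E x l y :=
  Walk.map (E := LE E ω) Prod.fst (fun _ _ _ h => h.1) h

theorem HW.single {x y : W} {d} (h : E x d y) : HW E ω x [d] y (ω x d) :=
  walk_single.2 ⟨h, by simp⟩

theorem HW.nil {x y : W} {m : M} (h : HW E ω x [] y m) : m = 0 := (congrArg Prod.snd h).symm

theorem exists_HW (ω : W → A × Bool → M) : ∀ {l} {x y : W}, Walk E x l y → ∃ m, HW E ω x l y m := by
  intro l
  induction l with
  | nil => intro x y h; exact ⟨0, by cases h; rfl⟩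
  | cons d l ih =>
    rintro x y ⟨u, h, h'⟩
    obtain ⟨m, hm⟩ := ih h'
    exact ⟨_, (HW.single h).append hm⟩

end

section
variable {X : LG A W} {ω : W → A × Bool → M}

theorem HW.inv (hA : Anti X ω) {x y : W} {l} {m : M} (h : HW X.E ω x l y m) :
    HW X.E ω y (invRev l) x (-m) := by
  have := HW.of ((X.lift hA).walk_inv h)
  rwa [zero_sub] at this

theorem HW.red [DecidableEq A] (hA : Anti X ω) {x y : W} {l} {m : M} (h : HW X.E ω x l y m) :
    HW X.E ω x (reduce l) y m := (X.lift hA).walk_reduce h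

theorem HW.det (hA : Anti X ω) {x y y' : W} {l} {m m' : M} (h : HW X.E ω x l y m)
    (h' : HW X.E ω x l y' m') : m = m' := congrArg Prod.snd ((X.lift hA).walk_det h h')

end

/-- the cochain `ω` on `X` has the holonomy of `c` along closed walks that can be read in `Γ`. -/
def Coh (Γ : LG A V) (c : V → A × Bool → M) (X : LG A W) (ω : W → A × Bool → M) : Prop :=
  Anti X ω ∧ ∀ x v l m m', HW X.E ω x l x m → HW Γ.E c v l v m' → m = m'

theorem Ctx.coh (k : Ctx A V W) {c : V → A × Bool → M} (hc : Anti k.Γ c)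
    {ω : W → A × Bool → M} (h : Coh k.Γ c k.X ω) : ∃ ω', Coh k.Γ c k.X' ω' := by
  classical
  obtain ⟨hA, h⟩ := h
  obtain ⟨θ, hθ⟩ : ∃ θ : V → M, ∀ y v l m m', HW k.X.E ω k.x₀ l y m → HW k.Γ.E c k.v₀ l v m' →
      θ v = m - m' := by
    let P : V → M → Prop := fun v t => ∃ y l m m', HW k.X.E ω k.x₀ l y m ∧
      HW k.Γ.E c k.v₀ l v m' ∧ t = m - m'
    refine ⟨fun v => if h : ∃ t, P v t then h.choose else 0, fun y v l m m' h1 h2 => ?_⟩
    have hex : ∃ t, P v t := ⟨_, y, l, m, m', h1, h2, rfl⟩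
    obtain ⟨y₂, l₂, m₂, m₂', k1, k2, k3⟩ := hex.choose_spec
    simp only [dif_pos hex, k3]
    obtain rfl : y = y₂ := Ctx.K.injΓ (c := k) ⟨l, h1.walk, h2.walk⟩ ⟨l₂, k1.walk, k2.walk⟩
    have := h _ _ _ _ _ (h1.append (k1.inv hA)) (h2.append (k2.inv hc))
    rw [← sub_eq_zero] at this ⊢
    rw [← neg_eq_zero, ← this]; abel
  let P : W ⊕ V → A × Bool → V × V → Prop := fun b d p => b = k.ψ p.1 ∧ k.Γ.E p.1 d p.2
  let ω' : W ⊕ V → A × Bool → M := fun b d =>
    if h : ∃ p, P b d p then c h.choose.1 d + θ h.choose.2 - θ h.choose.1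
    else b.elim (fun x => ω x d) (fun _ => 0)
  have ha : ∀ v d v', k.Γ.E v d v' → ω' (k.ψ v) d = c v d + θ v' - θ v := by
    intro v d v' hv
    have hex : ∃ p, P (k.ψ v) d p := ⟨(v, v'), rfl, hv⟩
    obtain ⟨k1, k2⟩ := hex.choose_spec
    have k3 := Ctx.ψ_inj k1
    simp only [ω', dif_pos hex]
    rw [← k3] at k2 ⊢
    rw [k.Γ.det k2 hv]
  have hb : ∀ x d x', k.X.E x d x' → ω' (Sum.inl x) d = ω x d := by
    intro x d x' hx
    by_cases hex : ∃ p, P (Sum.inl x) d p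
    · obtain ⟨⟨v, v'⟩, k1, k2⟩ := hex
      obtain ⟨l, k3, k4⟩ := Ctx.ψ_inl k1.symm
      obtain ⟨m, k3⟩ := exists_HW ω k3
      obtain ⟨m', k4⟩ := exists_HW c k4
      rw [k1, ha _ _ _ k2, hθ _ _ _ _ _ k3 k4,
        hθ _ _ _ _ _ (k3.append (HW.single hx)) (k4.append (HW.single k2))]
      abel
    · simp only [ω', dif_neg hex, Sum.elim_inl]
  have hA' : Anti k.X' ω' := by
    rintro a d b (⟨x, x', rfl, rfl, h⟩ | ⟨v, v', rfl, rfl, h⟩)
    · rw [hb _ _ _ h, hb _ _ _ (k.X.symm h), hA _ _ _ h]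
    · rw [ha _ _ _ h, ha _ _ _ (k.Γ.symm h), hc _ _ _ h]; abel
  have hinl : ∀ x l y m, HW k.X.E ω x l y m → HW k.X'.E ω' (Sum.inl x) l (Sum.inl y) m := by
    intro x l y m h
    exact Walk.map (E := LE k.X.E ω) (E' := LE k.X'.E ω') (fun p => (Sum.inl p.1, p.2))
      (fun p d q h => ⟨Or.inl ⟨_, _, rfl, rfl, h.1⟩, by simp only [hb _ _ _ h.1, h.2]⟩) h
  have hψ : ∀ v l m m', HW k.X'.E ω' (k.ψ v) l (k.ψ v) m → HW k.Γ.E c v l v m' → m = m' := by
    intro v l m m' h1 h2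
    have := HW.of (Walk.map (E := LE k.Γ.E c) (E' := LE k.X'.E ω') (fun p => (k.ψ p.1, p.2 + θ p.1))
      (fun p d q h => ⟨Or.inr ⟨_, _, rfl, rfl, h.1⟩, by simp only [ha _ _ _ h.1, h.2]; abel⟩) h2)
    rw [h1.det hA' this]; simp
  have hgL := k.hgL
  have old : ∀ x v l m m', HW k.X'.E ω' (Sum.inl x) l (Sum.inl x) m → HW k.Γ.E c v l v m' →
      m = m' := by
    intro x v l m m' h1 h2
    replace h1 := h1.red hA'
    replace h2 := h2.red hc
    have hl := isReduced_reduce l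
    generalize reduce l = l at h1 h2 hl
    rcases Ctx.old_cases hl h1.walk with ⟨y', k1, k2⟩ | ⟨l₁, a, z₁, v, v', rfl, -, -, -, -, -, k6⟩ |
      ⟨l₁, a, l₂, z₁, v₁, z', v', rfl, k1, k2, k3, k4, k5, k6⟩
    · cases k1
      obtain ⟨m₁, k2⟩ := exists_HW ω k2
      rw [h1.det hA' (hinl _ _ _ _ k2)]
      exact h _ _ _ _ _ k2 h2
    · cases k6
    · obtain ⟨u', k7, -⟩ := walk_append.1 h2.walk
      obtain ⟨u, k7, k8⟩ := walk_append.1 k7
      obtain rfl := k.hP _ _ _ _ _ (red_right (red_left hl)) k4 k8 (by omega)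
      have e1 := Ctx.walk_inl k1
      rw [← k2.ψ] at e1
      have e := k.X'.walk_det' e1 (Ctx.walk_ψ k7)
      rw [e] at h1
      exact hψ _ _ _ _ h1 h2
  refine ⟨ω', hA', ?_⟩
  rintro (x | w) v l m m' h1 h2
  · exact old _ _ _ _ _ h1 h2
  replace h1 := h1.red hA'
  replace h2 := h2.red hc
  have hl := isReduced_reduce l
  generalize reduce l = l at h1 h2 hl
  by_cases hne : l = []
  · subst hne; rw [h1.nil, h2.nil]
  have hn := Ctx.walk_inr_new hne h1.walk
  rcases Ctx.run_new hn h1.walk with ⟨w', k0, -, k2⟩ | ⟨l₁, l₂, z, u, rfl, k1, k2, -, -⟩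
  · cases k0
    have := k.hG _ _ hl hne k2
    obtain rfl := k.hP _ _ _ _ _ hl k2 h2.walk (by omega)
    rw [← hn.ψ] at h1
    exact hψ _ _ _ _ h1 h2
  · obtain ⟨y, a, h3, h4⟩ := h1.split
    obtain ⟨y', a', h5, h6⟩ := h2.split
    have e := Ctx.walk_ψ k1
    rw [hn.ψ, k2.ψ] at e
    obtain rfl := k.X'.walk_det h3.walk e
    simpa using old _ _ _ _ _ (h4.append h3) (h6.append h5)

section main
variable {Γ : LG A V} {g L : ℕ} {c : V → A × Bool → M}

theorem level_up' [Finite V] (hG : Γ.Girth g) (hP : Γ.Pieces L) (hgL : 20 * L + 20 ≤ g)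
    (hc : Anti Γ c) (R : ℕ) :
    ∀ (n : ℕ) (W : Type) [Finite W] (X : LG A W) (o : W), Inv Γ g L X o R → (∃ ω, Coh Γ c X ω) →
      (Todo Γ X o R).ncard ≤ n →
      ∃ (W' : Type) (_ : Finite W') (X' : LG A W') (o' : W'), Inv Γ g L X' o' (R + 1) ∧
        ∃ ω, Coh Γ c X' ω := by
  intro n
  have base : ∀ (W : Type) [Finite W] (X : LG A W) (o : W), Inv Γ g L X o R →
      (∃ ω, Coh Γ c X ω) → Todo Γ X o R = ∅ →
      ∃ (W' : Type) (_ : Finite W') (X' : LG A W') (o' : W'), Inv Γ g L X' o' (R + 1) ∧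
        ∃ ω, Coh Γ c X' ω := by
    intro W _ X o hI hω he
    refine ⟨W, inferInstance, X, o, ⟨?_, hI.girth, hI.sg, fun r hr => hI.dec r (by omega)⟩, hω⟩
    intro x v h
    by_contra hn
    have : (x, v) ∈ Todo Γ X o R := ⟨h, hn⟩
    rw [he] at this
    exact this
  induction n with
  | zero =>
    intro W _ X o hI hω hn
    exact base W X o hI hω ((Set.ncard_eq_zero (Set.toFinite _)).1 (by omega))
  | succ n ih =>
    intro W _ X o hI hω hn
    rcases (Todo Γ X o R).eq_empty_or_nonempty with he | ⟨⟨x₀, v₀⟩, h1, h2⟩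
    · exact base W X o hI hω he
    · let k : Ctx A V W := ⟨Γ, g, L, X, o, R, x₀, v₀, hG, hP, hgL, hI, h1, h2⟩
      refine ih (W ⊕ V) k.X' (Sum.inl o) (Ctx.inv' (c := k)) (k.coh hc hω.choose_spec) ?_
      have hsub : Todo Γ k.X' (Sum.inl o) R ⊆
          (fun p : W × V => ((Sum.inl p.1 : W ⊕ V), p.2)) '' (Todo Γ X o R \ {(x₀, v₀)}) := by
        rintro ⟨x | u, v⟩ ⟨k1, k2⟩
        · refine ⟨(x, v), ⟨⟨(Ctx.lt_inl (c := k)).1 k1, fun h => k2 (Ctx.att_inl (c := k) h)⟩, ?_⟩, rfl⟩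
          intro h
          simp only [Set.mem_singleton_iff, Prod.mk.injEq] at h
          obtain ⟨rfl, rfl⟩ := h
          have := Ctx.att_ψ (c := k) v
          rw [(Ctx.K₀ (c := k)).ψ] at this
          exact k2 this
        · exact absurd k1 (Ctx.not_lt_inr (c := k))
      have h3 := Set.ncard_le_ncard hsub (Set.toFinite _)
      have h4 := Set.ncard_image_le (f := fun p : W × V => ((Sum.inl p.1 : W ⊕ V), p.2))
        (s := Todo Γ X o R \ {(x₀, v₀)}) (Set.toFinite _)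
      have h5 := Set.ncard_sdiff_singleton_lt_of_mem (s := Todo Γ X o R) (a := (x₀, v₀)) ⟨h1, h2⟩
        (Set.toFinite _)
      omega

theorem exists_inv' [Finite V] (hG : Γ.Girth g) (hP : Γ.Pieces L) (hgL : 20 * L + 20 ≤ g)
    (hc : Anti Γ c) (R : ℕ) :
    ∃ (W : Type) (_ : Finite W) (X : LG A W) (o : W), Inv Γ g L X o R ∧ ∃ ω, Coh Γ c X ω := by
  induction R with
  | zero =>
    let X : LG A Unit := ⟨fun _ _ _ => False, fun h => h, fun h => h.elim⟩
    have hw : ∀ l x y, Walk X.E x l y → l = [] := by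
      intro l x y h
      cases l with
      | nil => rfl
      | cons d l => obtain ⟨_, h, _⟩ := h; exact h.elim
    refine ⟨Unit, inferInstance, X, (), ⟨?_, ?_, ?_, ?_⟩, fun _ _ => 0, fun _ _ _ h => h.elim, ?_⟩
    · rintro x v ⟨l, hl, -⟩; omega
    · intro v l _ hne h; exact absurd (hw _ _ _ h) hne
    · intro l _ hne h; exact absurd (hw _ _ _ h) hne
    · intro r _ x p y _ _ h _
      obtain rfl := hw _ _ _ h
      exact ⟨[], [], [], x, rfl, rfl, Or.inl rfl, Ctx.good_nil, Ctx.good_nil⟩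
    · intro x v l m m' h1 h2
      obtain rfl := hw _ _ _ h1.walk
      rw [h1.nil, h2.nil]
  | succ R ih =>
    obtain ⟨W, _, X, o, hI, hω⟩ := ih
    exact level_up' hG hP hgL hc R _ W X o hI hω le_rfl

/-- **Central extensions with prescribed holonomy.** -/
theorem exists_central_ext [Finite V] [Finite A] [Finite M] (h : SCH Γ g L) (hc : Anti Γ c) :
    ∃ (G : Type) (_ : Group G) (x : A → G) (ι : Multiplicative M →* G) (π : V → G),
      Group.FG G ∧ Function.Injective ι ∧ (∀ t y, Commute (ι t) y) ∧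
      ∀ v j w, Γ.E v (j, true) w → π w = π v * x j * ι (Multiplicative.ofAdd (c v (j, true))) := by
  classical
  let F := FreeGroup A × Multiplicative M
  let rel : Set F := {f | ∃ v l m, HW Γ.E c v l v m ∧ f = (FreeGroup.mk l, Multiplicative.ofAdd m)}
  let N : Subgroup F :=
    { carrier := {f | ∃ ρ : ℕ, ∀ (W : Type) (X : LG A W) (ω : W → A × Bool → M) (o : W) (R : ℕ),
        Coh Γ c X ω → (∀ x v, Lt X o x R → Att Γ X x v) → ∀ x r, Lt X o x r → r + ρ ≤ R →
          HW X.E ω x f.1.toWord x f.2.toAdd}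
      one_mem' := ⟨0, fun W X ω o R _ _ x r _ _ => rfl⟩
      mul_mem' := by
        rintro f₁ f₂ ⟨ρ₁, h₁⟩ ⟨ρ₂, h₂⟩
        refine ⟨ρ₁ + ρ₂, fun W X ω o R hω hA x r hx hr => ?_⟩
        rw [Prod.fst_mul, toWord_mul]
        exact ((h₁ W X ω o R hω hA x r hx (by omega)).append
          (h₂ W X ω o R hω hA x r hx (by omega))).red hω.1
      inv_mem' := by
        rintro f ⟨ρ, h⟩
        refine ⟨ρ, fun W X ω o R hω hA x r hx hr => ?_⟩
        rw [Prod.fst_inv, toWord_inv]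
        exact (h W X ω o R hω hA x r hx hr).inv hω.1 }
  have hN : N.Normal := by
    constructor
    rintro f ⟨ρ, hf⟩ a
    refine ⟨ρ + a.1.toWord.length, fun W X ω o R hω hA x r hx hr => ?_⟩
    obtain ⟨y, hy⟩ := readable h.hU hA a.1.toWord x r hx (by omega)
    have h1 := hf W X ω o R hω hA y _ (hx.walk hy) (by omega)
    obtain ⟨m, hy⟩ := exists_HW ω hy
    have := (((hy.append h1).red hω.1).append (hy.inv hω.1)).red hω.1
    rw [Prod.fst_mul, Prod.fst_mul, Prod.fst_inv, toWord_mul, toWord_mul, toWord_inv]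
    convert this using 1
    simp [F]
  have hle : Subgroup.normalClosure rel ≤ N := by
    apply Subgroup.normalClosure_le_normal
    rintro f ⟨v, k, m, hk, rfl⟩
    refine ⟨0, fun W X ω o R hω hA x r hx hr => ?_⟩
    obtain ⟨ψ, hψ, rfl⟩ := hA x v (hx.mono (by omega))
    obtain ⟨m₁, h1⟩ := exists_HW ω (Walk.map ψ hψ hk.walk)
    obtain rfl := hω.2 _ _ _ _ _ h1 hk
    simp only [toWord_mk]
    exact h1.red hω.1
  let q : F →* F ⧸ Subgroup.normalClosure rel := QuotientGroup.mk' _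
  let r : Setoid V := ⟨fun v w => ∃ l, Walk Γ.E v l w, fun v => ⟨[], rfl⟩,
    fun ⟨l, h⟩ => ⟨_, Γ.walk_inv h⟩, fun ⟨l, h⟩ ⟨l', h'⟩ => ⟨_, h.append h'⟩⟩
  have hb : ∀ v, ∃ l m, HW Γ.E c (Quotient.mk r v).out l v m := fun v => by
    obtain ⟨l, hl⟩ := Quotient.mk_out (s := r) v
    exact ⟨l, exists_HW c hl⟩
  choose p μ hp using hb
  refine ⟨F ⧸ Subgroup.normalClosure rel, inferInstance, fun a => q (of a, 1),
    q.comp (MonoidHom.inr _ _), fun v => q (FreeGroup.mk (p v), Multiplicative.ofAdd (μ v)),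
    inferInstance, ?_, ?_, ?_⟩
  · rw [injective_iff_map_eq_one]
    intro t ht
    obtain ⟨ρ, h1⟩ := hle ((QuotientGroup.eq_one_iff _).1 ht)
    obtain ⟨W, _, X, o, hI, ω, hω⟩ := exists_inv' h.hG h.hP h.hgL hc (1 + ρ)
    exact (h1 W X ω o _ hω hI.att o 1 ⟨[], by simp, rfl⟩ le_rfl).nil
  · intro t y
    obtain ⟨y, rfl⟩ := QuotientGroup.mk'_surjective _ y
    refine Commute.map ?_ q
    exact Prod.ext (by simp [F]) (mul_comm _ _)
  · intro v j w hvw
    have e : Quotient.mk r v = Quotient.mk r w := Quotient.sound ⟨[_], walk_single.2 hvw⟩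
    have h1 := (hp v).append (HW.single hvw)
    rw [e] at h1
    have h2 : q _ = 1 := (QuotientGroup.eq_one_iff _).2
      (Subgroup.subset_normalClosure (s := rel) ⟨_, _, _, h1.append ((hp w).inv hc), rfl⟩)
    simp only [MonoidHom.comp_apply, ← _root_.map_mul]
    rw [eq_comm, ← mul_inv_eq_one, ← _root_.map_inv, ← _root_.map_mul, ← h2]
    congr 1
    refine Prod.ext ?_ ?_
    · simp [F, mul_mk, inv_mk, FreeGroup.of]
    · simp [F, ofAdd_add]

end main

end Crest.Agent.H6.SC
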