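import Crest.Agent.H6.SC9
import Crest.Agent.H6.SC10

/-! Small cancellation toolkit, part 11: a rectangular factorisation of `1 - z` modulo `p`. -/

namespace Crest.Agent.H6.SC

/-- an integer matrix of small rank over a field of characteristic `p` factors modulo `p`. -/
theorem factor_mod (p : ℕ) [Fact p.Prime] {k Λ P : Type} [Field k] [CharP k p] [Fintype Λ]
    [Fintype P] (N : Λ → P → ℤ) (Z : Submodule k (P → k))
    (hZ : ∀ z ∈ Z, ∀ l, ∑ x, (N l x : k) * z x = 0) :
    ∃ (κ : Type) (_ : Fintype κ) (α : Λ → κ → ℤ) (w : κ → P → ℤ) (γ : Λ → P → ℤ),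
      Fintype.card κ + Module.finrank k Z ≤ Fintype.card P ∧
      ∀ l x, ∑ i, α l i * w i x = N l x + p * γ l x := by
  classical
  let v : Λ → P → ZMod p := fun l x => N l x
  obtain ⟨κ, a, ha, hspan, hli⟩ := exists_linearIndependent' (ZMod p) v
  let _ : Fintype κ := Fintype.ofInjective a ha
  let _ : Algebra (ZMod p) k := ZMod.algebra k p
  have hc : ∀ l, ∃ c : κ → ZMod p, ∑ i, c i • (v ∘ a) i = v l := fun l =>
    (Submodule.mem_span_range_iff_exists_fun _).1 (hspan ▸ Submodule.subset_span ⟨l, rfl⟩)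
  choose c hc using hc
  have hγ : ∀ l x, ∃ t : ℤ, ∑ i, ((c l i).val : ℤ) * N (a i) x = N l x + p * t := by
    intro l x
    obtain ⟨t, ht⟩ := (ZMod.intCast_zmod_eq_zero_iff_dvd
      (∑ i, ((c l i).val : ℤ) * N (a i) x - N l x) p).1 (by
        have := congrFun (hc l) x
        simp only [Finset.sum_apply, Pi.smul_apply, Function.comp, smul_eq_mul, v] at this
        push_cast
        simp [this])
    exact ⟨t, by rw [← ht]; ring⟩
  choose γ hγ using hγ
  refine ⟨κ, inferInstance, fun l i => (c l i).val, fun i => N (a i), γ, ?_, hγ⟩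
  let U : Matrix κ P k := Matrix.of fun i x => (N (a i) x : k)
  have h1 : LinearIndependent k U.row := by
    have := (linearIndependent_algebraMap_comp_iff (S := k)).2 hli
    have e : U.row = fun i => ⇑(algebraMap (ZMod p) k) ∘ (v ∘ a) i := by
      funext i x
      simp [U, v]
    rw [e]; exact this
  have h2 := h1.rank_matrix
  have h3 := LinearMap.finrank_range_add_finrank_ker U.mulVecLin
  have h4 : Z ≤ LinearMap.ker U.mulVecLin := by
    intro z hz
    funext i
    exact hZ z hz (a i)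
  have h5 := Submodule.finrank_mono h4
  rw [Module.finrank_fintype_fun_eq_card] at h3
  unfold Matrix.rank at h2
  omega

/-- the graph whose links are (traces of) lines. -/
theorem exists_line_graph' {k I : Type} [Field k] [Fintype k] [Fintype I]
    [Inhabited I] (a g : ℕ) (h : 428 + 6 * a + 4 * g < 100 * a) (hg : 610 < g)
    (e : I × Bool → k × (Fin a → k)) (he : Function.Injective e) :
    ∃ (V : Type) (_ : Fintype V) (lay : V → I) (ty : V → (Fin a → k) × (Fin a → k))
      (Γ : LG I V),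
      (∀ v d u, Γ.E v d u → lay v = lay u) ∧
      (∀ v d, (∃ u, Γ.E v d u) ↔ (e d).2 = (ty v).2 + (e d).1 • (ty v).1) ∧
      (∀ y l, ∃ v, lay v = y ∧ ty v = l) ∧
      Γ.Girth g ∧ Γ.Pieces 304 := by
  classical
  set q := Fintype.card k with hq
  have hq2 : 2 ≤ q := Fintype.one_lt_card
  obtain ⟨R, hR⟩ : ∃ R, R = 2 * (q + 1) ^ g + 201 := ⟨_, rfl⟩
  let Λ := (Fin a → k) × (Fin a → k)
  let V := I × Λ × Fin (2 * R)
  let _ : Inhabited V := ⟨(default, (0, 0), ⟨0, by omega⟩)⟩
  let line : Λ → Finset (I × Bool) := fun l =>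
    Finset.univ.filter fun d => (e d).2 = l.2 + (e d).1 • l.1
  have hmem : ∀ l d, d ∈ line l ↔ (e d).2 = l.2 + (e d).1 • l.1 := by simp [line]
  have hslot : ∀ y d, (slot (fun v : V => line v.2.1) (fun v => v.1) y d).card = q ^ a * (2 * R) := by
    intro y d
    have : (slot (fun v : V => line v.2.1) (fun v => v.1) y d) =
        Finset.univ.image fun z : (Fin a → k) × Fin (2 * R) =>
          ((y, (z.1, (e d).2 - (e d).1 • z.1), z.2) : V) := by
      ext ⟨y', ⟨α, β⟩, i⟩
      simp only [slot, Finset.mem_filter, Finset.mem_univ, true_and, hmem, Finset.mem_image]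
      constructor
      · rintro ⟨rfl, h⟩
        exact ⟨(α, i), by rw [h]; simp⟩
      · rintro ⟨z, hz⟩
        simp only [V, Λ, Prod.mk.injEq] at hz
        obtain ⟨rfl, ⟨rfl, rfl⟩, rfl⟩ := hz
        simp
    rw [this, Finset.card_image_of_injective]
    · simp [hq]
    · intro z z' hz
      simp only [V, Λ, Prod.mk.injEq] at hz
      exact Prod.ext hz.2.1.1 hz.2.2
  have hK : 1 ≤ q ^ a := Nat.one_le_pow _ _ (by omega)
  have hI : Fintype.card I * 2 ≤ q ^ (a + 1) := by
    have := Fintype.card_le_of_injective e he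
    simp only [Fintype.card_prod, Fintype.card_bool, Fintype.card_fun, Fintype.card_fin] at this
    rwa [pow_succ']
  obtain ⟨Γ, g1, g2, g3, g4⟩ := exists_graph (link := fun v : V => line v.2.1) (lay := fun v => v.1)
    (ty := fun v => v.2.1) (g := g) (w := q) (m := q ^ a * R) (M₀ := 2 * R) (L₀ := 100)
    (fun v => by
      refine (Finset.card_le_card_of_injOn (t := (Finset.univ : Finset k))
        (fun d => (e d).1) (by simp) ?_).trans (by simp [hq])
      intro d k1 d' k2 (ht : (e d).1 = (e d').1)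
      exact he (Prod.ext ht (by rw [(hmem _ _).1 k1, (hmem _ _).1 k2, ht])))
    (by
      rintro ⟨y, ⟨α, β⟩, i⟩ ⟨y', ⟨α', β'⟩, i'⟩ d d' hne k1 k2 k3 k4
      simp only [hmem] at k1 k2 k3 k4
      have ht : (e d).1 ≠ (e d').1 := by
        intro ht
        exact hne (he (Prod.ext ht (by rw [k1, k2, ht])))
      have hα : α = α' := by
        have : ((e d).1 - (e d').1) • (α - α') = 0 := by
          rw [smul_sub, sub_smul, sub_smul]
          have e1 := k1.symm.trans k3
          have e2 := k2.symm.trans k4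
          linear_combination (exp := 1) e1 - e2
        exact sub_eq_zero.1 ((smul_eq_zero.1 this).resolve_left (sub_ne_zero.2 ht))
      subst hα
      have := k1.symm.trans k3
      simp only [add_left_inj] at this
      simp [this])
    (fun y j => by rw [hslot, hslot])
    (fun y d => by rw [hslot]; nlinarith)
    (fun y d => by rw [hslot]; nlinarith)
    (fun y l => by
      refine (Finset.card_le_card_of_injOn (t := (Finset.univ : Finset (Fin (2 * R))))
        (fun v => v.2.2) (by simp) ?_).trans (by simp)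
      rintro ⟨y₁, l₁, i₁⟩ k1 ⟨y₂, l₂, i₂⟩ k2 (rfl : i₁ = i₂)
      simp only [cls, Finset.coe_filter, Finset.mem_univ, true_and, Set.mem_ofPred_eq] at k1 k2
      rw [k1.1, k1.2, k2.1, k2.2])
    (by norm_num) (by omega) (by omega)
    (by
      have := num_ineq q a g (Fintype.card I) hq2 h hI R hR
      have hV : Fintype.card V = Fintype.card I * (q ^ a * q ^ a * (2 * R)) := by
        simp [V, Λ, hq]
      rw [hV]
      exact this)
  exact ⟨V, inferInstance, fun v => v.1, fun v => v.2.1, Γ, fun v d u k => (g1 v d u k).1,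
    fun v d => ⟨fun ⟨u, k⟩ => (hmem _ _).1 (g1 v d u k).2, fun h => g2 v d ((hmem _ _).2 h)⟩,
    fun y l => ⟨(y, l, ⟨0, by omega⟩), rfl, rfl⟩, g3, g4⟩

open MonoidAlgebra in
/-- **The rectangular factorisation.** -/
theorem exists_rect (p : ℕ) [Fact p.Prime] :
    ∃ (G : Type) (_ : Group G) (z : G) (I κ : Type) (_ : Fintype I) (_ : Fintype κ)
      (_ : DecidableEq I) (A : Matrix I κ (MonoidAlgebra ℤ G)) (B : Matrix κ I (MonoidAlgebra ℤ G))
      (C : Matrix I I (MonoidAlgebra ℤ G)),
      Group.FG G ∧ z ≠ 1 ∧ z * z = 1 ∧ (∀ y, Commute z y) ∧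
      3 * Fintype.card κ < Fintype.card I ∧ A * B = (1 - of ℤ G z) • 1 + (p : ℤ) • C := by
  classical
  obtain ⟨k, _, _, _, Z, hZ1, hZ2⟩ := exists_geom p 300 10
  let P := k × (Fin 300 → k)
  let Λ := (Fin 300 → k) × (Fin 300 → k)
  have hP : Fintype.card P = Fintype.card k ^ (300 + 1) := by
    simp only [P, Fintype.card_prod, Fintype.card_fun, Fintype.card_fin]
    rw [pow_succ' _ 300]
  have hP2 : 4 ≤ Fintype.card P := by
    rw [hP]
    exact (Nat.pow_le_pow_right (n := 2) two_pos (show 2 ≤ 300 + 1 by omega)).trans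
      (Nat.pow_le_pow_left (Fintype.one_lt_card (α := k)) _)
  let I := Fin (Fintype.card P / 2)
  let _ : Inhabited I := ⟨⟨0, by omega⟩⟩
  obtain ⟨e⟩ : Nonempty (I × Bool ↪ P) := Function.Embedding.nonempty_of_card_le (by
    simp only [I, Fintype.card_prod, Fintype.card_bool, Fintype.card_fin]; omega)
  obtain ⟨V, _, lay, ty, Γ, g1, g2, g3, g4, g5⟩ := exists_line_graph' 300 6100
    (by norm_num) (by norm_num) e e.injective
  let N : Λ → P → ℤ := fun l x => if x.2 = l.2 + x.1 • l.1 then 1 else 0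
  obtain ⟨κ, _, α, w, γ, hκ, hN⟩ := factor_mod p N Z (by
    intro z hz l
    rw [← hZ1 z hz l.1 l.2, Fintype.sum_prod_type]
    simp [N])
  have hcov : ∀ i d, ∃ v, lay v = i ∧ ∃ w, Γ.E v d w := by
    intro i d
    obtain ⟨v, h1, h2⟩ := g3 i (0, (e d).2)
    exact ⟨v, h1, (g2 _ _).2 (by simp [h2])⟩
  have hS : SCH Γ 6100 304 := ⟨g4, g5, by norm_num, fun d =>
    let ⟨v, _, h⟩ := hcov default d; ⟨v, h⟩⟩
  choose u hul hu using fun i => hcov i (i, true)
  let c : V → I × Bool → ZMod 2 := fun v d =>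
    if (if d.2 then v = u d.1 else Γ.E (u d.1) (d.1, true) v) then 1 else 0
  have hc : Anti Γ c := by
    have key : ∀ v j w, Γ.E v (j, true) w → c w (j, false) = c v (j, true) := by
      intro v j w h
      have : Γ.E (u j) (j, true) w ↔ v = u j :=
        ⟨fun h' => Γ.det (Γ.symm h) (Γ.symm h'), fun h' => h' ▸ h⟩
      simp [c, this]
    rintro v ⟨j, _ | _⟩ w h
    · rw [ZMod.neg_eq_self_mod_two]; exact (key _ _ _ (Γ.symm h)).symm
    · rw [ZMod.neg_eq_self_mod_two]; exact key _ _ _ h
  obtain ⟨G, _, x, ι, π, hfg, hι, hcen, hπ⟩ := exists_central_ext hS hc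
  let z := ι (Multiplicative.ofAdd 1)
  let φ : I → V → MonoidAlgebra ℤ G := fun i v => of ℤ G ((π (u i))⁻¹ * π v)
  let nx : I × Bool → V → V := fun d v => if h : ∃ w, Γ.E v d w then h.choose else v
  have hnx : ∀ d v, (∃ w, Γ.E v d w) → Γ.E v d (nx d v) := by
    intro d v h
    simp only [nx, dif_pos h]
    exact h.choose_spec
  let s : I → I × Bool → Finset V := fun i d =>
    Finset.univ.filter fun v => lay v = i ∧ ∃ w, Γ.E v d w
  have hs : ∀ i d v, v ∈ s i d ↔ lay v = i ∧ ∃ w, Γ.E v d w := by simp [s]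
  have key : ∀ i j, ∑ v ∈ s i (j, true), φ i v - ∑ v ∈ s i (j, false), φ i v * of ℤ G (x j)⁻¹ =
      if i = j then 1 - of ℤ G z else 0 := by
    intro i j
    have e1 : ∑ v ∈ s i (j, true), φ i (nx (j, true) v) * of ℤ G (x j)⁻¹ =
        ∑ v ∈ s i (j, false), φ i v * of ℤ G (x j)⁻¹ := by
      refine Finset.sum_nbij' (nx (j, true)) (nx (j, false)) ?_ ?_ ?_ ?_ (fun _ _ => rfl)
      · intro v hv
        obtain ⟨h1, h2⟩ := (hs _ _ _).1 hv
        exact (hs _ _ _).2 ⟨(g1 _ _ _ (hnx _ _ h2)).symm.trans h1, _, Γ.symm (hnx _ _ h2)⟩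
      · intro v hv
        obtain ⟨h1, h2⟩ := (hs _ _ _).1 hv
        exact (hs _ _ _).2 ⟨(g1 _ _ _ (hnx _ _ h2)).symm.trans h1, _, Γ.symm (hnx _ _ h2)⟩
      · intro v hv
        have h := Γ.symm (hnx _ _ ((hs _ _ _).1 hv).2)
        exact Γ.det (hnx _ _ ⟨_, h⟩) h
      · intro v hv
        have h := Γ.symm (hnx _ _ ((hs _ _ _).1 hv).2)
        exact Γ.det (hnx _ _ ⟨_, h⟩) h
    rw [← e1, ← Finset.sum_sub_distrib]
    have e2 : ∀ v ∈ s i (j, true), φ i v - φ i (nx (j, true) v) * of ℤ G (x j)⁻¹ =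
        if v = u j then φ i v * (1 - of ℤ G z) else 0 := by
      intro v hv
      have h := hπ _ _ _ (hnx _ _ ((hs _ _ _).1 hv).2)
      simp only [φ, h, ← map_mul]
      rw [mul_assoc (π v), ← (hcen _ (x j)).eq]
      by_cases hvu : v = u j
      · simp only [c, hvu, if_true, mul_sub, mul_one, ← map_mul, z]
        congr 2; group
      · simp only [c, hvu, if_true, if_false, ofAdd_zero, map_one, sub_eq_zero]
        congr 1; group
    rw [Finset.sum_congr rfl e2, Finset.sum_ite_eq']
    by_cases hij : i = j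
    · subst hij
      rw [if_pos ((hs _ _ _).2 ⟨hul i, hu i⟩), if_pos rfl]
      simp [φ, ← one_def]
    · rw [if_neg (fun h => hij (((hs _ _ _).1 h).1.symm.trans (hul j))), if_neg hij]
  let L : I → Finset V := fun i => Finset.univ.filter fun v => lay v = i
  have hL : ∀ i d (f : V → MonoidAlgebra ℤ G),
      ∑ v ∈ L i, N (ty v) (e d) • f v = ∑ v ∈ s i d, f v := by
    intro i d f
    simp only [L, s, N, ← g2, Finset.sum_filter]
    refine Finset.sum_congr rfl fun v _ => ?_
    by_cases h1 : lay v = i <;> by_cases h2 : ∃ w, Γ.E v d w <;> simp [h1, h2]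
  refine ⟨G, inferInstance, z, I, κ, inferInstance, inferInstance, inferInstance,
    Matrix.of fun i t => ∑ v ∈ L i, α (ty v) t • φ i v,
    Matrix.of fun t j => w t (e (j, true)) • 1 - w t (e (j, false)) • of ℤ G (x j)⁻¹,
    Matrix.of fun i j => ∑ v ∈ L i, (γ (ty v) (e (j, true)) • φ i v -
      γ (ty v) (e (j, false)) • (φ i v * of ℤ G (x j)⁻¹)), hfg, ?_, ?_, hcen _, ?_, ?_⟩
  · rw [← map_one ι]
    exact fun h => absurd (hι h) (by decide)
  · rw [← map_mul, ← map_one ι]; rfl
  · rw [← hP] at hZ2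
    have h0 : Fintype.card κ + Module.finrank k Z ≤ Fintype.card P := hκ
    simp only [I, Fintype.card_fin]
    omega
  · ext1 i j
    have := key i j
    rw [← hL, ← hL] at this
    simp only [Matrix.mul_apply, Matrix.of_apply, Matrix.add_apply, Matrix.smul_apply,
      Matrix.one_apply, smul_eq_mul, mul_ite, mul_one, mul_zero, ← this, Finset.sum_mul,
      Finset.smul_sum, ← Finset.sum_sub_distrib, ← Finset.sum_add_distrib]
    rw [Finset.sum_comm]
    refine Finset.sum_congr rfl fun v _ => ?_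
    simp only [mul_sub, smul_mul_assoc, mul_smul_comm, mul_one, smul_smul, Finset.sum_sub_distrib,
      ← Finset.sum_smul, smul_sub, mul_comm (w _ _), hN, add_smul]
    abel

end Crest.Agent.H6.SC
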