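import Crest.Agent.H6.SC1

/-! Small cancellation toolkit, part 2: attaching one copy of `Γ` along a small tree. -/

namespace Crest.Agent.H6.SC

open FreeGroup

variable {A V W : Type}

def Lt (X : LG A W) (o x : W) (r : ℕ) : Prop := ∃ l, l.length < r ∧ Walk X.E o l x

def Att (Γ : LG A V) (X : LG A W) (x : W) (v : V) : Prop :=
  ∃ ψ : V → W, (∀ a d b, Γ.E a d b → X.E (ψ a) d (ψ b)) ∧ ψ v = x

def InCell (Γ : LG A V) (X : LG A W) (x : W) (p : List (A × Bool)) : Prop :=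
  p = [] ∨ ∃ v v', Att Γ X x v ∧ Walk Γ.E v p v'

def Forced (X : LG A W) (o : W) (S : ℕ) (x : W) (q : List (A × Bool)) (r : ℕ) : Prop :=
  ∀ α y, IsReduced α → α.length ≤ S → Walk X.E x α y → Lt X o y (r + 1) → q <+: α

def Good (Γ : LG A V) (X : LG A W) (o : W) (S : ℕ) (x : W) (q : List (A × Bool)) (r : ℕ) : Prop :=
  InCell Γ X x q ∧ Forced X o S x q r

def High (X : LG A W) (o x : W) (p : List (A × Bool)) (r : ℕ) : Prop :=
  ∀ p' y, p' <+: p → Walk X.E x p' y → ¬ Lt X o y r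

/-- strong Greendlinger property of a word. -/
def SG (Γ : LG A V) (g L : ℕ) (l : List (A × Bool)) : Prop :=
  ∃ l₁ u l₂ k v w, l = l₁ ++ u ++ l₂ ∧ Walk Γ.E v u w ∧ Walk Γ.E v k w ∧
    k.length ≤ 3 * L ∧ g ≤ u.length + 3 * L

structure Inv (Γ : LG A V) (g L : ℕ) (X : LG A W) (o : W) (R : ℕ) : Prop where
  att : ∀ x v, Lt X o x R → Att Γ X x v
  girth : X.Girth (3 * L + 2)
  sg : ∀ l, IsReduced l → l ≠ [] → Walk X.E o l o → SG Γ g L l
  dec : ∀ r, R ≤ r → ∀ x p y, IsReduced p → p.length ≤ 3 * L + 1 → Walk X.E x p y →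
    High X o x p r → ∃ p₁ p₂ p₃ x₁, p = p₁ ++ p₂ ++ p₃ ∧ Walk X.E x p₁ x₁ ∧ InCell Γ X x₁ p₂ ∧
      Good Γ X o (3 * L + 1) x p₁ r ∧ Good Γ X o (3 * L + 1) y (invRev p₃) r

theorem Lt.mono {X : LG A W} {o x : W} {r r' : ℕ} (h : Lt X o x r) (hr : r ≤ r') : Lt X o x r' := by
  obtain ⟨l, hl, hw⟩ := h
  exact ⟨l, by omega, hw⟩

theorem Lt.walk {X : LG A W} {o x y : W} {r : ℕ} {l} (h : Lt X o x r) (hw : Walk X.E x l y) :
    Lt X o y (r + l.length) := by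
  obtain ⟨l', hl, hw'⟩ := h
  exact ⟨l' ++ l, by simp; omega, hw'.append hw⟩

theorem Att.walk {Γ : LG A V} {X : LG A W} {x y : W} {v w : V} {l} (h : Att Γ X x v)
    (hX : Walk X.E x l y) (hΓ : Walk Γ.E v l w) : Att Γ X y w := by
  obtain ⟨ψ, hψ, rfl⟩ := h
  exact ⟨ψ, hψ, X.walk_det (Walk.map ψ hψ hΓ) hX⟩

/-- the data of one attaching step. -/
structure Ctx (A V W : Type) where
  Γ : LG A V
  g : ℕ
  L : ℕ
  X : LG A W
  o : W
  R : ℕ
  x₀ : W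
  v₀ : V
  hG : Γ.Girth g
  hP : Γ.Pieces L
  hgL : 20 * L + 20 ≤ g
  hI : Inv Γ g L X o R
  hx₀ : Lt X o x₀ (R + 1)
  hn : ¬ Att Γ X x₀ v₀

namespace Ctx
variable (c : Ctx A V W)

def K (y : W) (v : V) : Prop := ∃ l, Walk c.X.E c.x₀ l y ∧ Walk c.Γ.E c.v₀ l v

variable {c}

theorem K₀ : c.K c.x₀ c.v₀ := ⟨[], rfl, rfl⟩

theorem K.walk {y y' : W} {v v' : V} {l} (h : c.K y v) (hX : Walk c.X.E y l y')
    (hΓ : Walk c.Γ.E v l v') : c.K y' v' := by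
  obtain ⟨k, h1, h2⟩ := h
  exact ⟨k ++ l, h1.append hX, h2.append hΓ⟩

theorem K.not_att {y : W} {v : V} (h : c.K y v) : ¬ Att c.Γ c.X y v := by
  obtain ⟨k, h1, h2⟩ := h
  intro ha
  exact c.hn (ha.walk (c.X.walk_inv h1) (c.Γ.walk_inv h2))

theorem K.high {y : W} {v : V} (h : c.K y v) : ¬ Lt c.X c.o y c.R :=
  fun hl => h.not_att (c.hI.att y v hl)

theorem K.cell_short {y : W} {v v' : V} (h : c.K y v) {p} (hp : IsReduced p)
    (hc : InCell c.Γ c.X y p) (hw : Walk c.Γ.E v p v') : p.length ≤ c.L := by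
  rcases hc with rfl | ⟨u, u', ha, hu⟩
  · simp
  · by_contra hl
    obtain rfl := c.hP u v p u' v' hp hu hw (by omega)
    exact h.not_att ha

theorem K.len {y y' : W} {v v' : V} (h : c.K y v) {l} (hl : IsReduced l)
    (hX : Walk c.X.E y l y') (hΓ : Walk c.Γ.E v l v') : l.length ≤ 3 * c.L := by
  by_contra hlen
  have hsplit : l = l.take (3 * c.L + 1) ++ l.drop (3 * c.L + 1) := (List.take_append_drop _ _).symm
  set p := l.take (3 * c.L + 1) with hp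
  have hplen : p.length = 3 * c.L + 1 := by rw [hp, List.length_take]; omega
  rw [hsplit] at hl hX hΓ
  obtain ⟨z, hX1, -⟩ := walk_append.1 hX
  obtain ⟨u, hΓ1, -⟩ := walk_append.1 hΓ
  have hpr := red_left hl
  have hhigh : High c.X c.o y p c.R := by
    rintro p' y₁ ⟨t, ht⟩ hw
    rw [← ht] at hΓ1
    obtain ⟨u₁, hu₁, -⟩ := walk_append.1 hΓ1
    exact (h.walk hw hu₁).high
  obtain ⟨p₁, p₂, p₃, x₁, hpe, hw₁, hc₂, hg₁, hg₃⟩ :=
    c.hI.dec c.R le_rfl y p z hpr hplen.le hX1 hhigh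
  have hKz := h.walk hX1 hΓ1
  rw [hpe] at hΓ1 hpr hplen
  obtain ⟨u₂, hu, hu₃⟩ := walk_append.1 hΓ1
  obtain ⟨u₁, hu₁, hu₂⟩ := walk_append.1 hu
  have l1 := h.cell_short (red_left (red_left hpr)) hg₁.1 hu₁
  have l2 := (h.walk hw₁ hu₁).cell_short (red_right (red_left hpr)) hc₂ hu₂
  have l3 := hKz.cell_short (IsReduced.invRev' (red_right hpr)) hg₃.1 (c.Γ.walk_inv hu₃)
  simp only [List.length_append, invRev_length] at hplen l3
  omega

theorem K.conn {y y' : W} {v v' : V} (h : c.K y v) (h' : c.K y' v') :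
    ∃ k, IsReduced k ∧ k.length ≤ 3 * c.L ∧ Walk c.X.E y k y' ∧ Walk c.Γ.E v k v' := by
  classical
  have h0 := h
  obtain ⟨l, h1, h2⟩ := h
  obtain ⟨l', h1', h2'⟩ := h'
  have a1 := c.X.walk_reduce ((c.X.walk_inv h1).append h1')
  have a2 := c.Γ.walk_reduce ((c.Γ.walk_inv h2).append h2')
  exact ⟨_, isReduced_reduce _, h0.len (isReduced_reduce _) a1 a2, a1, a2⟩

theorem K.injΓ {y y' : W} {v : V} (h : c.K y v) (h' : c.K y' v) : y = y' := by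
  obtain ⟨k, hk, hl, h1, h2⟩ := h.conn h'
  by_cases hn : k = []
  · subst hn; exact h1
  · have := c.hG v k hk hn h2
    have := c.hgL
    omega

theorem K.injX {y : W} {v v' : V} (h : c.K y v) (h' : c.K y v') : v = v' := by
  obtain ⟨k, hk, hl, h1, h2⟩ := h.conn h'
  by_cases hn : k = []
  · subst hn; exact h2
  · have := c.hI.girth y k hk hn h1
    omega

/-- `v` is a new vertex. -/
def New (c : Ctx A V W) (v : V) : Prop := ¬ ∃ y, c.K y v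

open Classical in
noncomputable def ψ (c : Ctx A V W) (v : V) : W ⊕ V :=
  if h : ∃ y, c.K y v then Sum.inl h.choose else Sum.inr v

theorem K.ψ {y : W} {v : V} (h : c.K y v) : c.ψ v = Sum.inl y := by
  have h' : ∃ y, c.K y v := ⟨y, h⟩
  unfold Ctx.ψ
  rw [dif_pos h', h'.choose_spec.injΓ h]

theorem New.ψ {v : V} (h : c.New v) : c.ψ v = Sum.inr v := by
  unfold Ctx.ψ
  rw [dif_neg h]

theorem K_or_new (v : V) : (∃ y, c.K y v) ∨ c.New v := em _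

theorem ψ_inl {y : W} {v : V} (h : c.ψ v = Sum.inl y) : c.K y v := by
  rcases c.K_or_new v with ⟨z, hz⟩ | hn
  · rw [hz.ψ] at h
    cases h
    exact hz
  · rw [hn.ψ] at h
    cases h

theorem ψ_inr {u v : V} (h : c.ψ v = Sum.inr u) : v = u ∧ c.New v := by
  rcases c.K_or_new v with ⟨z, hz⟩ | hn
  · rw [hz.ψ] at h
    cases h
  · rw [hn.ψ] at h
    cases h
    exact ⟨rfl, hn⟩

theorem ψ_inj {u v : V} (h : c.ψ u = c.ψ v) : u = v := by
  rcases c.K_or_new v with ⟨z, hz⟩ | hn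
  · rw [hz.ψ] at h
    exact (ψ_inl h).injX hz
  · rw [hn.ψ] at h
    exact (ψ_inr h).1

/-- the new graph. -/
def X' (c : Ctx A V W) : LG A (W ⊕ V) where
  E a d b := (∃ x x', a = Sum.inl x ∧ b = Sum.inl x' ∧ c.X.E x d x') ∨
    (∃ v v', a = c.ψ v ∧ b = c.ψ v' ∧ c.Γ.E v d v')
  symm := by
    rintro a d b (⟨x, x', rfl, rfl, h⟩ | ⟨v, v', rfl, rfl, h⟩)
    · exact Or.inl ⟨_, _, rfl, rfl, c.X.symm h⟩
    · exact Or.inr ⟨_, _, rfl, rfl, c.Γ.symm h⟩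
  det := by
    rintro a d b b' (⟨x, x', rfl, rfl, h⟩ | ⟨v, v', rfl, rfl, h⟩)
      (⟨y, y', h1, rfl, h'⟩ | ⟨u, u', h1, rfl, h'⟩)
    · cases h1; rw [c.X.det h h']
    · have := (ψ_inl h1.symm).walk (walk_single.2 h) (walk_single.2 h')
      rw [this.ψ]
    · have := (ψ_inl h1).walk (walk_single.2 h') (walk_single.2 h)
      rw [this.ψ]
    · obtain rfl := ψ_inj h1
      rw [c.Γ.det h h']

theorem walk_inl {x y : W} {l} (h : Walk c.X.E x l y) :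
    Walk c.X'.E (Sum.inl x) l (Sum.inl y) :=
  Walk.map Sum.inl (fun _ _ _ h => Or.inl ⟨_, _, rfl, rfl, h⟩) h

theorem walk_ψ {u v : V} {l} (h : Walk c.Γ.E u l v) : Walk c.X'.E (c.ψ u) l (c.ψ v) :=
  Walk.map c.ψ (fun _ _ _ h => Or.inr ⟨_, _, rfl, rfl, h⟩) h

theorem att_ψ (v : V) : Att c.Γ c.X' (c.ψ v) v :=
  ⟨c.ψ, fun _ _ _ h => Or.inr ⟨_, _, rfl, rfl, h⟩, rfl⟩

theorem att_inl {x : W} {v : V} (h : Att c.Γ c.X x v) : Att c.Γ c.X' (Sum.inl x) v := by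
  obtain ⟨φ, hφ, rfl⟩ := h
  exact ⟨fun a => Sum.inl (φ a), fun _ _ _ h => Or.inl ⟨_, _, rfl, rfl, hφ _ _ _ h⟩, rfl⟩

theorem inCell_inl {x : W} {p} (h : InCell c.Γ c.X x p) : InCell c.Γ c.X' (Sum.inl x) p := by
  rcases h with h | ⟨v, v', ha, hw⟩
  · exact Or.inl h
  · exact Or.inr ⟨v, v', att_inl ha, hw⟩

/-- a word whose first letter cannot be read from `z` in the old graph. -/
def Leaves (c : Ctx A V W) (z : W) (a : List (A × Bool)) : Prop :=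
  ∃ d a', a = d :: a' ∧ ¬ ∃ z', c.X.E z d z'

theorem Leaves.append {z : W} {a} (h : c.Leaves z a) (b) : c.Leaves z (a ++ b) := by
  obtain ⟨d, a', rfl, h⟩ := h
  exact ⟨d, a' ++ b, rfl, h⟩

theorem Leaves.ne_nil {z : W} {a} (h : c.Leaves z a) : a ≠ [] := by
  obtain ⟨d, a', rfl, h⟩ := h
  simp

theorem Leaves.not_walk {z z' : W} {a} (h : c.Leaves z a) : ¬ Walk c.X.E z a z' := by
  obtain ⟨d, a', rfl, h⟩ := h
  rintro ⟨u, hu, -⟩
  exact h ⟨u, hu⟩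

/-- excursions are long. -/
theorem excursion {z z' : W} {v v' : V} (h : c.K z v) (h' : c.K z' v') {a} (ha : IsReduced a)
    (hl : c.Leaves z a) (hw : Walk c.Γ.E v a v') : c.g ≤ a.length + 3 * c.L := by
  obtain ⟨k, hk, hlen, h1, h2⟩ := h.conn h'
  by_contra hc
  obtain rfl := c.hG.unique ha hk hw h2 (by omega)
  exact hl.not_walk h1

theorem split_old : ∀ {l} {x : W} {b}, Walk c.X'.E (Sum.inl x) l b →
    (∃ y, b = Sum.inl y ∧ Walk c.X.E x l y) ∨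
    ∃ l₁ d l₂ z v v', l = l₁ ++ d :: l₂ ∧ Walk c.X.E x l₁ z ∧ c.K z v ∧ c.Γ.E v d v' ∧
      (¬ ∃ z', c.X.E z d z') ∧ Walk c.X'.E (c.ψ v') l₂ b := by
  intro l
  induction l with
  | nil => intro x b h; exact Or.inl ⟨x, h.symm, rfl⟩
  | cons d l ih =>
    rintro x b ⟨u, hu, hw⟩
    by_cases hx : ∃ x', c.X.E x d x'
    · obtain ⟨x', hx'⟩ := hx
      obtain rfl : u = Sum.inl x' := c.X'.det hu (Or.inl ⟨_, _, rfl, rfl, hx'⟩)
      rcases ih hw with ⟨y, rfl, hy⟩ | ⟨l₁, d', l₂, z, v, v', rfl, h1, h2, h3, h4, h5⟩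
      · exact Or.inl ⟨y, rfl, x', hx', hy⟩
      · exact Or.inr ⟨d :: l₁, d', l₂, z, v, v', rfl, ⟨x', hx', h1⟩, h2, h3, h4, h5⟩
    · rcases hu with ⟨y, y', h1, -, h⟩ | ⟨v, v', h1, rfl, h⟩
      · cases h1; exact absurd ⟨_, h⟩ hx
      · exact Or.inr ⟨[], d, l, x, v, v', rfl, rfl, ψ_inl h1.symm, h, hx, hw⟩

theorem step_new {v : V} {d b} (h : c.X'.E (Sum.inr v) d b) :
    c.New v ∧ ∃ v', b = c.ψ v' ∧ c.Γ.E v d v' := by
  rcases h with ⟨y, y', h1, -, h⟩ | ⟨u, u', h1, rfl, h⟩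
  · cases h1
  · obtain ⟨rfl, hn⟩ := ψ_inr h1.symm
    exact ⟨hn, u', rfl, h⟩

theorem run_new : ∀ {l} {v : V} {b}, c.New v → Walk c.X'.E (Sum.inr v) l b →
    (∃ v', b = Sum.inr v' ∧ c.New v' ∧ Walk c.Γ.E v l v') ∨
    ∃ l₁ l₂ z v', l = l₁ ++ l₂ ∧ Walk c.Γ.E v l₁ v' ∧ c.K z v' ∧ c.Leaves z (invRev l₁) ∧
      Walk c.X'.E (Sum.inl z) l₂ b := by
  intro l
  induction l with
  | nil => intro v b hn h; exact Or.inl ⟨v, h.symm, hn, rfl⟩
  | cons d l ih =>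
    rintro v b hn ⟨u, hu, hw⟩
    obtain ⟨-, v', rfl, hv'⟩ := step_new hu
    rcases c.K_or_new v' with ⟨z, hz⟩ | hn'
    · rw [hz.ψ] at hw
      refine Or.inr ⟨[d], l, z, v', rfl, walk_single.2 hv', hz, ⟨(d.1, !d.2), [], by simp [invRev], ?_⟩, hw⟩
      rintro ⟨z', hz'⟩
      exact hn ⟨z', hz.walk (walk_single.2 hz') (walk_single.2 (c.Γ.symm hv'))⟩
    · rw [hn'.ψ] at hw
      rcases ih hn' hw with ⟨v'', rfl, h1, h2⟩ | ⟨l₁, l₂, z, v'', rfl, h1, h2, h3, h4⟩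
      · exact Or.inl ⟨v'', rfl, h1, v', hv', h2⟩
      · refine Or.inr ⟨d :: l₁, l₂, z, v'', rfl, ⟨v', hv', h1⟩, h2, ?_, h4⟩
        rw [invRev_cons']
        exact h3.append _

/-- structure of a reduced walk starting at an old vertex. -/
theorem old_cases {l} {x : W} {b} (hl : IsReduced l) (h : Walk c.X'.E (Sum.inl x) l b) :
    (∃ y, b = Sum.inl y ∧ Walk c.X.E x l y) ∨
    (∃ l₁ a z v v', l = l₁ ++ a ∧ Walk c.X.E x l₁ z ∧ c.K z v ∧ c.Leaves z a ∧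
      Walk c.Γ.E v a v' ∧ c.New v' ∧ b = Sum.inr v') ∨
    (∃ l₁ a l₂ z v z' v', l = l₁ ++ a ++ l₂ ∧ Walk c.X.E x l₁ z ∧ c.K z v ∧ c.K z' v' ∧
      Walk c.Γ.E v a v' ∧ c.g ≤ a.length + 3 * c.L ∧ Walk c.X'.E (Sum.inl z') l₂ b) := by
  rcases split_old h with h | ⟨l₁, d, l₂, z, v, v', rfl, h1, h2, h3, h4, h5⟩
  · exact Or.inl h
  right
  rcases c.K_or_new v' with ⟨z', hz'⟩ | hn
  · rw [hz'.ψ] at h5
    refine Or.inr ⟨l₁, [d], l₂, z, v, z', v', by simp, h1, h2, hz', walk_single.2 h3, ?_, h5⟩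
    exact excursion h2 hz' IsReduced.singleton ⟨d, [], rfl, h4⟩ (walk_single.2 h3)
  · rw [hn.ψ] at h5
    rcases run_new hn h5 with ⟨v'', rfl, h6, h7⟩ | ⟨m₁, m₂, z', v'', rfl, h6, h7, h8, h9⟩
    · exact Or.inl ⟨l₁, d :: l₂, z, v, v'', rfl, h1, h2, ⟨d, l₂, rfl, h4⟩, ⟨v', h3, h7⟩, h6, rfl⟩
    · refine Or.inr ⟨l₁, d :: m₁, m₂, z, v, z', v'', by simp, h1, h2, h7, ⟨v', h3, h6⟩, ?_, h9⟩
      refine excursion h2 h7 ?_ ⟨d, m₁, rfl, h4⟩ ⟨v', h3, h6⟩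
      exact hl.infix ⟨l₁, m₂, by simp⟩

/-- uniqueness of short outgoing paths. -/
theorem out_unique {z z' : W} {v u v' : V} {a b} (hz : c.K z v) (hz' : c.K z' u)
    (ha : IsReduced a) (hb : IsReduced b) (la : c.Leaves z a) (lb : c.Leaves z' b)
    (wa : Walk c.Γ.E v a v') (wb : Walk c.Γ.E u b v')
    (hlen : a.length + b.length + 3 * c.L < c.g) : z = z' ∧ v = u ∧ a = b := by
  obtain ⟨k, hk, hkl, h1, h2⟩ := hz.conn hz'
  have hkb : IsReduced (k ++ b) := by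
    refine red_append hk hb fun e he f hf hef => ?_
    obtain ⟨d, b', rfl, hd⟩ := lb
    simp only [List.head?_cons, Option.mem_def, Option.some.injEq] at hf
    subst hf
    obtain ⟨k', rfl⟩ : ∃ k', k = k' ++ [e] := by
      rw [Option.mem_def, List.getLast?_eq_some_iff] at he
      exact he
    obtain ⟨t, -, ht⟩ := walk_append.1 h1
    exact hd ⟨t, hef ▸ c.X.symm (walk_single.1 ht)⟩
  have := c.hG.unique ha hkb wa (h2.append wb) (by simp; omega)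
  cases k with
  | nil => exact ⟨h1, h2, by simpa using this⟩
  | cons e k =>
    exfalso
    obtain ⟨d, a', rfl, hd⟩ := la
    simp only [List.cons_append, List.cons.injEq] at this
    obtain ⟨t, ht, -⟩ := h1
    exact hd ⟨t, this.1 ▸ ht⟩

end Ctx

end Crest.Agent.H6.SC
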