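import Crest.Agent.H6.SC2

/-! Small cancellation toolkit, part 3: the invariant is preserved; Greendlinger's lemma. -/

namespace Crest.Agent.H6.SC

open FreeGroup

variable {A V W : Type}

namespace Ctx
variable {c : Ctx A V W}

theorem shorten : ∀ (n : ℕ) {l} {x y : W}, l.length ≤ n → Walk c.X'.E (Sum.inl x) l (Sum.inl y) →
    ∃ l', l'.length ≤ l.length ∧ Walk c.X.E x l' y := by
  classical
  intro n
  induction n with
  | zero =>
    intro l x y hl h
    obtain rfl : l = [] := List.length_eq_zero_iff.1 (by omega)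
    cases h
    exact ⟨[], le_rfl, rfl⟩
  | succ n ih =>
    intro l x y hl h
    have hr := reduce_length_le l
    rcases old_cases (isReduced_reduce l) (c.X'.walk_reduce h) with
      ⟨y', h1, h2⟩ | ⟨l₁, a, z, v, v', -, -, -, -, -, -, h1⟩ |
      ⟨l₁, a, l₂, z, v, z', v', he, h1, h2, h3, h4, h5, h6⟩
    · cases h1; exact ⟨_, hr, h2⟩
    · cases h1
    · obtain ⟨k, -, hk, hk1, -⟩ := h2.conn h3
      have hgL := c.hgL
      rw [he] at hr
      simp only [List.length_append] at hr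
      obtain ⟨l', hl', hw⟩ := ih (l := l₂) (by omega) h6
      exact ⟨l₁ ++ k ++ l', by simp only [List.length_append]; omega, (h1.append hk1).append hw⟩

theorem lt_inl {x : W} {r : ℕ} : Lt c.X' (Sum.inl c.o) (Sum.inl x) r ↔ Lt c.X c.o x r := by
  constructor
  · rintro ⟨l, hl, hw⟩
    obtain ⟨l', hl', hw'⟩ := shorten _ le_rfl hw
    exact ⟨l', by omega, hw'⟩
  · rintro ⟨l, hl, hw⟩
    exact ⟨l, hl, walk_inl hw⟩

theorem lt_inr {v' : V} {r : ℕ} (h : Lt c.X' (Sum.inl c.o) (Sum.inr v') r) :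
    ∃ z u a s, c.K z u ∧ IsReduced a ∧ c.Leaves z a ∧ Walk c.Γ.E u a v' ∧
      Lt c.X c.o z s ∧ s + a.length ≤ r := by
  classical
  obtain ⟨l, hl, hw⟩ := h
  have hw' := c.X'.walk_inv (c.X'.walk_reduce hw)
  have hr := reduce_length_le l
  have hred := IsReduced.invRev' (isReduced_reduce l)
  have hn : c.New v' := by
    cases h : invRev (reduce l) with
    | nil => rw [h] at hw'; cases hw'
    | cons d t => rw [h] at hw'; obtain ⟨u, hu, -⟩ := hw'; exact (step_new hu).1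
  rcases run_new hn hw' with ⟨v'', h1, -⟩ | ⟨l₁, l₂, z, u, he, h1, h2, h3, h4⟩
  · cases h1
  · have hlen := congrArg List.length he
    simp only [invRev_length, List.length_append] at hlen
    rw [he] at hred
    refine ⟨z, u, invRev l₁, l₂.length + 1, h2, IsReduced.invRev' (red_left hred), h3,
      c.Γ.walk_inv h1, lt_inl.1 ⟨invRev l₂, by simp, c.X'.walk_inv h4⟩, by simp; omega⟩

theorem not_lt_inr {v' : V} : ¬ Lt c.X' (Sum.inl c.o) (Sum.inr v') (c.R + 1) := by
  intro h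
  obtain ⟨z, u, a, s, h1, -, h2, -, h3, h4⟩ := lt_inr h
  have := List.length_pos_iff.2 h2.ne_nil
  exact h1.high (h3.mono (by omega))

theorem lt_out {z : W} {v v' : V} {a} {r : ℕ} (hz : c.K z v) (ha : IsReduced a)
    (la : c.Leaves z a) (wa : Walk c.Γ.E v a v') (hlen : a.length ≤ 6 * c.L + 2)
    (h : Lt c.X' (Sum.inl c.o) (Sum.inr v') (r + 1)) : Lt c.X c.o z r := by
  obtain ⟨z', u, b, s, h1, h2, h3, h4, h5, h6⟩ := lt_inr h
  have hb := List.length_pos_iff.2 h3.ne_nil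
  have hgL := c.hgL
  by_cases hc : a.length + b.length + 3 * c.L < c.g
  · obtain ⟨rfl, -, -⟩ := out_unique hz h1 ha h2 la h3 wa h4 hc
    exact h5.mono (by omega)
  · obtain ⟨k, -, hk, hk1, -⟩ := h1.conn hz
    exact (h5.walk hk1).mono (by omega)

theorem forced_inl {z : W} {q} {r : ℕ} (h : Forced c.X c.o (3 * c.L + 1) z q r) :
    Forced c.X' (Sum.inl c.o) (3 * c.L + 1) (Sum.inl z) q r := by
  intro α y hα hlen hw hy
  have hgL := c.hgL
  rcases old_cases hα hw with ⟨y', rfl, h2⟩ | ⟨l₁, a, z₁, v, v', rfl, h1, h2, h3, h4, h5, rfl⟩ |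
      ⟨l₁, a, l₂, z₁, v, z', v', rfl, h1, h2, h3, h4, h5, h6⟩
  · exact h α y' hα hlen h2 (lt_inl.1 hy)
  · simp only [List.length_append] at hlen
    have := lt_out h2 (red_right hα) h3 h4 (by omega) hy
    exact (h l₁ z₁ (red_left hα) (by omega) h1 (this.mono (by omega))).trans
      (List.prefix_append _ _)
  · simp only [List.length_append] at hlen
    omega

theorem good_inl {z : W} {q} {r : ℕ} (h : Good c.Γ c.X c.o (3 * c.L + 1) z q r) :
    Good c.Γ c.X' (Sum.inl c.o) (3 * c.L + 1) (Sum.inl z) q r :=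
  ⟨inCell_inl h.1, forced_inl h.2⟩

theorem run_out {z : W} {v : V} (hz : c.K z v) : ∀ {l} {v' : V} {a b}, c.New v' → IsReduced a →
    c.Leaves z a → Walk c.Γ.E v a v' → Walk c.X'.E (Sum.inr v') l b →
    (∃ v'' a', b = Sum.inr v'' ∧ IsReduced a' ∧ c.Leaves z a' ∧ Walk c.Γ.E v a' v'' ∧
      a'.length ≤ a.length + l.length) ∨
    ∃ l₁ l₂ z' u, l = l₁ ++ l₂ ∧ Walk c.Γ.E v' l₁ u ∧ c.K z' u ∧ c.Leaves z' (invRev l₁) ∧
      Walk c.X'.E (Sum.inl z') l₂ b := by
  intro l
  induction l with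
  | nil => intro v' a b hn ha la wa h; exact Or.inl ⟨v', a, h.symm, ha, la, wa, by simp⟩
  | cons d l ih =>
    rintro v' a b hn ha la wa ⟨u, hu, hw⟩
    obtain ⟨-, v₁, rfl, hv₁⟩ := step_new hu
    rcases c.K_or_new v₁ with ⟨z', hz'⟩ | hn'
    · rw [hz'.ψ] at hw
      refine Or.inr ⟨[d], l, z', v₁, rfl, walk_single.2 hv₁, hz',
        ⟨(d.1, !d.2), [], by simp [invRev], ?_⟩, hw⟩
      rintro ⟨z'', hz''⟩
      exact hn ⟨z'', hz'.walk (walk_single.2 hz'') (walk_single.2 (c.Γ.symm hv₁))⟩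
    · rw [hn'.ψ] at hw
      obtain ⟨a₁, ha₁, la₁, wa₁, hl₁⟩ : ∃ a₁, IsReduced a₁ ∧ c.Leaves z a₁ ∧
          Walk c.Γ.E v a₁ v₁ ∧ a₁.length ≤ a.length + 1 := by
        obtain ⟨a₀, e, rfl⟩ := (List.eq_nil_or_concat' a).resolve_left la.ne_nil
        by_cases hde : d = (e.1, !e.2)
        · obtain ⟨t, ht, ht'⟩ := walk_append.1 wa
          obtain rfl : t = v₁ := c.Γ.det (c.Γ.symm (walk_single.1 ht')) (hde ▸ hv₁)
          refine ⟨a₀, red_left ha, ?_, ht, by simp; omega⟩
          cases a₀ with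
          | nil => cases ht; exact absurd ⟨z, hz⟩ hn'
          | cons f a₀ =>
            obtain ⟨d', a', h1, h2⟩ := la
            simp only [List.cons_append, List.cons.injEq] at h1
            exact ⟨f, a₀, rfl, h1.1 ▸ h2⟩
        · refine ⟨a₀ ++ [e] ++ [d], red_append ha IsReduced.singleton ?_, la.append _,
            wa.append (walk_single.2 hv₁), by simp⟩
          intro e' he' f hf
          simp only [List.getLast?_append, List.getLast?_singleton, Option.some_or,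
            Option.mem_def, Option.some.injEq, List.head?_cons] at he' hf
          subst he' hf
          exact hde
      rcases ih hn' ha₁ la₁ wa₁ hw with ⟨v'', a', rfl, h1, h2, h3, h4⟩ |
        ⟨l₁, l₂, z', v'', rfl, h1, h2, h3, h4⟩
      · exact Or.inl ⟨v'', a', rfl, h1, h2, h3, by simp; omega⟩
      · refine Or.inr ⟨d :: l₁, l₂, z', v'', rfl, ⟨v₁, hv₁, h1⟩, h2, ?_, h4⟩
        rw [invRev_cons']
        exact h3.append _

theorem good_out {z : W} {v v' : V} {q a} {r : ℕ} (hr : c.R ≤ r)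
    (h : Good c.Γ c.X c.o (3 * c.L + 1) z q r) (hhigh : ¬ Lt c.X c.o z r)
    (hz : c.K z v) (ha : IsReduced a) (la : c.Leaves z a) (wa : Walk c.Γ.E v a v')
    (hn : c.New v') (hlen : a.length ≤ 3 * c.L + 1) :
    Good c.Γ c.X' (Sum.inl c.o) (3 * c.L + 1) (Sum.inr v') (invRev a ++ q) r := by
  classical
  have hgL := c.hgL
  constructor
  · obtain ⟨k, hk, hkl, h1, h2⟩ := hz.conn K₀
    obtain ⟨t, rfl⟩ := h.2 k c.x₀ hk (by omega) h1 (c.hx₀.mono (by omega))
    obtain ⟨u, hu, -⟩ := walk_append.1 h2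
    exact Or.inr ⟨v', u, hn.ψ ▸ att_ψ v', (c.Γ.walk_inv wa).append hu⟩
  · intro α y hα hαl hw hy
    rcases run_out hz hn ha la wa hw with ⟨v'', a', rfl, h1, h2, h3, h4⟩ |
      ⟨l₁, l₂, z', u, rfl, h1, h2, h3, h4⟩
    · exact absurd (lt_out hz h1 h2 h3 (by omega) hy) hhigh
    · simp only [List.length_append] at hαl
      obtain ⟨rfl, rfl, rfl⟩ := out_unique hz h2 ha (IsReduced.invRev' (red_left hα)) la h3 wa
        (c.Γ.walk_inv h1) (by simp; omega)
      rw [invRev_invRev, List.prefix_append_right_inj]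
      exact forced_inl h.2 l₂ y (red_right hα) (by omega) h4 hy

theorem walk_inr_new {v : V} {l b} (hl : l ≠ []) (h : Walk c.X'.E (Sum.inr v) l b) : c.New v := by
  cases l with
  | nil => exact absurd rfl hl
  | cons d t => obtain ⟨u, hu, -⟩ := h; exact (step_new hu).1

theorem girth' : c.X'.Girth (3 * c.L + 2) := by
  have hgL := c.hgL
  have old : ∀ (x : W) l, IsReduced l → l ≠ [] → Walk c.X'.E (Sum.inl x) l (Sum.inl x) →
      3 * c.L + 2 ≤ l.length := by
    intro x l hl hne hw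
    rcases old_cases hl hw with ⟨y', h1, h2⟩ | ⟨l₁, a, z₁, v, v', rfl, h1, h2, h3, h4, h5, h6⟩ |
      ⟨l₁, a, l₂, z₁, v, z', v', rfl, h1, h2, h3, h4, h5, h6⟩
    · cases h1; exact c.hI.girth x l hl hne h2
    · cases h6
    · simp only [List.length_append]; omega
  rintro (x | v) l hl hne hw
  · exact old x l hl hne hw
  · have hn := walk_inr_new hne hw
    by_contra hlen
    rcases run_new hn hw with ⟨v'', h0, h1, h2⟩ | ⟨l₁, l₂, z, u, rfl, h1, h2, h3, h4⟩
    · cases h0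
      have := c.hG v l hl hne h2
      omega
    · simp only [List.length_append] at hlen
      rcases old_cases (red_right hl) h4 with ⟨y', k1, k2⟩ |
        ⟨m₁, a, z₁, v₁, v', rfl, k1, k2, k3, k4, k5, k6⟩ |
        ⟨m₁, a, m₂, z₁, v₁, z', v', rfl, k1, k2, k3, k4, k5, k6⟩
      · cases k1
      · cases k6
        simp only [List.length_append] at hlen
        obtain ⟨rfl, rfl, rfl⟩ := out_unique k2 h2 (red_right (red_right hl))
          (IsReduced.invRev' (red_left hl)) k3 h3 k4 (c.Γ.walk_inv h1) (by simp; omega)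
        have hm : m₁ = [] := by
          by_contra hm
          have := c.hI.girth _ m₁ (red_left (red_right hl)) hm k1
          omega
        subst hm
        have hne1 : l₁ ≠ [] := fun h => h3.ne_nil (invRev_eq_nil.2 h)
        exact not_red_invRev hne1 (by simpa using hl)
      · simp only [List.length_append] at hlen
        omega

theorem sg' (l) (hl : IsReduced l) (hne : l ≠ [])
    (hw : Walk c.X'.E (Sum.inl c.o) l (Sum.inl c.o)) : SG c.Γ c.g c.L l := by
  rcases old_cases hl hw with ⟨y', h1, h2⟩ | ⟨l₁, a, z₁, v, v', rfl, h1, h2, h3, h4, h5, h6⟩ |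
    ⟨l₁, a, l₂, z₁, v, z', v', rfl, h1, h2, h3, h4, h5, h6⟩
  · cases h1; exact c.hI.sg l hl hne h2
  · cases h6
  · obtain ⟨k, -, hk, -, hk2⟩ := h2.conn h3
    exact ⟨l₁, a, l₂, k, v, v', rfl, h4, hk2, hk, h5⟩

theorem good_nil {X : LG A W} {Γ : LG A V} {o x : W} {S r : ℕ} : Good Γ X o S x [] r :=
  ⟨Or.inl rfl, fun _ _ _ _ _ _ => List.nil_prefix⟩

/-- the decomposition for paths starting at an old vertex, with old goodness at the start. -/
theorem dec_old {r : ℕ} (hr : c.R ≤ r) {x : W} {p y} (hp : IsReduced p)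
    (hlen : p.length ≤ 3 * c.L + 1) (hw : Walk c.X'.E (Sum.inl x) p y)
    (hh : High c.X' (Sum.inl c.o) (Sum.inl x) p r) :
    ∃ p₁ p₂ p₃ x₁, p = p₁ ++ p₂ ++ p₃ ∧ Walk c.X.E x p₁ x₁ ∧ InCell c.Γ c.X x₁ p₂ ∧
      Good c.Γ c.X c.o (3 * c.L + 1) x p₁ r ∧
      Good c.Γ c.X' (Sum.inl c.o) (3 * c.L + 1) y (invRev p₃) r := by
  have hgL := c.hgL
  have hH : ∀ q, q <+: p → High c.X c.o x q r := by
    intro q hq p' y' hp' hw' hlt
    exact hh p' _ (hp'.trans hq) (walk_inl hw') (lt_inl.2 hlt)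
  rcases old_cases hp hw with ⟨y', rfl, h2⟩ | ⟨l₁, a, z₁, v, v', rfl, h1, h2, h3, h4, h5, rfl⟩ |
    ⟨l₁, a, l₂, z₁, v, z', v', rfl, h1, h2, h3, h4, h5, h6⟩
  · obtain ⟨p₁, p₂, p₃, x₁, e, k1, k2, k3, k4⟩ := c.hI.dec r hr x p y' hp hlen h2 (hH _ List.prefix_rfl)
    exact ⟨p₁, p₂, p₃, x₁, e, k1, k2, k3, good_inl k4⟩
  · simp only [List.length_append] at hlen
    have hH₁ := hH l₁ (List.prefix_append _ _)
    obtain ⟨p₁, p₂, p₃, x₁, rfl, k1, k2, k3, k4⟩ :=
      c.hI.dec r hr x l₁ z₁ (red_left hp) (by omega) h1 hH₁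
    refine ⟨p₁, p₂, p₃ ++ a, x₁, by simp, k1, k2, k3, ?_⟩
    rw [invRev_append]
    exact good_out hr k4 (hH₁ _ _ List.prefix_rfl h1) h2 (red_right hp) h3 h4 h5 (by omega)
  · simp only [List.length_append] at hlen
    omega

theorem inv' : Inv c.Γ c.g c.L c.X' (Sum.inl c.o) c.R where
  att := by
    rintro (x | u) v h
    · exact att_inl (c.hI.att x v (lt_inl.1 h))
    · exact absurd (h.mono (Nat.le_succ _)) not_lt_inr
  girth := girth'
  sg := sg'
  dec := by
    rintro r hr (x | v) p y hp hlen hw hh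
    · obtain ⟨p₁, p₂, p₃, x₁, e, k1, k2, k3, k4⟩ := dec_old hr hp hlen hw hh
      exact ⟨p₁, p₂, p₃, _, e, walk_inl k1, inCell_inl k2, good_inl k3, k4⟩
    · by_cases hne : p = []
      · subst hne
        exact ⟨[], [], [], _, rfl, rfl, Or.inl rfl, good_nil, good_nil⟩
      have hn := walk_inr_new hne hw
      rcases run_new hn hw with ⟨v'', rfl, h1, h2⟩ | ⟨l₁, l₂, z, u, rfl, h1, h2, h3, h4⟩
      · exact ⟨[], p, [], _, by simp, rfl, Or.inr ⟨v, v'', hn.ψ ▸ att_ψ v, h2⟩, good_nil, good_nil⟩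
      · simp only [List.length_append] at hlen
        have hw₁ : Walk c.X'.E (Sum.inr v) l₁ (Sum.inl z) := by
          have := walk_ψ h1
          rwa [hn.ψ, h2.ψ] at this
        have hh₂ : High c.X' (Sum.inl c.o) (Sum.inl z) l₂ r := by
          intro p' y' hp' hw'
          exact hh (l₁ ++ p') y' ((List.prefix_append_right_inj _).2 hp') (hw₁.append hw')
        obtain ⟨p₁, p₂, p₃, x₁, rfl, k1, k2, k3, k4⟩ := dec_old hr (red_right hp) (by omega) h4 hh₂
        refine ⟨l₁ ++ p₁, p₂, p₃, _, by simp, hw₁.append (walk_inl k1), inCell_inl k2, ?_, k4⟩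
        have := good_out hr k3 (fun h => hh₂ [] _ List.nil_prefix rfl (lt_inl.2 h)) h2
          (IsReduced.invRev' (red_left hp)) h3 (c.Γ.walk_inv h1) hn (by simp; omega)
        rwa [invRev_invRev] at this

end Ctx

section main
variable {Γ : LG A V} {g L : ℕ}

/-- the unattached pairs. -/
def Todo (Γ : LG A V) (X : LG A W) (o : W) (R : ℕ) : Set (W × V) :=
  {p | Lt X o p.1 (R + 1) ∧ ¬ Att Γ X p.1 p.2}

theorem level_up [Finite V] (hG : Γ.Girth g) (hP : Γ.Pieces L) (hgL : 20 * L + 20 ≤ g) (R : ℕ) :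
    ∀ (n : ℕ) (W : Type) [Finite W] (X : LG A W) (o : W), Inv Γ g L X o R →
      (Todo Γ X o R).ncard ≤ n →
      ∃ (W' : Type) (_ : Finite W') (X' : LG A W') (o' : W'), Inv Γ g L X' o' (R + 1) := by
  intro n
  have base : ∀ (W : Type) [Finite W] (X : LG A W) (o : W), Inv Γ g L X o R →
      Todo Γ X o R = ∅ →
      ∃ (W' : Type) (_ : Finite W') (X' : LG A W') (o' : W'), Inv Γ g L X' o' (R + 1) := by
    intro W _ X o hI he
    refine ⟨W, inferInstance, X, o, ?_, hI.girth, hI.sg, fun r hr => hI.dec r (by omega)⟩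
    intro x v h
    by_contra hn
    have : (x, v) ∈ Todo Γ X o R := ⟨h, hn⟩
    rw [he] at this
    exact this
  induction n with
  | zero =>
    intro W _ X o hI hn
    exact base W X o hI ((Set.ncard_eq_zero (Set.toFinite _)).1 (by omega))
  | succ n ih =>
    intro W _ X o hI hn
    rcases (Todo Γ X o R).eq_empty_or_nonempty with he | ⟨⟨x₀, v₀⟩, h1, h2⟩
    · exact base W X o hI he
    · let c : Ctx A V W := ⟨Γ, g, L, X, o, R, x₀, v₀, hG, hP, hgL, hI, h1, h2⟩
      refine ih (W ⊕ V) c.X' (Sum.inl o) (Ctx.inv' (c := c)) ?_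
      have hsub : Todo Γ c.X' (Sum.inl o) R ⊆
          (fun p : W × V => ((Sum.inl p.1 : W ⊕ V), p.2)) '' (Todo Γ X o R \ {(x₀, v₀)}) := by
        rintro ⟨x | u, v⟩ ⟨k1, k2⟩
        · refine ⟨(x, v), ⟨⟨(Ctx.lt_inl (c := c)).1 k1, fun h => k2 (Ctx.att_inl (c := c) h)⟩, ?_⟩, rfl⟩
          intro h
          simp only [Set.mem_singleton_iff, Prod.mk.injEq] at h
          obtain ⟨rfl, rfl⟩ := h
          have := Ctx.att_ψ (c := c) v
          rw [(Ctx.K₀ (c := c)).ψ] at this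
          exact k2 this
        · exact absurd k1 (Ctx.not_lt_inr (c := c))
      have h3 := Set.ncard_le_ncard hsub (Set.toFinite _)
      have h4 := Set.ncard_image_le (f := fun p : W × V => ((Sum.inl p.1 : W ⊕ V), p.2))
        (s := Todo Γ X o R \ {(x₀, v₀)}) (Set.toFinite _)
      have h5 := Set.ncard_sdiff_singleton_lt_of_mem (s := Todo Γ X o R) (a := (x₀, v₀)) ⟨h1, h2⟩
        (Set.toFinite _)
      omega

theorem exists_inv [Finite V] (hG : Γ.Girth g) (hP : Γ.Pieces L) (hgL : 20 * L + 20 ≤ g) (R : ℕ) :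
    ∃ (W : Type) (_ : Finite W) (X : LG A W) (o : W), Inv Γ g L X o R := by
  induction R with
  | zero =>
    let X : LG A Unit := ⟨fun _ _ _ => False, fun h => h, fun h => h.elim⟩
    have hw : ∀ l x y, Walk X.E x l y → l = [] := by
      intro l x y h
      cases l with
      | nil => rfl
      | cons d l => obtain ⟨_, h, _⟩ := h; exact h.elim
    refine ⟨Unit, inferInstance, X, (), ?_, ?_, ?_, ?_⟩
    · rintro x v ⟨l, hl, -⟩; omega
    · intro v l _ hne h; exact absurd (hw _ _ _ h) hne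
    · intro l _ hne h; exact absurd (hw _ _ _ h) hne
    · intro r _ x p y _ _ h _
      obtain rfl := hw _ _ _ h
      exact ⟨[], [], [], x, rfl, rfl, Or.inl rfl, Ctx.good_nil, Ctx.good_nil⟩
  | succ R ih =>
    obtain ⟨W, _, X, o, hI⟩ := ih
    exact level_up hG hP hgL R _ W X o hI le_rfl

/-- the relators: labels of closed walks. -/
def rels (Γ : LG A V) : Set (FreeGroup A) := {f | ∃ v l, Walk Γ.E v l v ∧ f = FreeGroup.mk l}

theorem readable (hU : ∀ d, ∃ v w, Γ.E v d w) {X : LG A W} {o : W} {R : ℕ}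
    (hA : ∀ x v, Lt X o x R → Att Γ X x v) : ∀ (l : List (A × Bool)) (x : W) (r : ℕ),
      Lt X o x r → r + l.length ≤ R → ∃ y, Walk X.E x l y := by
  intro l
  induction l with
  | nil => intro x r _ _; exact ⟨x, rfl⟩
  | cons d l ih =>
    intro x r hx hr
    simp only [List.length_cons] at hr
    obtain ⟨v, w, hvw⟩ := hU d
    obtain ⟨ψ, hψ, rfl⟩ := hA x v (hx.mono (by omega))
    have h1 := hψ _ _ _ hvw
    obtain ⟨y, hy⟩ := ih (ψ w) (r + 1) (by simpa using hx.walk (walk_single.2 h1)) (by omega)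
    exact ⟨y, _, h1, hy⟩

/-- **Greendlinger's lemma** for graphical small cancellation. -/
theorem greendlinger [Finite V] (hG : Γ.Girth g) (hP : Γ.Pieces L) (hgL : 20 * L + 20 ≤ g)
    (hU : ∀ d, ∃ v w, Γ.E v d w) (l : List (A × Bool)) (hl : IsReduced l) (hne : l ≠ [])
    (hmem : FreeGroup.mk l ∈ Subgroup.normalClosure (rels Γ)) : SG Γ g L l := by
  classical
  let N : Subgroup (FreeGroup A) :=
    { carrier := {f | ∃ ρ : ℕ, ∀ (W : Type) (X : LG A W) (o : W) (R : ℕ),
        (∀ x v, Lt X o x R → Att Γ X x v) → ∀ x r, Lt X o x r → r + ρ ≤ R →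
          Walk X.E x f.toWord x}
      one_mem' := ⟨0, fun W X o R _ x r _ _ => by simp⟩
      mul_mem' := by
        rintro f₁ f₂ ⟨ρ₁, h₁⟩ ⟨ρ₂, h₂⟩
        refine ⟨ρ₁ + ρ₂, fun W X o R hA x r hx hr => ?_⟩
        rw [toWord_mul]
        exact X.walk_reduce ((h₁ W X o R hA x r hx (by omega)).append
          (h₂ W X o R hA x r hx (by omega)))
      inv_mem' := by
        rintro f ⟨ρ, h⟩
        refine ⟨ρ, fun W X o R hA x r hx hr => ?_⟩
        rw [toWord_inv]
        exact X.walk_inv (h W X o R hA x r hx hr) }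
  have hN : N.Normal := by
    constructor
    rintro f ⟨ρ, h⟩ a
    refine ⟨ρ + a.toWord.length, fun W X o R hA x r hx hr => ?_⟩
    obtain ⟨y, hy⟩ := readable hU hA a.toWord x r hx (by omega)
    have h1 := h W X o R hA y _ (hx.walk hy) (by omega)
    rw [toWord_mul, toWord_mul, toWord_inv]
    exact X.walk_reduce ((X.walk_reduce (hy.append h1)).append (X.walk_inv hy))
  have hle : Subgroup.normalClosure (rels Γ) ≤ N := by
    apply Subgroup.normalClosure_le_normal
    rintro f ⟨v, k, hk, rfl⟩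
    refine ⟨0, fun W X o R hA x r hx hr => ?_⟩
    obtain ⟨ψ, hψ, rfl⟩ := hA x v (hx.mono (by omega))
    rw [toWord_mk]
    exact X.walk_reduce (Walk.map ψ hψ hk)
  obtain ⟨ρ, h⟩ := hle hmem
  obtain ⟨W, _, X, o, hI⟩ := exists_inv hG hP hgL (1 + ρ)
  have := h W X o _ hI.att o 1 ⟨[], by simp, rfl⟩ le_rfl
  rw [toWord_mk, hl.reduce_eq] at this
  exact hI.sg l hl hne this

end main

end Crest.Agent.H6.SC
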