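import Crest.Agent.H6.SC1
import Crest.Prelude.Def_WordHyperbolic

/-! Small cancellation toolkit, part 4: a Dehn-type property implies word-hyperbolicity. -/

namespace Crest.Agent.H6.SC

open FreeGroup

variable {A G : Type} [Group G] (φ : A → G)

/-- evaluation of a word. -/
def ev (l : List (A × Bool)) : G := FreeGroup.lift φ (FreeGroup.mk l)

@[simp] theorem ev_nil : ev φ [] = 1 := by
  unfold ev; rw [← one_eq_mk, _root_.map_one]

theorem ev_append (l₁ l₂ : List (A × Bool)) : ev φ (l₁ ++ l₂) = ev φ l₁ * ev φ l₂ := by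
  unfold ev; rw [← mul_mk, _root_.map_mul]

theorem ev_invRev (l : List (A × Bool)) : ev φ (invRev l) = (ev φ l)⁻¹ := by
  unfold ev; rw [← inv_mk, _root_.map_inv]

theorem ev_cons (d : A × Bool) (l : List (A × Bool)) : ev φ (d :: l) = ev φ [d] * ev φ l :=
  ev_append φ [d] l

theorem ev_inv_single (d : A × Bool) : ev φ [(d.1, !d.2)] = (ev φ [d])⁻¹ := by
  rw [← invRev_single, ev_invRev]

theorem ev_cancel (l₁ l₂ : List (A × Bool)) (d : A × Bool) :
    ev φ (l₁ ++ d :: (d.1, !d.2) :: l₂) = ev φ (l₁ ++ l₂) := by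
  rw [ev_append, ev_append, ev_cons, ev_cons _ _ l₂, ev_inv_single]; group

theorem ev_true (a : A) : ev φ [(a, true)] = φ a := by simp [ev]
theorem ev_false (a : A) : ev φ [(a, false)] = (φ a)⁻¹ := by simp [ev]

/-- word length. -/
noncomputable def len (g : G) : ℕ := sInf {n | ∃ l : List (A × Bool), l.length = n ∧ ev φ l = g}

theorem len_ev_le (l : List (A × Bool)) : len φ (ev φ l) ≤ l.length :=
  Nat.sInf_le ⟨l, rfl, rfl⟩

/-- distance. -/
noncomputable def dst (x y : G) : ℕ := len φ (x⁻¹ * y)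

theorem dst_ev_le (x : G) (l : List (A × Bool)) : dst φ x (x * ev φ l) ≤ l.length := by
  unfold dst; rw [inv_mul_cancel_left]; exact len_ev_le φ l

variable {φ}

section surj
variable (hs : ∀ g : G, ∃ l, ev φ l = g)
include hs

theorem exists_geo_word (x y : G) : ∃ l : List (A × Bool), l.length = dst φ x y ∧ x * ev φ l = y := by
  obtain ⟨l, hl⟩ := hs (x⁻¹ * y)
  obtain ⟨l', h1, h2⟩ := Nat.sInf_mem
    (s := {n | ∃ l : List (A × Bool), l.length = n ∧ ev φ l = x⁻¹ * y}) ⟨_, l, rfl, hl⟩
  exact ⟨l', h1, by rw [h2]; group⟩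

theorem dst_tri (x y z : G) : dst φ x z ≤ dst φ x y + dst φ y z := by
  obtain ⟨l₁, h1, rfl⟩ := exists_geo_word hs x y
  obtain ⟨l₂, h2, rfl⟩ := exists_geo_word hs (x * ev φ l₁) z
  rw [← h1, ← h2, mul_assoc, ← ev_append, ← List.length_append]
  exact dst_ev_le φ _ _

theorem dst_symm (x y : G) : dst φ x y = dst φ y x := by
  have : ∀ x y : G, dst φ x y ≤ dst φ y x := by
    intro x y
    obtain ⟨l₁, h1, rfl⟩ := exists_geo_word hs y x
    have := dst_ev_le φ (y * ev φ l₁) (invRev l₁)
    rw [ev_invRev, mul_inv_cancel_right, invRev_length] at this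
    omega
  exact le_antisymm (this x y) (this y x)

end surj

theorem dst_self (x : G) : dst φ x x = 0 := by
  have := dst_ev_le φ x []
  simpa using this

variable (φ) in
/-- the discrete line integral `∑ (θ x + θ y) (a y - a x)` along a word. -/
def Wt (θ a : G → ℤ) : G → List (A × Bool) → ℤ
  | _, [] => 0
  | x, d :: l => (θ x + θ (x * ev φ [d])) * (a (x * ev φ [d]) - a x) + Wt θ a (x * ev φ [d]) l

theorem Wt_append (θ a : G → ℤ) (l₁ l₂ : List (A × Bool)) : ∀ x : G,
    Wt φ θ a x (l₁ ++ l₂) = Wt φ θ a x l₁ + Wt φ θ a (x * ev φ l₁) l₂ := by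
  induction l₁ with
  | nil => intro x; simp [Wt]
  | cons d l ih =>
    intro x
    simp only [List.cons_append, Wt, ih]
    rw [ev_cons φ d l, mul_assoc, add_assoc]

theorem Wt_cancel (θ a : G → ℤ) (l₁ l₂ : List (A × Bool)) (d : A × Bool) (x : G) :
    Wt φ θ a x (l₁ ++ d :: (d.1, !d.2) :: l₂) = Wt φ θ a x (l₁ ++ l₂) := by
  rw [Wt_append, Wt_append]
  simp only [Wt, ev_inv_single, mul_inv_cancel_right]
  ring

theorem Wt_bound (θ a : G → ℤ) (ha : ∀ x d, |a (x * ev φ [d]) - a x| ≤ 1) (c M : ℤ) :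
    ∀ (u : List (A × Bool)) (x : G), (∀ p, p <+: u → |θ (x * ev φ p) - c| ≤ M) →
      |Wt φ θ a x u - 2 * c * (a (x * ev φ u) - a x)| ≤ 2 * M * u.length := by
  intro u
  induction u with
  | nil => intro x _; simp [Wt]
  | cons d u ih =>
    intro x h
    have h0 := h [] List.nil_prefix
    have h1 := h [d] (by simp)
    simp only [ev_nil, mul_one] at h0
    have h2 := ih (x * ev φ [d]) (fun p hp => by
      have := h (d :: p) (by simpa using hp)
      rwa [ev_cons, ← mul_assoc] at this)
    have h3 := ha x d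
    simp only [Wt, List.length_cons, Nat.cast_add, Nat.cast_one]
    rw [ev_cons φ d u, ← mul_assoc]
    have h4 : |(θ x - c + (θ (x * ev φ [d]) - c)) * (a (x * ev φ [d]) - a x)| ≤ 2 * M := by
      rw [abs_mul]
      have := abs_add_le (θ x - c) (θ (x * ev φ [d]) - c)
      calc _ ≤ (2 * M) * 1 := mul_le_mul (by linarith) h3 (abs_nonneg _)
            (by linarith [abs_nonneg (θ x - c)])
        _ = _ := by ring
    rw [abs_le] at h2 h4 ⊢
    constructor <;> nlinarith [h2.1, h2.2, h4.1, h4.2]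

variable (φ) in
/-- Dehn-type property. -/
def Dehn (M : ℕ) : Prop :=
  ∀ l, FreeGroup.IsReduced l → l ≠ [] → ev φ l = 1 → ∃ l₁ u l₂ k, l = l₁ ++ u ++ l₂ ∧
    ev φ u = ev φ k ∧ 2 * k.length ≤ u.length ∧ u ≠ [] ∧
    (∀ p, p <+: u → len φ (ev φ p) ≤ M) ∧ (∀ p, p <+: k → len φ (ev φ p) ≤ M)

theorem Wt_closed {M : ℕ} (hD : Dehn φ M) (θ a : G → ℤ)
    (ha : ∀ x d, |a (x * ev φ [d]) - a x| ≤ 1) (hθ : ∀ x y, |θ y - θ x| ≤ dst φ x y) :
    ∀ (n : ℕ) (l : List (A × Bool)) (x : G), l.length ≤ n → ev φ l = 1 →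
      Wt φ θ a x l ≤ 6 * M * l.length := by
  intro n
  induction n with
  | zero =>
    intro l x hl _
    obtain rfl : l = [] := List.length_eq_zero_iff.1 (by omega)
    simp [Wt]
  | succ n ih =>
    intro l x hl h1
    by_cases hne : l = []
    · subst hne; simp [Wt]
    by_cases hr : FreeGroup.IsReduced l
    · obtain ⟨l₁, u, l₂, k, rfl, h2, h3, h4, h5, h6⟩ := hD l hr hne h1
      have hu := List.length_pos_iff.2 h4
      simp only [List.length_append] at hl
      have h7 := ih (l₁ ++ k ++ l₂) x (by simp only [List.length_append]; omega)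
        (by rw [← h1]; simp only [ev_append, h2])
      have hb : ∀ w : List (A × Bool), (∀ p, p <+: w → len φ (ev φ p) ≤ M) →
          ∀ p, p <+: w → |θ (x * ev φ l₁ * ev φ p) - θ (x * ev φ l₁)| ≤ (M : ℤ) := by
        intro w hw p hp
        refine (hθ _ _).trans ?_
        unfold dst
        rw [inv_mul_cancel_left]
        exact_mod_cast hw p hp
      have b1 := Wt_bound θ a ha _ _ u _ (hb u h5)
      have b2 := Wt_bound θ a ha _ _ k _ (hb k h6)
      simp only [Wt_append, ev_append, List.length_append, Nat.cast_add] at h7 ⊢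
      rw [h2] at b1 ⊢
      rw [abs_le] at b1 b2
      have h3' : (2 : ℤ) * k.length ≤ u.length := by exact_mod_cast h3
      have hM : (0 : ℤ) ≤ M := Nat.cast_nonneg _
      nlinarith [b1.1, b1.2, b2.1, b2.2, mul_le_mul_of_nonneg_left h3' hM]
    · obtain ⟨l₁, l₂, d, rfl⟩ := exists_cancel_of_not_red hr
      rw [Wt_cancel]
      rw [ev_cancel] at h1
      simp only [List.length_append, List.length_cons] at hl
      have := ih (l₁ ++ l₂) x (by simp only [List.length_append]; omega) h1
      simp only [List.length_append, List.length_cons] at this ⊢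
      push_cast at this ⊢
      have hM : (0 : ℤ) ≤ M := Nat.cast_nonneg _
      nlinarith

variable (φ) in
/-- `x` and `y` are joined by a path of length `≤ n` avoiding the open ball of radius `ρ` at `m`. -/
def Conn (m : G) (ρ n : ℕ) (x y : G) : Prop :=
  ∃ c : List (A × Bool), c.length ≤ n ∧ x * ev φ c = y ∧ ∀ p, p <+: c → ρ ≤ dst φ m (x * ev φ p)

theorem Conn.refl {m x : G} {ρ : ℕ} (n : ℕ) (h : ρ ≤ dst φ m x) : Conn φ m ρ n x x :=
  ⟨[], by simp, by simp, fun p hp => by rw [List.prefix_nil.1 hp]; simpa using h⟩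

theorem Conn.mono {m x y : G} {ρ n n' : ℕ} (h : Conn φ m ρ n x y) (hn : n ≤ n') :
    Conn φ m ρ n' x y := by
  obtain ⟨c, h1, h2, h3⟩ := h
  exact ⟨c, by omega, h2, h3⟩

theorem Conn.trans {m x y z : G} {ρ n n' : ℕ} (h : Conn φ m ρ n x y) (h' : Conn φ m ρ n' y z) :
    Conn φ m ρ (n + n') x z := by
  obtain ⟨c, h1, rfl, h3⟩ := h
  obtain ⟨c', h1', rfl, h3'⟩ := h'
  refine ⟨c ++ c', by simp; omega, by rw [ev_append, mul_assoc], fun p hp => ?_⟩
  rcases List.prefix_or_prefix_of_prefix hp (List.prefix_append c c') with h | ⟨t, rfl⟩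
  · exact h3 p h
  · rw [ev_append, ← mul_assoc]
    exact h3' t ((List.prefix_append_right_inj _).1 hp)

theorem Conn.symm {m x y : G} {ρ n : ℕ} (h : Conn φ m ρ n x y) : Conn φ m ρ n y x := by
  obtain ⟨c, h1, rfl, h3⟩ := h
  refine ⟨invRev c, by simpa using h1, by rw [ev_invRev]; group, ?_⟩
  rintro p ⟨t, ht⟩
  have hc : c = invRev t ++ invRev p := by rw [← invRev_append, ht, invRev_invRev]
  have := h3 (invRev t) ⟨_, hc.symm⟩
  rw [hc, ev_append, ev_invRev _ p]
  simpa [mul_assoc] using this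

section surj
variable (hs : ∀ g : G, ∃ l, ev φ l = g)
include hs

theorem conn_short {m x y : G} {ρ n : ℕ} (h1 : dst φ x y ≤ n) (h2 : ρ + n ≤ dst φ m x) :
    Conn φ m ρ n x y := by
  obtain ⟨l, hl, rfl⟩ := exists_geo_word hs x y
  refine ⟨l, by omega, rfl, fun p hp => ?_⟩
  have := hp.length_le
  have h3 := dst_tri hs m (x * ev φ p) x
  have h4 := dst_ev_le φ x p
  rw [dst_symm hs] at h4
  omega

theorem conn_one {m x y : G} {ρ : ℕ} (h1 : dst φ x y ≤ 1) (h2 : ρ ≤ dst φ m x)
    (h3 : ρ ≤ dst φ m y) : Conn φ m ρ 1 x y := by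
  obtain ⟨l, hl, rfl⟩ := exists_geo_word hs x y
  refine ⟨l, by omega, rfl, fun p hp => ?_⟩
  by_cases hp0 : p = []
  · subst hp0; simpa using h2
  · have := List.length_pos_iff.2 hp0
    have hlen := hp.length_le
    rw [hp.eq_of_length (by omega)]
    exact h3

theorem geo_prefix {x : G} {l p : List (A × Bool)} (hl : l.length = dst φ x (x * ev φ l))
    (hp : p <+: l) : dst φ x (x * ev φ p) = p.length := by
  obtain ⟨t, rfl⟩ := hp
  have h1 := dst_ev_le φ x p
  have h2 := dst_ev_le φ (x * ev φ p) t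
  have h3 := dst_tri hs x (x * ev φ p) (x * ev φ p * ev φ t)
  rw [ev_append, ← mul_assoc, List.length_append] at hl
  omega

theorem key {M : ℕ} (hD : Dehn φ M) {u m v : G} {ρ n : ℕ}
    (hb : dst φ u m + dst φ m v = dst φ u v) (hc : Conn φ m ρ n u v) :
    ρ ^ 2 ≤ 6 * M * (dst φ u v + n) := by
  obtain ⟨c, hc1, hc2, hc3⟩ := hc.symm
  obtain ⟨p₁, hp₁, rfl⟩ := exists_geo_word hs u m
  obtain ⟨p₂, hp₂, rfl⟩ := exists_geo_word hs (u * ev φ p₁) v
  set m := u * ev φ p₁ with hm
  let θ : G → ℤ := fun x => max 0 ((ρ : ℤ) - dst φ m x)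
  let a : G → ℤ := fun x => dst φ u x
  have hlip : ∀ o x y : G, |(dst φ o y : ℤ) - dst φ o x| ≤ dst φ x y := by
    intro o x y
    have h1 := dst_tri hs o x y
    have h2 := dst_tri hs o y x
    rw [dst_symm hs y x] at h2
    rw [abs_le]; constructor <;> omega
  have ha : ∀ x d, |a (x * ev φ [d]) - a x| ≤ 1 := fun x d =>
    (hlip u x _).trans (by exact_mod_cast dst_ev_le φ x [d])
  have hθ : ∀ x y, |θ y - θ x| ≤ dst φ x y := by
    intro x y
    have := hlip m x y
    simp only [θ]
    rw [abs_le] at this ⊢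
    constructor <;> omega
  have hcl := Wt_closed hD θ a ha hθ _ (p₁ ++ p₂ ++ c) u le_rfl (by
    rw [ev_append, ev_append]
    have : u * (ev φ p₁ * ev φ p₂ * ev φ c) = u * 1 := by
      rw [mul_one]; simpa only [hm, mul_assoc] using hc2
    exact mul_left_cancel this)
  have hgeo : ∀ p, p <+: p₁ ++ p₂ → a (u * ev φ p) = p.length := by
    intro p hp
    simp only [a]
    rw [geo_prefix hs (l := p₁ ++ p₂) (by rw [ev_append, ← mul_assoc, ← hm, List.length_append]; omega) hp]
  have nonneg : ∀ (p : List (A × Bool)) (x : G),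
      (∀ q, q <+: p → a (x * ev φ q) = a x + q.length) → 0 ≤ Wt φ θ a x p := by
    intro p
    induction p with
    | nil => intro x _; simp [Wt]
    | cons d p ih =>
      intro x h
      have h1 := h [d] (by simp)
      have h2 := ih (x * ev φ [d]) (fun q hq => by
        have := h (d :: q) (by simpa using hq)
        rw [ev_cons, ← mul_assoc] at this
        rw [this, h1]; simp; ring)
      simp only [Wt, h1]
      have : 0 ≤ θ x := le_max_left _ _
      have : 0 ≤ θ (x * ev φ [d]) := le_max_left _ _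
      simp only [List.length_singleton, Nat.cast_one, add_sub_cancel_left, mul_one]
      linarith
  have big : ∀ (p : List (A × Bool)) (x : G) (j : ℕ),
      (∀ q, q <+: p → a (x * ev φ q) = a x + q.length) → dst φ m x ≤ j → j ≤ ρ →
      ρ ≤ j + p.length → ((ρ : ℤ) - j) ^ 2 ≤ Wt φ θ a x p := by
    intro p
    induction p with
    | nil =>
      intro x j _ _ h1 h2
      obtain rfl : ρ = j := by simp at h2; omega
      simp [Wt]
    | cons d p ih =>
      intro x j h h0 hj hl
      rcases hj.eq_or_lt with rfl | hj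
      · simpa using nonneg _ x h
      have h1 := h [d] (by simp)
      have h3 := dst_tri hs m x (x * ev φ [d])
      have h4 := dst_ev_le φ x [d]
      simp only [List.length_cons, List.length_nil] at h4 hl
      have h2 := ih (x * ev φ [d]) (j + 1) (fun q hq => by
        have := h (d :: q) (by simpa using hq)
        rw [ev_cons, ← mul_assoc] at this
        rw [this, h1]; simp; ring) (by omega) (by omega) (by omega)
      simp only [Wt, h1]
      have e1 : (ρ : ℤ) - j ≤ θ x := le_max_of_le_right (by omega)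
      have e2 : (ρ : ℤ) - j - 1 ≤ θ (x * ev φ [d]) := le_max_of_le_right (by omega)
      simp only [List.length_singleton, Nat.cast_one, add_sub_cancel_left, mul_one]
      push_cast at h2
      nlinarith
  have zero : ∀ (p : List (A × Bool)) (x : G),
      (∀ q, q <+: p → ρ ≤ dst φ m (x * ev φ q)) → Wt φ θ a x p = 0 := by
    intro p
    induction p with
    | nil => intro x _; simp [Wt]
    | cons d p ih =>
      intro x h
      have h0 := h [] List.nil_prefix
      have h1 := h [d] (by simp)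
      have h2 := ih (x * ev φ [d]) (fun q hq => by
        have := h (d :: q) (by simpa using hq)
        rwa [ev_cons, ← mul_assoc] at this)
      simp only [ev_nil, mul_one] at h0
      have e1 : θ x = 0 := max_eq_left (by omega)
      have e2 : θ (x * ev φ [d]) = 0 := max_eq_left (by omega)
      simp [Wt, h2, e1, e2]
  have a0 : a u = 0 := by simp [a, dst_self]
  have w1 := nonneg p₁ u (fun q hq => by
    rw [hgeo q (hq.trans (List.prefix_append _ _)), a0, zero_add])
  have hfar := hc3 [] List.nil_prefix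
  simp only [ev_nil, mul_one] at hfar
  have w2 := big p₂ m 0 (fun q hq => by
    rw [hm, mul_assoc, ← ev_append, hgeo _ ((List.prefix_append_right_inj _).2 hq),
      hgeo _ (List.prefix_append _ _)]; simp) (by rw [dst_self]) (Nat.zero_le _) (by omega)
  have w3 := zero c _ hc3
  rw [Wt_append, Wt_append, ev_append, ← mul_assoc, ← hm, w3] at hcl
  simp only [List.length_append] at hcl
  have : ((ρ : ℤ)) ^ 2 ≤ 6 * M * ((p₁.length + p₂.length + c.length : ℕ) : ℤ) := by
    simp only [Nat.cast_zero, sub_zero] at w2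
    linarith
  have h5 : ρ ^ 2 ≤ 6 * M * (p₁.length + p₂.length + c.length) := by exact_mod_cast this
  refine h5.trans (Nat.mul_le_mul_left _ (by omega))

variable (φ) in
/-- geodesic segments. -/
def IsGeo (γ : ℕ → G) (n : ℕ) : Prop := ∀ i j, i ≤ j → j ≤ n → dst φ (γ i) (γ j) = j - i

omit hs in
theorem take_prefix_take' (l : List (A × Bool)) {i j : ℕ} (h : i ≤ j) :
    l.take j = l.take i ++ (l.take j).drop i := by
  conv_lhs => rw [← List.take_append_drop i (l.take j)]
  rw [List.take_take, min_eq_left h]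

theorem exists_geo {x m y : G} (hb : dst φ x m + dst φ m y = dst φ x y) :
    ∃ γ : ℕ → G, IsGeo φ γ (dst φ x y) ∧ γ 0 = x ∧ γ (dst φ x m) = m ∧ γ (dst φ x y) = y := by
  obtain ⟨p₁, hp₁, hm⟩ := exists_geo_word hs x m
  obtain ⟨p₂, hp₂, hy⟩ := exists_geo_word hs m y
  have hl : (p₁ ++ p₂).length = dst φ x y := by rw [List.length_append]; omega
  have he : x * ev φ (p₁ ++ p₂) = y := by rw [ev_append, ← mul_assoc, hm, hy]
  have hg : ∀ i, i ≤ dst φ x y → dst φ x (x * ev φ ((p₁ ++ p₂).take i)) = i := by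
    intro i hi
    rw [geo_prefix hs (l := p₁ ++ p₂) (by rw [he, hl]) (List.take_prefix _ _), List.length_take]
    omega
  refine ⟨fun i => x * ev φ ((p₁ ++ p₂).take i), ?_, by simp, ?_, ?_⟩
  · intro i j hij hj
    have h1 := hg i (by omega)
    have h2 := hg j hj
    have h3 := dst_tri hs x (x * ev φ ((p₁ ++ p₂).take i)) (x * ev φ ((p₁ ++ p₂).take j))
    have h4 := dst_ev_le φ (x * ev φ ((p₁ ++ p₂).take i)) (((p₁ ++ p₂).take j).drop i)
    rw [mul_assoc, ← ev_append, ← take_prefix_take' _ hij, List.length_drop, List.length_take] at h4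
    show dst φ (x * ev φ ((p₁ ++ p₂).take i)) (x * ev φ ((p₁ ++ p₂).take j)) = j - i
    omega
  · show x * ev φ ((p₁ ++ p₂).take (dst φ x m)) = m
    rw [← hp₁, List.take_left', hm]; rfl
  · show x * ev φ ((p₁ ++ p₂).take (dst φ x y)) = y
    rw [← hl, List.take_length, he]

theorem IsGeo.rev {γ : ℕ → G} {n : ℕ} (h : IsGeo φ γ n) : IsGeo φ (fun i => γ (n - i)) n := by
  intro i j hij hj
  show dst φ (γ (n - i)) (γ (n - j)) = j - i
  rw [dst_symm hs, h _ _ (by omega) (by omega)]
  omega

theorem conn_geo {γ : ℕ → G} {n : ℕ} (h : IsGeo φ γ n) {m : G} {ρ : ℕ}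
    (hf : ∀ s, s ≤ n → ρ ≤ dst φ m (γ s)) (i : ℕ) : ∀ k, i + k ≤ n →
    Conn φ m ρ k (γ i) (γ (i + k)) := by
  intro k
  induction k with
  | zero => intro hk; exact Conn.refl _ (hf _ (by omega))
  | succ k ih =>
    intro hk
    refine (ih (by omega)).trans (conn_one hs ?_ (hf _ (by omega)) (hf _ hk))
    rw [h _ _ (by omega) hk]; omega

variable (φ) in
/-- a configuration of two points at the same level below the Gromov product. -/
def Cfg (w x y a b : G) : Prop :=
  dst φ w a + dst φ a x = dst φ w x ∧ dst φ w b + dst φ b y = dst φ w y ∧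
    dst φ w a = dst φ w b ∧ 2 * dst φ w a + dst φ x y ≤ dst φ w x + dst φ w y

theorem core {M : ℕ} (hD : Dehn φ M) {N D ρ : ℕ}
    (hN : ∀ w x y a b, Cfg φ w x y a b → dst φ w x + dst φ w y + dst φ x y ≤ N → dst φ a b ≤ D)
    {w x y a b : G} (hc : Cfg φ w x y a b) (hp : dst φ w x + dst φ w y + dst φ x y ≤ N)
    (hab : dst φ a b = D) (r : ℕ → G) (hr : IsGeo φ r (dst φ x y)) (hr0 : r 0 = x)
    (hr1 : r (dst φ x y) = y) (hfar : ∀ i, i ≤ dst φ x y → ρ ≤ dst φ a (r i)) (hρ : 2 * ρ ≤ D) :
    ρ ^ 2 ≤ 6 * M * (21 * D) := by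
  obtain ⟨c1, c2, c3, c4⟩ := hc
  obtain ⟨p, hpg, p0, pt, p1⟩ := exists_geo hs c1
  obtain ⟨q, hqg, q0, qt, q1⟩ := exists_geo hs c2
  have t1 := dst_tri hs w x y
  have t2 := dst_tri hs w y x
  have s1 := dst_symm hs x y
  have s2 := dst_symm hs w x
  have s3 := dst_symm hs w y
  generalize hnx : dst φ w x = nx at *
  generalize hny : dst φ w y = ny at *
  generalize hnxy : dst φ x y = nxy at *
  rw [← c3] at qt
  generalize ht : dst φ w a = t at *
  have pw : ∀ s, s ≤ nx → dst φ w (p s) = s ∧ dst φ (p s) x = nx - s ∧ dst φ x (p s) = nx - s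
      ∧ dst φ (p s) w = s := by
    intro s h
    have h1 := hpg 0 s (by omega) h
    have h2 := hpg s nx h le_rfl
    rw [p0] at h1; rw [p1] at h2
    exact ⟨h1, h2, by rw [dst_symm hs, h2], by rw [dst_symm hs, h1]; omega⟩
  have qw : ∀ s, s ≤ ny → dst φ w (q s) = s ∧ dst φ (q s) y = ny - s ∧ dst φ y (q s) = ny - s
      ∧ dst φ (q s) w = s := by
    intro s h
    have h1 := hqg 0 s (by omega) h
    have h2 := hqg s ny h le_rfl
    rw [q0] at h1; rw [q1] at h2
    exact ⟨h1, h2, by rw [dst_symm hs, h2], by rw [dst_symm hs, h1]; omega⟩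
  have rw' : ∀ s, s ≤ nxy → dst φ x (r s) = s ∧ dst φ (r s) y = nxy - s ∧ dst φ y (r s) = nxy - s
      ∧ dst φ (r s) x = s := by
    intro s h
    have h1 := hr 0 s (by omega) h
    have h2 := hr s nxy h le_rfl
    rw [hr0] at h1; rw [hr1] at h2
    exact ⟨h1, h2, by rw [dst_symm hs, h2], by rw [dst_symm hs, h1]; omega⟩
  have rung1 : ∀ s, 2 * s + nxy ≤ nx + ny → dst φ (p s) (q s) ≤ D := by
    intro s h
    obtain ⟨a1, a2, -⟩ := pw s (by omega)
    obtain ⟨b1, b2, -⟩ := qw s (by omega)
    exact hN w x y _ _ ⟨by omega, by omega, by omega, by omega⟩ (by omega)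
  have rung2 : ∀ s, s ≤ nx → nx + ny ≤ 2 * s + nxy → dst φ (p s) (r (nx - s)) ≤ D := by
    intro s h h'
    obtain ⟨a1, a2, a3, a4⟩ := pw s h
    obtain ⟨b1, b2, -⟩ := rw' (nx - s) (by omega)
    exact hN x w y _ _ ⟨by omega, by omega, by omega, by omega⟩ (by omega)
  have rung3 : ∀ s, s ≤ ny → nx + ny ≤ 2 * s + nxy → dst φ (q s) (r (nxy - (ny - s))) ≤ D := by
    intro s h h'
    obtain ⟨a1, a2, a3, a4⟩ := qw s h
    obtain ⟨b1, b2, b3, b4⟩ := rw' (nxy - (ny - s)) (by omega)
    exact hN y w x _ _ ⟨by omega, by omega, by omega, by omega⟩ (by omega)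
  have qlev : ∀ s, s ≤ ny → s ≤ t + dst φ a (q s) ∧ t ≤ s + dst φ a (q s) := by
    intro s h
    obtain ⟨a1, -⟩ := qw s h
    have h1 := dst_tri hs w a (q s)
    have h2 := dst_tri hs w (q s) a
    rw [dst_symm hs (q s) a] at h2
    omega
  have qfar : ∀ s, s ≤ ny → ρ ≤ dst φ a (q s) := by
    intro s h
    obtain ⟨h1, h2⟩ := qlev s h
    have h3 := dst_tri hs a (q s) b
    rw [← qt] at h3
    rcases le_total s t with hst | hst
    · rw [hqg s t hst (by omega), qt] at h3; omega
    · rw [dst_symm hs (q s), hqg t s hst h, qt] at h3; omega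
  have pa : ∀ s, s ≤ nx → dst φ a (p s) = (s - t) + (t - s) := by
    intro s h
    rw [← pt]
    rcases le_total s t with hst | hst
    · rw [dst_symm hs, hpg s t hst (by omega)]; omega
    · rw [hpg t s hst h]; omega
  -- lower rung
  have k1 : Conn φ a ρ D (p (t - 3 * D)) (q (t - 3 * D)) := by
    by_cases h : 3 * D ≤ t
    · exact conn_short hs (rung1 _ (by omega)) (by rw [pa _ (by omega)]; omega)
    · have : t - 3 * D = 0 := by omega
      rw [this, p0, q0]
      exact Conn.refl _ (q0 ▸ qfar 0 (by omega))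
  have k2 : Conn φ a ρ (6 * D) (q (t - 3 * D)) (q (min (t + 3 * D) ny)) := by
    have := conn_geo hs hqg qfar (t - 3 * D) (min (t + 3 * D) ny - (t - 3 * D)) (by omega)
    rw [show t - 3 * D + (min (t + 3 * D) ny - (t - 3 * D)) = min (t + 3 * D) ny by omega] at this
    exact this.mono (by omega)
  have k3 : Conn φ a ρ (8 * D) (q (min (t + 3 * D) ny)) (p (min (t + 3 * D) nx)) := by
    by_cases h : 2 * (t + 3 * D) + nxy ≤ nx + ny
    · rw [min_eq_left (by omega), min_eq_left (by omega)]
      have := qlev (t + 3 * D) (by omega)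
      exact (conn_short hs (n := D) (by rw [dst_symm hs]; exact rung1 _ h) (by omega)).mono
        (by omega)
    · have e1 : Conn φ a ρ D (q (min (t + 3 * D) ny)) (r (nxy - (ny - min (t + 3 * D) ny))) := by
        by_cases h' : t + 3 * D ≤ ny
        · rw [min_eq_left h']
          have := qlev (t + 3 * D) h'
          exact conn_short hs (rung3 _ h' (by omega)) (by omega)
        · rw [min_eq_right (by omega), q1, Nat.sub_self, Nat.sub_zero, hr1]
          exact Conn.refl _ (q1 ▸ qfar ny le_rfl)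
      have e2 : Conn φ a ρ D (p (min (t + 3 * D) nx)) (r (nx - min (t + 3 * D) nx)) := by
        by_cases h' : t + 3 * D ≤ nx
        · rw [min_eq_left h']
          exact conn_short hs (rung2 _ h' (by omega)) (by rw [pa _ h']; omega)
        · rw [min_eq_right (by omega), p1, Nat.sub_self, hr0]
          exact Conn.refl _ (hr0 ▸ hfar 0 (by omega))
      have e3 := conn_geo hs hr hfar (nx - min (t + 3 * D) nx)
        (nxy - (ny - min (t + 3 * D) ny) - (nx - min (t + 3 * D) nx)) (by omega)
      rw [show nx - min (t + 3 * D) nx + (nxy - (ny - min (t + 3 * D) ny) -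
        (nx - min (t + 3 * D) nx)) = nxy - (ny - min (t + 3 * D) ny) by omega] at e3
      exact ((e1.trans e3.symm).trans e2.symm).mono (by omega)
  have k4 := (k1.trans k2).trans k3
  have hd := hpg (t - 3 * D) (min (t + 3 * D) nx) (by omega) (by omega)
  have := key hs hD (u := p (t - 3 * D)) (m := a) (v := p (min (t + 3 * D) nx))
    (by rw [dst_symm hs, pa _ (by omega), pa _ (by omega), hd]; omega) k4
  refine this.trans (Nat.mul_le_mul_left _ (by omega))

theorem thin {M : ℕ} (hD : Dehn φ M) {w x y a b : G} (hc : Cfg φ w x y a b) :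
    dst φ a b ≤ 5000 * M + 10 := by
  classical
  set N := dst φ w x + dst φ w y + dst φ x y with hN
  let P : ℕ → Prop := fun D => ∀ w x y a b, Cfg φ w x y a b →
    dst φ w x + dst φ w y + dst φ x y ≤ N → dst φ a b ≤ D
  have hex : ∃ D, P D := by
    refine ⟨N, fun w x y a b ⟨c1, c2, c3, c4⟩ h => ?_⟩
    have := dst_tri hs a w b
    rw [dst_symm hs a w] at this
    omega
  have hP := Nat.find_spec hex
  refine (hP w x y a b hc le_rfl).trans ?_
  by_contra hlt
  set D := Nat.find hex with hDdef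
  have hnot : ¬ P (D - 1) := Nat.find_min hex (by omega)
  simp only [P, not_forall] at hnot
  obtain ⟨w, x, y, a, b, hc, hp, hab⟩ := hnot
  have hab' : dst φ a b = D := by have := hP w x y a b hc hp; omega
  obtain ⟨r, hr, r0, -, r1⟩ := exists_geo hs (x := x) (m := x) (y := y) (by rw [dst_self]; omega)
  have fin : ((D + 5) / 6) ^ 2 ≤ 6 * M * (21 * D) := by
    by_cases hfa : ∀ i, i ≤ dst φ x y → (D + 5) / 6 ≤ dst φ a (r i)
    · exact core hs hD hP hc hp hab' r hr r0 r1 hfa (by omega)
    by_cases hfb : ∀ i, i ≤ dst φ x y → (D + 5) / 6 ≤ dst φ b (r i)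
    · obtain ⟨c1, c2, c3, c4⟩ := hc
      have s1 := dst_symm hs x y
      refine core hs hD hP (w := w) (x := y) (y := x) (a := b) (b := a)
        ⟨c2, c1, c3.symm, by omega⟩ (by omega) (by rw [dst_symm hs, hab'])
        (fun i => r (dst φ x y - i)) (s1 ▸ hr.rev hs) (by simpa using r1)
        (by rw [← s1]; simpa using r0) (fun i _ => hfb _ (by omega)) (by omega)
    exfalso
    push Not at hfa hfb
    obtain ⟨i, hi, hia⟩ := hfa
    obtain ⟨j, hj, hjb⟩ := hfb
    obtain ⟨c1, c2, c3, c4⟩ := hc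
    have i1 := hr 0 i (by omega) hi
    have i2 := hr i _ hi le_rfl
    have j2 := hr j _ hj le_rfl
    rw [r0] at i1; rw [r1] at i2 j2
    have u1 := dst_tri hs x a (r i)
    have u2 := dst_tri hs a (r i) x
    have u3 := dst_tri hs b (r j) y
    have u4 := dst_tri hs (r j) b y
    have u5 := dst_tri hs w a (r i)
    have u6 := dst_tri hs w (r i) x
    have u7 := dst_tri hs w (r i) y
    have u8 := dst_tri hs a (r i) b
    have u9 := dst_tri hs (r i) (r j) b
    rw [dst_symm hs x a] at u1
    rw [dst_symm hs (r i) x] at u2 u6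
    rw [dst_symm hs (r j) b] at u4 u9
    rcases le_total i j with hij | hij
    · rw [hr i j hij hj] at u9; omega
    · rw [dst_symm hs (r i) (r j), hr j i hij hi] at u9; omega
  set ρ := (D + 5) / 6 with hρ
  have h1 : D ≤ 6 * ρ := by omega
  have h2 : 0 < ρ := by omega
  have h3 : ρ * ρ ≤ (756 * M) * ρ := by nlinarith
  have := Nat.le_of_mul_le_mul_right h3 h2
  omega

theorem four_point {M : ℕ} (hD : Dehn φ M) (w x y z : G) :
    dst φ w x + dst φ w y + dst φ x z ≤ dst φ x y + dst φ w x + dst φ w z + 2 * (5000 * M + 11) ∨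
    dst φ w y + dst φ w z + dst φ x z ≤ dst φ y z + dst φ w x + dst φ w z + 2 * (5000 * M + 11) := by
  obtain ⟨p, hp, p0, -, p1⟩ := exists_geo hs (x := w) (m := w) (y := x) (by rw [dst_self]; omega)
  obtain ⟨q, hq, q0, -, q1⟩ := exists_geo hs (x := w) (m := w) (y := y) (by rw [dst_self]; omega)
  obtain ⟨r, hr, r0, -, r1⟩ := exists_geo hs (x := w) (m := w) (y := z) (by rw [dst_self]; omega)
  have t1 := dst_tri hs w x y
  have t2 := dst_tri hs w y x
  have t3 := dst_tri hs w y z
  have t4 := dst_tri hs w z y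
  have t5 := dst_tri hs x w y
  have t6 := dst_tri hs y w z
  have s1 := dst_symm hs x y
  have s2 := dst_symm hs y z
  have s3 := dst_symm hs w x
  have s4 := dst_symm hs w y
  set t := min ((dst φ w x + dst φ w y - dst φ x y) / 2) ((dst φ w y + dst φ w z - dst φ y z) / 2)
    with ht
  have a1 := hp 0 t (by omega) (by omega)
  have a2 := hp t _ (by omega) le_rfl
  have b1 := hq 0 t (by omega) (by omega)
  have b2 := hq t _ (by omega) le_rfl
  have c1 := hr 0 t (by omega) (by omega)
  have c2 := hr t _ (by omega) le_rfl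
  rw [p0] at a1; rw [p1] at a2; rw [q0] at b1; rw [q1] at b2; rw [r0] at c1; rw [r1] at c2
  have e1 := thin hs hD (w := w) (x := x) (y := y) (a := p t) (b := q t)
    ⟨by omega, by omega, by omega, by omega⟩
  have e2 := thin hs hD (w := w) (x := y) (y := z) (a := q t) (b := r t)
    ⟨by omega, by omega, by omega, by omega⟩
  have u1 := dst_tri hs x (p t) z
  have u2 := dst_tri hs (p t) (q t) z
  have u3 := dst_tri hs (q t) (r t) z
  rw [dst_symm hs x (p t)] at u1
  omega

omit hs in
theorem wordLength_eq (S : Set G) (hS : S = Set.range φ) (g : G) :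
    Crest.GroupTheory.wordLength S g = len φ g := by
  unfold Crest.GroupTheory.wordLength len
  congr 1
  ext n
  simp only [Set.mem_ofPred_eq]
  constructor
  · rintro ⟨l, rfl, h, rfl⟩
    induction l with
    | nil => exact ⟨[], rfl, by simp⟩
    | cons x l ih =>
      obtain ⟨l', h1, h2⟩ := ih (fun y hy => h y (List.mem_cons_of_mem _ hy))
      rcases h x List.mem_cons_self with hx | hx
      · rw [hS] at hx
        obtain ⟨a, rfl⟩ := hx
        exact ⟨(a, true) :: l', by simp [h1], by rw [ev_cons, ev_true, h2, List.prod_cons]⟩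
      · rw [hS] at hx
        obtain ⟨a, ha⟩ := hx
        exact ⟨(a, false) :: l', by simp [h1], by
          rw [ev_cons, ev_false, h2, List.prod_cons, ha, inv_inv]⟩
  · rintro ⟨l, rfl, rfl⟩
    refine ⟨l.map fun d => ev φ [d], by simp, ?_, ?_⟩
    · intro x hx
      obtain ⟨⟨a, b⟩, -, rfl⟩ := List.mem_map.1 hx
      cases b
      · right; rw [ev_false, inv_inv, hS]; exact ⟨a, rfl⟩
      · left; rw [ev_true, hS]; exact ⟨a, rfl⟩
    · induction l with
      | nil => simp
      | cons d l ih => rw [List.map_cons, List.prod_cons, ih, ← ev_cons]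

theorem hyperbolic_of_dehn [Fintype A] {M : ℕ} (hD : Dehn φ M) :
    Crest.GroupTheory.IsHyperbolicGroup G := by
  classical
  refine ⟨Finset.univ.image φ, ?_, (5000 * M + 11 : ℕ), Nat.cast_nonneg _, fun w x y z => ?_⟩
  · rw [eq_top_iff]
    intro g _
    obtain ⟨l, rfl⟩ := hs g
    clear ‹_ ∈ ⊤›
    induction l with
    | nil => simp
    | cons d l ih =>
      rw [ev_cons]
      refine Subgroup.mul_mem _ ?_ ih
      obtain ⟨a, b⟩ := d
      cases b
      · rw [ev_false]; exact Subgroup.inv_mem _ (Subgroup.subset_closure (by simp))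
      · rw [ev_true]; exact Subgroup.subset_closure (by simp)
  · have hw : ∀ a b : G, Crest.GroupTheory.wordDist ((Finset.univ.image φ : Finset G) : Set G) a b
        = (dst φ a b : ℝ) := by
      intro a b
      unfold Crest.GroupTheory.wordDist dst
      rw [wordLength_eq (φ := φ) _ (by simp)]
    unfold Crest.GroupTheory.gromovProduct
    simp only [hw]
    rw [dst_symm hs x w, dst_symm hs y w, dst_symm hs z w]
    rcases four_point hs hD w x y z with h | h
    · have h' : ((dst φ w x + dst φ w y + dst φ x z : ℕ) : ℝ) ≤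
          (dst φ x y + dst φ w x + dst φ w z + 2 * (5000 * M + 11) : ℕ) := by exact_mod_cast h
      have := min_le_left (((dst φ w x : ℝ) + dst φ w y - dst φ x y) / 2)
        (((dst φ w y : ℝ) + dst φ w z - dst φ y z) / 2)
      push_cast at h' ⊢
      linarith
    · have h' : ((dst φ w y + dst φ w z + dst φ x z : ℕ) : ℝ) ≤
          (dst φ y z + dst φ w x + dst φ w z + 2 * (5000 * M + 11) : ℕ) := by exact_mod_cast h
      have := min_le_right (((dst φ w x : ℝ) + dst φ w y - dst φ x y) / 2)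
        (((dst φ w y : ℝ) + dst φ w z - dst φ y z) / 2)
      push_cast at h' ⊢
      linarith

end surj

end Crest.Agent.H6.SC
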