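import Crest.Agent.H6.SC3
import Crest.Agent.H6.SC4

/-! Small cancellation toolkit, part 5: the group of a small cancellation graph is hyperbolic and
torsion-free. -/

namespace Crest.Agent.H6.SC

open FreeGroup

variable {A V : Type} {Γ : LG A V} {g L : ℕ}

/-- the group presented by the labels of closed walks of `Γ`. -/
abbrev Grp (Γ : LG A V) : Type := PresentedGroup (rels Γ)

/-- the generators. -/
abbrev gen (Γ : LG A V) : A → Grp Γ := PresentedGroup.of

theorem ev_gen (l : List (A × Bool)) :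
    ev (gen Γ) l = PresentedGroup.mk (rels Γ) (FreeGroup.mk l) := by
  unfold ev
  congr 1
  ext a
  simp [PresentedGroup.of]

theorem ev_surj (x : Grp Γ) : ∃ l, ev (gen Γ) l = x := by
  classical
  obtain ⟨f, rfl⟩ := PresentedGroup.mk_surjective _ x
  exact ⟨f.toWord, by rw [ev_gen, mk_toWord]⟩

theorem ev_eq_one_iff (l : List (A × Bool)) :
    ev (gen Γ) l = 1 ↔ FreeGroup.mk l ∈ Subgroup.normalClosure (rels Γ) := by
  rw [ev_gen, PresentedGroup.mk_eq_one_iff]

theorem ev_closed {v : V} {l} (h : Walk Γ.E v l v) : ev (gen Γ) l = 1 :=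
  (ev_eq_one_iff l).2 (Subgroup.subset_normalClosure ⟨v, l, h, rfl⟩)

theorem ev_eq_of_walk {v w : V} {l l'} (h : Walk Γ.E v l w) (h' : Walk Γ.E v l' w) :
    ev (gen Γ) l = ev (gen Γ) l' := by
  have := ev_closed (h.append (Γ.walk_inv h'))
  rwa [ev_append, ev_invRev, mul_inv_eq_one] at this

/-- the standing small cancellation hypotheses. -/
structure SCH (Γ : LG A V) (g L : ℕ) : Prop where
  hG : Γ.Girth g
  hP : Γ.Pieces L
  hgL : 20 * L + 20 ≤ g
  hU : ∀ d, ∃ v w, Γ.E v d w

variable [Finite V]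

theorem SCH.sg (h : SCH Γ g L) (l) (hl : FreeGroup.IsReduced l) (hne : l ≠ [])
    (h1 : ev (gen Γ) l = 1) : SG Γ g L l :=
  greendlinger h.hG h.hP h.hgL h.hU l hl hne ((ev_eq_one_iff l).1 h1)

theorem SCH.ne_one (h : SCH Γ g L) (l) (hl : FreeGroup.IsReduced l) (hne : l ≠ [])
    (hlen : l.length ≤ 17 * L + 19) : ev (gen Γ) l ≠ 1 := by
  intro h1
  obtain ⟨l₁, u, l₂, k, v, w, rfl, -, -, -, h2⟩ := h.sg l hl hne h1
  have := h.hgL
  simp only [List.length_append] at hlen
  omega

theorem SCH.dehn (h : SCH Γ g L) : ∃ M, Dehn (gen Γ) M := by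
  classical
  have hfin : ∃ M : ℕ, ∀ v w l, Walk Γ.E v l w → len (gen Γ) (ev (gen Γ) l) ≤ M := by
    let f : V × V → ℕ := fun p =>
      if h : ∃ l, Walk Γ.E p.1 l p.2 then len (gen Γ) (ev (gen Γ) h.choose) else 0
    obtain ⟨M, hM⟩ := (Set.finite_range f).bddAbove
    refine ⟨M, fun v w l hl => ?_⟩
    have h1 : ∃ l, Walk Γ.E v l w := ⟨l, hl⟩
    have := hM ⟨(v, w), rfl⟩
    simp only [f, dif_pos h1] at this
    rwa [ev_eq_of_walk hl h1.choose_spec]
  obtain ⟨M, hM⟩ := hfin
  refine ⟨M, fun l hl hne h1 => ?_⟩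
  obtain ⟨l₁, u, l₂, k, v, w, rfl, hu, hk, h2, h3⟩ := h.sg l hl hne h1
  have := h.hgL
  refine ⟨l₁, u, l₂, k, rfl, ev_eq_of_walk hu hk, by omega, ?_, ?_, ?_⟩
  · rintro rfl; simp at h3; omega
  · rintro p ⟨t, rfl⟩
    obtain ⟨x, hx, -⟩ := walk_append.1 hu
    exact hM _ _ _ hx
  · rintro p ⟨t, rfl⟩
    obtain ⟨x, hx, -⟩ := walk_append.1 hk
    exact hM _ _ _ hx

theorem SCH.hyperbolic [Fintype A] (h : SCH Γ g L) :
    Crest.GroupTheory.IsHyperbolicGroup (Grp Γ) := by
  obtain ⟨M, hM⟩ := h.dehn
  exact hyperbolic_of_dehn ev_surj hM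

/-- segment of an infinite word. -/
def seg {α : Type} (f : ℕ → α) (s t : ℕ) : List α := (List.range' s t).map f

theorem seg_add {α : Type} (f : ℕ → α) (s t u : ℕ) :
    seg f s (t + u) = seg f s t ++ seg f (s + t) u := by
  unfold seg
  rw [← List.map_append, List.range'_append_1]

@[simp] theorem seg_length {α : Type} (f : ℕ → α) (s t : ℕ) : (seg f s t).length = t := by
  simp [seg]

theorem seg_congr {α : Type} (f f' : ℕ → α) (s s' t : ℕ)
    (h : ∀ i, i < t → f (s + i) = f' (s' + i)) : seg f s t = seg f' s' t := by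
  apply List.ext_getElem (by simp)
  intro i h1 h2
  simp only [seg, List.getElem_map, List.getElem_range', one_mul]
  exact h i (by simpa using h1)

theorem seg_factor {α : Type} (f : ℕ → α) {s t : ℕ} {l₁ u l₂ : List α}
    (h : seg f s t = l₁ ++ u ++ l₂) : u = seg f (s + l₁.length) u.length := by
  have ht : t = l₁.length + u.length + l₂.length := by
    have := congrArg List.length h
    simpa [add_assoc] using this
  rw [ht, seg_add, seg_add] at h
  have h1 := List.append_inj_left h (by simp)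
  exact (List.append_inj_right h1 (by simp)).symm

theorem seg_reduced (f : ℕ → A × Bool) (hf : ∀ i, f (i + 1) ≠ ((f i).1, !(f i).2)) (s t : ℕ) :
    FreeGroup.IsReduced (seg f s t) := by
  by_contra hr
  obtain ⟨l₁, l₂, d, h⟩ := exists_cancel_of_not_red hr
  have := seg_factor f (l₁ := l₁) (u := [d, (d.1, !d.2)]) (l₂ := l₂) (by simpa using h)
  simp only [seg, List.length_cons, List.length_nil, List.range', List.map_cons, List.map_nil,
    List.cons.injEq, and_true] at this
  exact hf (s + l₁.length) (by rw [← this.1, ← this.2])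

theorem SCH.torsionFree (h : SCH Γ g L) (x : Grp Γ) (hx : IsOfFinOrder x) : x = 1 := by
  classical
  by_contra hne
  have hex : ∃ n, ∃ l : List (A × Bool), l.length = n ∧ IsConj x (ev (gen Γ) l) := by
    obtain ⟨l, hl⟩ := ev_surj x
    exact ⟨_, l, rfl, by rw [hl]⟩
  obtain ⟨l, hl, hc⟩ := Nat.find_spec hex
  set n := Nat.find hex with hn
  have hmin : ∀ l' : List (A × Bool), IsConj x (ev (gen Γ) l') → n ≤ l'.length :=
    fun l' h' => Nat.find_min' hex ⟨l', rfl, h'⟩
  have hpos : 0 < n := by
    rcases Nat.eq_zero_or_pos n with h0 | h0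
    · rw [h0, List.length_eq_zero_iff] at hl
      subst hl
      simp only [ev_nil, isConj_one_left] at hc
      exact absurd hc hne
    · exact h0
  let f : ℕ → A × Bool := fun i => l[i % n]'(by rw [hl]; exact Nat.mod_lt _ hpos)
  have hper : ∀ i, f (i + n) = f i := fun i => by simp [f]
  have hseg : ∀ s t, seg f (s + n) t = seg f s t := fun s t =>
    seg_congr _ _ _ _ _ fun i _ => by rw [add_right_comm, hper]
  have h0 : seg f 0 n = l := by
    apply List.ext_getElem (by simp [hl])
    intro i h1 h2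
    simp only [seg, List.getElem_map, List.getElem_range', one_mul, zero_add, f]
    congr 1
    exact Nat.mod_eq_of_lt (by omega)
  have hconj : ∀ s, IsConj x (ev (gen Γ) (seg f s n)) := by
    intro s
    refine hc.trans (isConj_iff.2 ⟨(ev (gen Γ) (seg f 0 s))⁻¹, ?_⟩)
    have e1 := seg_add f 0 n s
    have e2 := seg_add f 0 s n
    rw [add_comm s n, e1, h0, hseg, zero_add] at e2
    have := congrArg (ev (gen Γ)) e2
    rw [ev_append, ev_append] at this
    rw [inv_inv, mul_assoc, this]; group
  have hf : ∀ i, f (i + 1) ≠ ((f i).1, !(f i).2) := by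
    intro i hi
    rcases Nat.lt_or_ge n 2 with h2 | h2
    · have : n = 1 := by omega
      have h3 := hper i
      rw [this, hi] at h3
      have := congrArg Prod.snd h3
      simp at this
    · have e := seg_add f i 2 (n - 2)
      rw [show 2 + (n - 2) = n by omega] at e
      have e' : seg f i n = [] ++ f i :: ((f i).1, !(f i).2) :: seg f (i + 2) (n - 2) := by
        rw [e, ← hi]; simp [seg, List.range']
      have := hconj i
      rw [e', ev_cancel] at this
      have := hmin _ this
      simp at this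
      omega
  obtain ⟨k, hk, hxk⟩ := isOfFinOrder_iff_pow_eq_one.1 hx
  have hpow : ∀ j, ev (gen Γ) (seg f 0 (j * n)) = ev (gen Γ) l ^ j := by
    intro j
    induction j with
    | zero => simp [seg]
    | succ j ih => rw [Nat.succ_mul, add_comm, seg_add, h0, hseg, ev_append, ih, pow_succ']
  have hone : ev (gen Γ) (seg f 0 (k * n)) = 1 := by
    rw [hpow]
    have := hc.pow k
    rwa [hxk, isConj_one_right] at this
  have hne' : seg f 0 (k * n) ≠ [] := by
    rw [← List.length_pos_iff, seg_length]; positivity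
  obtain ⟨l₁, u, l₂, κ, v, w, he, hu, hκ, h2, h3⟩ := h.sg _ (seg_reduced f hf _ _) hne' hone
  have hgL := h.hgL
  have hu' := seg_factor f he
  rw [zero_add] at hu'
  set s := l₁.length
  have hcs := hconj s
  rcases le_or_gt u.length n with hun | hun
  · have e := seg_add f s u.length (n - u.length)
    rw [show u.length + (n - u.length) = n by omega, ← hu'] at e
    rw [e, ev_append, ev_eq_of_walk hu hκ, ← ev_append] at hcs
    have := hmin _ hcs
    simp at this
    omega
  · have e1 := seg_add f s n (u.length - n)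
    have e2 := seg_add f s (u.length - n) n
    rw [show n + (u.length - n) = u.length by omega, ← hu', hseg] at e1
    rw [show (u.length - n) + n = u.length by omega, ← hu'] at e2
    obtain ⟨v₁, a1, a2⟩ := walk_append.1 (e1 ▸ hu)
    obtain ⟨v₂, b1, -⟩ := walk_append.1 (e2 ▸ hu)
    rcases le_or_gt (u.length - n) L with hL | hL
    · rw [ev_eq_of_walk a1 (hκ.append (Γ.walk_inv a2))] at hcs
      have := hmin _ hcs
      simp at this
      omega
    · obtain rfl := h.hP v₁ v _ _ _ (seg_reduced f hf _ _) a2 b1 (by simpa using hL)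
      rw [ev_closed a1, isConj_one_left] at hcs
      exact hne hcs

omit [Finite V] in
/-- a potential on the vertices. -/
theorem exists_potential : ∃ π : V → Grp Γ, ∀ v d w, Γ.E v d w → π w = π v * ev (gen Γ) [d] := by
  classical
  let r : Setoid V := ⟨fun v w => ∃ l, Walk Γ.E v l w, fun v => ⟨[], rfl⟩,
    fun ⟨l, h⟩ => ⟨_, Γ.walk_inv h⟩, fun ⟨l, h⟩ ⟨l', h'⟩ => ⟨_, h.append h'⟩⟩
  have hb : ∀ v, ∃ l, Walk Γ.E (Quotient.mk r v).out l v := fun v => Quotient.mk_out (s := r) v
  choose p hp using hb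
  refine ⟨fun v => ev (gen Γ) (p v), fun v d w h => ?_⟩
  have e : Quotient.mk r v = Quotient.mk r w := Quotient.sound ⟨[d], walk_single.2 h⟩
  have h1 := (hp v).append (walk_single.2 h)
  rw [e] at h1
  simp only
  rw [← ev_append, ev_eq_of_walk h1 (hp w)]

end Crest.Agent.H6.SC
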