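import Crest.Agent.H6.SC5

/-! Small cancellation toolkit, part 6: switching lemmas for graphs with prescribed links. -/

namespace Crest.Agent.H6.SC

open FreeGroup

set_option linter.unusedSectionVars false

variable {I V Y : Type} [DecidableEq I] [DecidableEq V] [DecidableEq Y]

/-- the edge traversed by a step. -/
def edge (v : V) (d : I × Bool) (w : V) : V × I × V := if d.2 then (v, d.1, w) else (w, d.1, v)

omit [DecidableEq I] [DecidableEq V] in
@[simp] theorem edge_true (v w : V) (j : I) : edge v (j, true) w = (v, j, w) := rfl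
omit [DecidableEq I] [DecidableEq V] in
@[simp] theorem edge_false (v w : V) (j : I) : edge v (j, false) w = (w, j, v) := rfl

omit [DecidableEq I] [DecidableEq V] in
theorem edge_inv (v w : V) (d : I × Bool) : edge w (d.1, !d.2) v = edge v d w := by
  obtain ⟨j, b⟩ := d
  cases b <;> rfl

omit [DecidableEq I] [DecidableEq V] in
theorem edge_eq {a b v w : V} {d : I × Bool} {j : I} (h : edge a d b = (v, j, w)) :
    (d = (j, true) ∧ a = v ∧ b = w) ∨ (d = (j, false) ∧ a = w ∧ b = v) := by
  obtain ⟨i, c⟩ := d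
  cases c <;> simp at h <;> simp [h]

/-- steps in an edge set. -/
def St (E : Finset (V × I × V)) (v : V) (d : I × Bool) (w : V) : Prop := edge v d w ∈ E

def Fold (E : Finset (V × I × V)) : Prop := ∀ v d w w', St E v d w → St E v d w' → w = w'

/-- the graph of a folded edge set. -/
def toLG (E : Finset (V × I × V)) (h : Fold E) : LG I V where
  E := St E
  symm := fun {v d w} h => by unfold St at *; rwa [edge_inv]
  det := fun {v d w w'} => h v d w w'

def Gir (E : Finset (V × I × V)) (g : ℕ) : Prop :=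
  ∀ v l, FreeGroup.IsReduced l → l ≠ [] → Walk (St E) v l v → g ≤ l.length

section
variable (link : V → Finset (I × Bool)) (lay : V → Y) (g : ℕ)

def Valid (e : V × I × V) : Prop :=
  lay e.1 = lay e.2.2 ∧ (e.2.1, true) ∈ link e.1 ∧ (e.2.1, false) ∈ link e.2.2

structure OK (E : Finset (V × I × V)) : Prop where
  valid : ∀ e ∈ E, Valid link lay e
  fold : Fold E
  gir : Gir E g

def Full (E : Finset (V × I × V)) : Prop := ∀ v d, d ∈ link v → ∃ w, St E v d w

def Near (E : Finset (V × I × V)) (v u : V) : Prop := ∃ l, l.length ≤ g ∧ Walk (St E) v l u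

end

variable {link : V → Finset (I × Bool)} {lay : V → Y} {g : ℕ}

omit [DecidableEq I] [DecidableEq V] [DecidableEq Y] in
theorem OK.step {E : Finset (V × I × V)} (h : OK link lay g E) {v d w} (hs : St E v d w) :
    lay v = lay w ∧ d ∈ link v ∧ (d.1, !d.2) ∈ link w := by
  obtain ⟨j, b⟩ := d
  have := h.valid _ hs
  cases b
  · exact ⟨this.1.symm, this.2.2, this.2.1⟩
  · exact this

omit [DecidableEq I] [DecidableEq V] [DecidableEq Y] in
theorem OK.mono {E E' : Finset (V × I × V)} (h : OK link lay g E) (hs : E' ⊆ E) :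
    OK link lay g E' :=
  ⟨fun e he => h.valid e (hs he), fun v d w w' a b => h.fold v d w w' (hs a) (hs b),
    fun v l a b c => h.gir v l a b (c.mono fun _ _ _ k => hs k)⟩

theorem walk_insert {E : Finset (V × I × V)} {e} : ∀ {l} {x y : V},
    Walk (St (insert e E)) x l y → Walk (St E) x l y ∨
      ∃ l₁ d l₂ a b, l = l₁ ++ d :: l₂ ∧ Walk (St E) x l₁ a ∧ edge a d b = e ∧
        Walk (St (insert e E)) b l₂ y := by
  intro l
  induction l with
  | nil => intro x y h; exact Or.inl h
  | cons d l ih =>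
    rintro x y ⟨u, hu, hw⟩
    rcases Finset.mem_insert.1 hu with h | h
    · exact Or.inr ⟨[], d, l, x, u, rfl, rfl, h, hw⟩
    · rcases ih hw with h' | ⟨l₁, d', l₂, a, b, rfl, h1, h2, h3⟩
      · exact Or.inl ⟨u, h, h'⟩
      · exact Or.inr ⟨d :: l₁, d', l₂, a, b, rfl, ⟨u, h, h1⟩, h2, h3⟩

omit [DecidableEq Y] in
theorem OK.add {E : Finset (V × I × V)} (h : OK link lay g E) {v w : V} {j : I}
    (hv : Valid link lay (v, j, w)) (h1 : ∀ w', (v, j, w') ∉ E) (h2 : ∀ v', (v', j, w) ∉ E)
    (h3 : ∀ l, FreeGroup.IsReduced l → Walk (St E) w l v → g ≤ l.length + 1) :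
    OK link lay g (insert (v, j, w) E) := by
  have h3' : ∀ l, Walk (St E) w l v → g ≤ l.length + 1 := by
    intro l hl
    have := h3 _ (isReduced_reduce l) ((toLG E h.fold).walk_reduce hl)
    have := reduce_length_le l
    omega
  have h3'' : ∀ l, Walk (St E) v l w → g ≤ l.length + 1 := by
    intro l hl
    simpa using h3' _ ((toLG E h.fold).walk_inv hl)
  refine ⟨?_, ?_, ?_⟩
  · intro e he
    rcases Finset.mem_insert.1 he with rfl | he
    · exact hv
    · exact h.valid e he
  · intro a d b b' k0 k0'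
    rcases Finset.mem_insert.1 k0 with k | k <;> rcases Finset.mem_insert.1 k0' with k' | k'
    · rcases edge_eq k with ⟨rfl, -, rfl⟩ | ⟨rfl, -, rfl⟩ <;>
        rcases edge_eq k' with ⟨e, -, rfl⟩ | ⟨e, -, rfl⟩ <;> simp_all
    · rcases edge_eq k with ⟨rfl, rfl, rfl⟩ | ⟨rfl, rfl, rfl⟩
      · exact absurd k' (h1 _)
      · exact absurd k' (h2 _)
    · rcases edge_eq k' with ⟨rfl, rfl, rfl⟩ | ⟨rfl, rfl, rfl⟩
      · exact absurd k (h1 _)
      · exact absurd k (h2 _)
    · exact h.fold a d b b' k k'
  · intro x l hl hne hw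
    rcases walk_insert hw with k | ⟨l₁, d, l₂, a, b, rfl, k1, k2, k3⟩
    · exact h.gir x l hl hne k
    rcases walk_insert k3 with k | ⟨m₁, d', m₂, a', b', rfl, k4, k5, -⟩
    · have k6 := k.append k1
      rcases edge_eq k2 with ⟨-, rfl, rfl⟩ | ⟨-, rfl, rfl⟩
      · have := h3' _ k6; simp at this ⊢; omega
      · have := h3'' _ k6; simp at this ⊢; omega
    · have hm : FreeGroup.IsReduced m₁ := hl.infix ⟨l₁ ++ [d], d' :: m₂, by simp⟩
      rcases edge_eq k2 with ⟨rfl, rfl, rfl⟩ | ⟨rfl, rfl, rfl⟩ <;>
        rcases edge_eq k5 with ⟨rfl, e, -⟩ | ⟨rfl, e, -⟩ <;> subst e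
      · have := h3' _ k4; simp at this ⊢; omega
      · have hne' : m₁ ≠ [] := by
          rintro rfl
          exact not_red_cancel l₁ m₂ (j, true) (by simpa using hl)
        have := h.gir _ _ hm hne' k4; simp; omega
      · have hne' : m₁ ≠ [] := by
          rintro rfl
          exact not_red_cancel l₁ m₂ (j, false) (by simpa using hl)
        have := h.gir _ _ hm hne' k4; simp; omega
      · have := h3'' _ k4; simp at this ⊢; omega

omit [DecidableEq Y] in
theorem OK.switch {E : Finset (V × I × V)} (h : OK link lay g E) {v v' s s' : V} {j : I}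
    (hv : Valid link lay (v, j, v')) (h1 : ∀ w', (v, j, w') ∉ E) (h2 : ∀ u, (u, j, v') ∉ E)
    (hf : (s, j, s') ∈ E) (hl : lay s' = lay v) (n1 : ¬ Near g E v s') (n2 : ¬ Near g E v' s') :
    OK link lay g (insert (s, j, v') (insert (v, j, s') (E.erase (s, j, s')))) := by
  have hsub : E.erase (s, j, s') ⊆ E := Finset.erase_subset _ _
  have hE1 := h.mono hsub
  have vf := h.valid _ hf
  have out_s : ∀ w', (s, j, w') ∉ E.erase (s, j, s') := by
    intro w' hw'
    obtain ⟨a, b⟩ := Finset.mem_erase.1 hw'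
    obtain rfl := h.fold s (j, true) w' s' b hf
    exact a rfl
  have in_s : ∀ u, (u, j, s') ∉ E.erase (s, j, s') := by
    intro u hu
    obtain ⟨a, b⟩ := Finset.mem_erase.1 hu
    obtain rfl := h.fold s' (j, false) u s b hf
    exact a rfl
  have mono : ∀ {x l y}, Walk (St (E.erase (s, j, s'))) x l y → Walk (St E) x l y :=
    fun k => k.mono fun _ _ _ k => hsub k
  have hE2 : OK link lay g (insert (v, j, s') (E.erase (s, j, s'))) := by
    refine hE1.add ⟨hl.symm, hv.2.1, vf.2.2⟩ (fun w' k => h1 w' (hsub k)) in_s ?_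
    intro l _ k
    by_contra hc
    exact n1 ⟨invRev l, by simp; omega, (toLG E h.fold).walk_inv (mono k)⟩
  refine hE2.add ⟨vf.1.trans (hl.trans hv.1), vf.2.1, hv.2.2⟩ ?_ ?_ ?_
  · intro w' k
    rcases Finset.mem_insert.1 k with k | k
    · simp only [Prod.mk.injEq, true_and] at k
      exact h1 s' (k.1 ▸ hf)
    · exact out_s w' k
  · intro u k
    rcases Finset.mem_insert.1 k with k | k
    · simp only [Prod.mk.injEq, true_and] at k
      exact h2 s (k.2 ▸ hf)
    · exact h2 u (hsub k)
  · intro l hr k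
    by_contra hc
    have hs : Walk (St E) s [(j, true)] s' := walk_single.2 hf
    have k' := (toLG _ hE2.fold).walk_inv k
    have hr' := IsReduced.invRev' hr
    have hlen : (invRev l).length + 1 < g := by simp; omega
    generalize invRev l = l' at k' hr' hlen
    rcases walk_insert k' with k | ⟨l₁, d, l₂, a, b, rfl, k1, k2, -⟩
    · exact n2 ⟨invRev l' ++ [(j, true)], by simp; omega,
        ((toLG E h.fold).walk_inv (mono k)).append hs⟩
    · simp only [List.length_append, List.length_cons] at hlen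
      rcases edge_eq k2 with ⟨-, rfl, rfl⟩ | ⟨-, rfl, rfl⟩
      · exact n1 ⟨invRev l₁ ++ [(j, true)], by simp; omega,
          ((toLG E h.fold).walk_inv (mono k1)).append hs⟩
      · have hred : FreeGroup.IsReduced ([(j, false)] ++ l₁) := by
          refine red_append IsReduced.singleton (red_left hr') ?_
          intro e he f hf' hef
          simp only [List.getLast?_singleton, Option.mem_def, Option.some.injEq] at he
          subst he
          cases l₁ with
          | nil => simp at hf'
          | cons f' l₁ =>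
            simp only [List.head?_cons, Option.mem_def, Option.some.injEq] at hf'
            subst hf'
            obtain ⟨t, ht, -⟩ := k1
            rw [hef] at ht
            exact out_s t ht
        have := h.gir a _ hred (by simp) (Walk.append (walk_single.2 hf) (mono k1))
        simp at this
        omega

variable [Fintype V]

open Classical in
/-- the vertices within distance `r`. -/
noncomputable def ball (E : Finset (V × I × V)) (r : ℕ) (v : V) : Finset V :=
  Finset.univ.filter fun u => Near r E v u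

omit [DecidableEq Y] in
theorem card_ball {w : ℕ} (hw : ∀ v, (link v).card ≤ w) {E : Finset (V × I × V)}
    (h : OK link lay g E) : ∀ r v, (ball E r v).card ≤ (w + 1) ^ r := by
  classical
  intro r
  induction r with
  | zero =>
    intro v
    rw [pow_zero, Finset.card_le_one]
    intro a ha b hb
    simp only [ball, Finset.mem_filter, Finset.mem_univ, true_and] at ha hb
    obtain ⟨l, hl, ha⟩ := ha
    obtain ⟨l', hl', hb⟩ := hb
    obtain rfl := List.length_eq_zero_iff.1 (Nat.le_zero.1 hl)
    obtain rfl := List.length_eq_zero_iff.1 (Nat.le_zero.1 hl')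
    exact ha.symm.trans hb
  | succ r ih =>
    intro v
    let nx : I × Bool → V := fun d => if k : ∃ u, St E v d u then k.choose else v
    have hsub : ball E (r + 1) v ⊆ insert v ((link v).biUnion fun d => ball E r (nx d)) := by
      intro u hu
      simp only [ball, Finset.mem_filter, Finset.mem_univ, true_and, Finset.mem_insert,
        Finset.mem_biUnion] at hu ⊢
      obtain ⟨l, hl, hu⟩ := hu
      cases l with
      | nil => exact Or.inl hu.symm
      | cons d l =>
        obtain ⟨t, ht, hu⟩ := hu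
        have k : ∃ u, St E v d u := ⟨t, ht⟩
        refine Or.inr ⟨d, (h.step ht).2.1, l, by simpa using hl, ?_⟩
        simp only [nx, dif_pos k]
        rwa [h.fold _ _ _ _ k.choose_spec ht]
    have h1 := Finset.card_le_card hsub
    have h2 := Finset.card_insert_le v ((link v).biUnion fun d => ball E r (nx d))
    have h3 := Finset.card_biUnion_le_card_mul (link v) (fun d => ball E r (nx d)) _
      (fun d _ => ih (nx d))
    have h4 := Nat.mul_le_mul_right ((w + 1) ^ r) (hw v)
    have h5 : 1 ≤ (w + 1) ^ r := Nat.one_le_pow _ _ (by omega)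
    rw [pow_succ]
    nlinarith

variable (link lay) in
/-- vertices of a layer with a given direction. -/
def slot (y : Y) (d : I × Bool) : Finset V := Finset.univ.filter fun v => lay v = y ∧ d ∈ link v

theorem exists_far {w : ℕ} (hw : ∀ v, (link v).card ≤ w) {E : Finset (V × I × V)}
    (h : OK link lay g E) (v v' : V) (T : Finset V) (s : Finset V) :
    s.card ≤ (s.filter fun u => u ∉ ball E g v ∧ u ∉ ball E g v' ∧ u ∉ T).card +
      (2 * (w + 1) ^ g + T.card) := by
  have hsub : s ⊆ (s.filter fun u => u ∉ ball E g v ∧ u ∉ ball E g v' ∧ u ∉ T) ∪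
      (ball E g v ∪ ball E g v' ∪ T) := by
    intro u hu
    simp only [Finset.mem_union, Finset.mem_filter]
    tauto
  have h1 := Finset.card_le_card hsub
  have h2 := Finset.card_union_le (s.filter fun u => u ∉ ball E g v ∧ u ∉ ball E g v' ∧ u ∉ T)
    (ball E g v ∪ ball E g v' ∪ T)
  have h3 := Finset.card_union_le (ball E g v ∪ ball E g v') T
  have h4 := Finset.card_union_le (ball E g v) (ball E g v')
  have h5 := card_ball hw h g v
  have h6 := card_ball hw h g v'
  omega

theorem not_mem_ball {E : Finset (V × I × V)} {r v u} : u ∉ ball E r v ↔ ¬ Near r E v u := by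
  simp [ball]

theorem unmatched {E : Finset (V × I × V)} (h : OK link lay g E)
    (hbal : ∀ y j, (slot link lay y (j, true)).card = (slot link lay y (j, false)).card)
    (hn : ¬ Full link E) : ∃ v j v', Valid link lay (v, j, v') ∧ (∀ w', (v, j, w') ∉ E) ∧
      ∀ u, (u, j, v') ∉ E := by
  classical
  unfold Full at hn
  push Not at hn
  obtain ⟨x, ⟨j, b⟩, hx, hn⟩ := hn
  let F := E.filter fun e => e.2.1 = j ∧ lay e.1 = lay x
  have c1 : (F.image fun e => e.1).card = F.card := by
    apply Finset.card_image_of_injOn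
    rintro ⟨a, i, b⟩ ha ⟨a', i', b'⟩ ha' (rfl : a = a')
    simp only [F, Finset.coe_filter, Set.mem_ofPred_eq] at ha ha'
    obtain ⟨k1, rfl, -⟩ := ha
    obtain ⟨k2, rfl, -⟩ := ha'
    rw [h.fold a (_, true) b b' k1 k2]
  have c2 : (F.image fun e => e.2.2).card = F.card := by
    apply Finset.card_image_of_injOn
    rintro ⟨a, i, b⟩ ha ⟨a', i', b'⟩ ha' (rfl : b = b')
    simp only [F, Finset.coe_filter, Set.mem_ofPred_eq] at ha ha'
    obtain ⟨k1, rfl, -⟩ := ha
    obtain ⟨k2, rfl, -⟩ := ha'
    rw [h.fold b (_, false) a a' k1 k2]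
  have s1 : (F.image fun e => e.1) ⊆ slot link lay (lay x) (j, true) := by
    intro a ha
    simp only [F, Finset.mem_image, Finset.mem_filter] at ha
    obtain ⟨e, ⟨k1, rfl, k2⟩, rfl⟩ := ha
    simp [slot, k2, (h.valid e k1).2.1]
  have s2 : (F.image fun e => e.2.2) ⊆ slot link lay (lay x) (j, false) := by
    intro a ha
    simp only [F, Finset.mem_image, Finset.mem_filter] at ha
    obtain ⟨e, ⟨k1, rfl, k2⟩, rfl⟩ := ha
    simp [slot, ← k2, (h.valid e k1).2.2, (h.valid e k1).1]
  have key : F.card < (slot link lay (lay x) (j, true)).card := by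
    cases b
    · rw [hbal, ← c2]
      refine Finset.card_lt_card ⟨s2, fun k => ?_⟩
      have := k (show x ∈ _ by simp [slot, hx])
      simp only [F, Finset.mem_image, Finset.mem_filter] at this
      obtain ⟨⟨a, i, b⟩, ⟨k1, rfl, -⟩, rfl⟩ := this
      exact hn a k1
    · rw [← c1]
      refine Finset.card_lt_card ⟨s1, fun k => ?_⟩
      have := k (show x ∈ _ by simp [slot, hx])
      simp only [F, Finset.mem_image, Finset.mem_filter] at this
      obtain ⟨⟨a, i, b⟩, ⟨k1, rfl, -⟩, rfl⟩ := this
      exact hn b k1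
  obtain ⟨v, hv, hv'⟩ := Finset.exists_mem_notMem_of_card_lt_card (c1 ▸ key)
  obtain ⟨v', hw, hw'⟩ := Finset.exists_mem_notMem_of_card_lt_card
    (show (F.image fun e => e.2.2).card < (slot link lay (lay x) (j, false)).card by
      rw [c2, ← hbal]; exact key)
  simp only [slot, Finset.mem_filter, Finset.mem_univ, true_and] at hv hw
  refine ⟨v, j, v', ⟨hv.1.trans hw.1.symm, hv.2, hw.2⟩, fun w' k => hv' ?_, fun u k => hw' ?_⟩
  · exact Finset.mem_image.2 ⟨_, Finset.mem_filter.2 ⟨k, rfl, hv.1⟩, rfl⟩
  · exact Finset.mem_image.2 ⟨_, Finset.mem_filter.2 ⟨k, rfl, (h.valid _ k).1.trans hw.1⟩, rfl⟩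

theorem exists_full [Fintype I] {w : ℕ} (hw : ∀ v, (link v).card ≤ w)
    (hbal : ∀ y j, (slot link lay y (j, true)).card = (slot link lay y (j, false)).card)
    (hlo : ∀ y d, 2 * (w + 1) ^ g < (slot link lay y d).card) :
    ∃ E, OK link lay g E ∧ Full link E := by
  classical
  have h0 : OK link lay g (∅ : Finset (V × I × V)) := by
    refine ⟨by simp, fun v d a b k => by simp [St] at k, fun v l _ hne k => ?_⟩
    cases l with
    | nil => exact absurd rfl hne
    | cons d l => obtain ⟨_, k, _⟩ := k; simp [St] at k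
  obtain ⟨E, hE, hmax⟩ := Finset.exists_max_image
    (Finset.univ.filter fun E : Finset (V × I × V) => OK link lay g E) Finset.card ⟨∅, by simpa⟩
  simp only [Finset.mem_filter, Finset.mem_univ, true_and] at hE hmax
  refine ⟨E, hE, ?_⟩
  by_contra hn
  obtain ⟨v, j, v', hv, h1, h2⟩ := unmatched hE hbal hn
  have := exists_far hw hE v v' ∅ (slot link lay (lay v) (j, false))
  have h3 := hlo (lay v) (j, false)
  obtain ⟨s', hs'⟩ : ((slot link lay (lay v) (j, false)).filter
      fun u => u ∉ ball E g v ∧ u ∉ ball E g v' ∧ u ∉ (∅ : Finset V)).Nonempty := by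
    rw [← Finset.card_pos]; simp only [Finset.card_empty] at this; omega
  simp only [slot, Finset.mem_filter, Finset.mem_univ, true_and, not_mem_ball] at hs'
  obtain ⟨⟨k1, k2⟩, k3, k4, -⟩ := hs'
  by_cases hm : ∃ s, (s, j, s') ∈ E
  · obtain ⟨s, hs⟩ := hm
    have := hmax _ (hE.switch hv h1 h2 hs k1 k3 k4)
    rw [Finset.card_insert_of_notMem, Finset.card_insert_of_notMem, Finset.card_erase_of_mem hs]
      at this
    · have := Finset.card_pos.2 ⟨_, hs⟩
      omega
    · exact fun k => h1 _ (Finset.mem_of_mem_erase k)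
    · intro k
      rcases Finset.mem_insert.1 k with k | k
      · simp only [Prod.mk.injEq, true_and] at k
        exact h1 s' (k.1 ▸ hs)
      · exact h2 _ (Finset.mem_of_mem_erase k)
  · push Not at hm
    have := hmax _ (hE.add (v := v) (j := j) (w := s') ⟨k1.symm, hv.2.1, k2⟩ h1 hm (by
      intro l _ k
      by_contra hc
      exact k3 ⟨invRev l, by simp; omega, (toLG E hE.fold).walk_inv k⟩))
    rw [Finset.card_insert_of_notMem (h1 _)] at this
    omega

variable (link lay g) in
open Classical in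
/-- the sample space. -/
noncomputable def Om [Fintype I] : Finset (Finset (V × I × V)) :=
  Finset.univ.filter fun E => OK link lay g E ∧ Full link E

theorem mem_Om [Fintype I] {E} : E ∈ Om link lay g ↔ OK link lay g E ∧ Full link E := by
  simp [Om]

theorem count_step [Fintype I] {w m κ : ℕ} (hw : ∀ v, (link v).card ≤ w)
    (hlo : ∀ y d, 2 * (w + 1) ^ g + κ + m ≤ (slot link lay y d).card)
    (S : Finset (V × I × V)) (hS : S.card ≤ κ) (e : V × I × V) (he : e ∉ S) :
    ((Om link lay g).filter fun E => insert e S ⊆ E).card * m ≤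
      ((Om link lay g).filter fun E => S ⊆ E).card := by
  classical
  obtain ⟨v, j, v'⟩ := e
  let C : Finset (V × I × V) → Finset (V × I × V) := fun E => E.filter fun f =>
    f.2.1 = j ∧ lay f.2.2 = lay v ∧ f.2.2 ∉ ball (E.erase (v, j, v')) g v ∧
      f.2.2 ∉ ball (E.erase (v, j, v')) g v' ∧ f.2.2 ∉ S.image fun e => e.2.2
  have hC : ∀ E ∈ (Om link lay g).filter fun E => insert (v, j, v') S ⊆ E, m ≤ (C E).card := by
    intro E hE
    obtain ⟨hE, -⟩ := Finset.mem_filter.1 hE
    obtain ⟨hE, hF⟩ := mem_Om.1 hE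
    have h1 := exists_far hw (hE.mono (Finset.erase_subset (v, j, v') E)) v v'
      (S.image fun e => e.2.2) (slot link lay (lay v) (j, false))
    have h2 := hlo (lay v) (j, false)
    have h3 : (S.image fun e => e.2.2).card ≤ S.card := Finset.card_image_le
    have h4 : ((slot link lay (lay v) (j, false)).filter fun u =>
        u ∉ ball (E.erase (v, j, v')) g v ∧ u ∉ ball (E.erase (v, j, v')) g v' ∧
        u ∉ S.image fun e => e.2.2) ⊆ (C E).image fun e => e.2.2 := by
      intro u hu
      obtain ⟨k1, k2⟩ := Finset.mem_filter.1 hu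
      simp only [slot, Finset.mem_filter, Finset.mem_univ, true_and] at k1
      obtain ⟨s, hs⟩ := hF u _ k1.2
      exact Finset.mem_image.2 ⟨(s, j, u), Finset.mem_filter.2 ⟨hs, rfl, k1.1, k2⟩, rfl⟩
    have h5 := Finset.card_le_card h4
    have h6 : ((C E).image fun e => e.2.2).card ≤ (C E).card := Finset.card_image_le
    omega
  have h1 : ((Om link lay g).filter fun E => insert (v, j, v') S ⊆ E).card * m ≤
      (((Om link lay g).filter fun E => insert (v, j, v') S ⊆ E).sigma C).card := by
    rw [Finset.card_sigma]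
    exact Finset.card_nsmul_le_sum _ _ _ hC
  refine h1.trans ?_
  let Φ : (Σ _ : Finset (V × I × V), V × I × V) → Finset (V × I × V) := fun p =>
    insert (p.2.1, j, v') (insert (v, j, p.2.2.2) ((p.1.erase (v, j, v')).erase p.2))
  have facts : ∀ E s i s', (⟨E, (s, i, s')⟩ : Σ _ : Finset (V × I × V), V × I × V) ∈
      ((Om link lay g).filter fun E => insert (v, j, v') S ⊆ E).sigma C →
      i = j ∧ Φ ⟨E, (s, i, s')⟩ ∈ ((Om link lay g).filter fun E => S ⊆ E) ∧
      E = insert (v, j, v') (insert (s, j, s')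
        (((Φ ⟨E, (s, i, s')⟩).erase (s, j, v')).erase (v, j, s'))) := by
    intro E s i s' hp
    obtain ⟨hE1, hf1⟩ := Finset.mem_sigma.1 hp
    obtain ⟨hE2, hsub⟩ := Finset.mem_filter.1 hE1
    obtain ⟨hE, hF⟩ := mem_Om.1 hE2
    obtain ⟨hf, hij, k1, k2, k3, k4⟩ := Finset.mem_filter.1 hf1
    clear hE1 hE2 hf1 hp
    simp only at hij
    subst hij
    simp only at hf k1 k2 k3 k4 hE hF hsub
    rw [not_mem_ball] at k2 k3
    have he' : (v, i, v') ∈ E := hsub (Finset.mem_insert_self _ _)
    have hE0 := hE.mono (Finset.erase_subset (v, i, v') E)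
    have hne : s' ≠ v' := by rintro rfl; exact k3 ⟨[], by simp, rfl⟩
    have hf0 : (s, i, s') ∈ E.erase (v, i, v') := Finset.mem_erase.2 ⟨by simp [hne], hf⟩
    have o1 : ∀ w', (v, i, w') ∉ E.erase (v, i, v') := by
      intro w' k
      obtain ⟨a, b⟩ := Finset.mem_erase.1 k
      obtain rfl := hE.fold v (i, true) w' v' b he'
      exact a rfl
    have o2 : ∀ u, (u, i, v') ∉ E.erase (v, i, v') := by
      intro u k
      obtain ⟨a, b⟩ := Finset.mem_erase.1 k
      obtain rfl := hE.fold v' (i, false) u v b he'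
      exact a rfl
    have hsv : s ≠ v := by rintro rfl; exact o1 _ hf0
    refine ⟨rfl, Finset.mem_filter.2 ⟨mem_Om.2 ⟨hE0.switch (hE.valid _ he') o1 o2 hf0 k1 k2 k3, ?_⟩,
      ?_⟩, ?_⟩
    · intro x d hd
      obtain ⟨y, hy⟩ := hF x d hd
      by_cases e1 : edge x d y = (v, i, v')
      · rcases edge_eq e1 with ⟨rfl, rfl, rfl⟩ | ⟨rfl, rfl, rfl⟩
        · exact ⟨s', by simp [St, Φ]⟩
        · exact ⟨s, by simp [St, Φ]⟩
      by_cases e2 : edge x d y = (s, i, s')
      · rcases edge_eq e2 with ⟨rfl, rfl, rfl⟩ | ⟨rfl, rfl, rfl⟩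
        · exact ⟨v', by simp [St, Φ]⟩
        · exact ⟨v, by simp [St, Φ]⟩
      · refine ⟨y, ?_⟩
        simp only [St, Φ, Finset.mem_insert, Finset.mem_erase]
        exact Or.inr (Or.inr ⟨e2, e1, hy⟩)
    · intro x hx
      simp only [Φ, Finset.mem_insert, Finset.mem_erase]
      refine Or.inr (Or.inr ⟨?_, ?_, hsub (Finset.mem_insert_of_mem hx)⟩)
      · rintro rfl; exact k4 (Finset.mem_image.2 ⟨_, hx, rfl⟩)
      · rintro rfl; exact he hx
    · simp only [Φ]
      rw [Finset.erase_insert, Finset.erase_insert, Finset.insert_erase hf0, Finset.insert_erase he']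
      · exact fun k => o1 _ (Finset.mem_of_mem_erase k)
      · intro k
        rcases Finset.mem_insert.1 k with k | k
        · simp only [Prod.mk.injEq, true_and] at k; exact hsv k.1
        · exact o2 _ (Finset.mem_of_mem_erase k)
  refine Finset.card_le_card_of_injOn Φ ?_ ?_
  · rintro ⟨E, s, i, s'⟩ hp
    exact (facts E s i s' hp).2.1
  · rintro ⟨E₁, s₁, i₁, s₁'⟩ hp₁ ⟨E₂, s₂, i₂, s₂'⟩ hp₂ heq
    obtain ⟨rfl, a1, a2⟩ := facts E₁ s₁ i₁ s₁' hp₁
    obtain ⟨rfl, b1, b2⟩ := facts E₂ s₂ i₂ s₂' hp₂
    have hfold := (mem_Om.1 (Finset.mem_filter.1 b1).1).1.fold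
    have e1 : s₁' = s₂' := hfold v (i₂, true) s₁' s₂' (by rw [← heq]; simp [St, Φ]) (by simp [St, Φ])
    have e2 : s₁ = s₂ := hfold v' (i₂, false) s₁ s₂ (by rw [← heq]; simp [St, Φ]) (by simp [St, Φ])
    subst e1 e2
    rw [heq] at a2
    rw [a2, ← b2]

theorem count [Fintype I] {w m κ : ℕ} (hw : ∀ v, (link v).card ≤ w)
    (hlo : ∀ y d, 2 * (w + 1) ^ g + κ + m ≤ (slot link lay y d).card)
    (S : Finset (V × I × V)) (hS : S.card ≤ κ) :
    ((Om link lay g).filter fun E => S ⊆ E).card * m ^ S.card ≤ (Om link lay g).card := by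
  induction S using Finset.induction_on with
  | empty => simp
  | insert e S he ih =>
    rw [Finset.card_insert_of_notMem he] at hS ⊢
    have h1 := count_step hw hlo S (by omega) e he
    have h2 := ih (by omega)
    rw [pow_succ', ← mul_assoc]
    exact (Nat.mul_le_mul_right _ h1).trans h2

end Crest.Agent.H6.SC
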