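import Crest.Agent.H6.SC6

/-! Small cancellation toolkit, part 7: existence of small cancellation graphs with prescribed
links (first moment bound for long pieces). -/

namespace Crest.Agent.H6.SC

open FreeGroup

set_option linter.unusedSectionVars false

theorem seg_succ {α : Type} (f : ℕ → α) (s k : ℕ) : seg f s (k + 1) = f s :: seg f (s + 1) k := by
  simp [seg, List.range'_succ]

@[simp] theorem seg_zero {α : Type} (f : ℕ → α) (s : ℕ) : seg f s 0 = [] := by simp [seg]

theorem mem_seg {α : Type} {f : ℕ → α} {s k : ℕ} {x} :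
    x ∈ seg f s k ↔ ∃ t, s ≤ t ∧ t < s + k ∧ f t = x := by
  simp [seg, and_assoc]

theorem exists_seg {α : Type} [Inhabited α] (l : List α) : ∃ c : ℕ → α, l = seg c 0 l.length := by
  refine ⟨fun t => l[t]!, ?_⟩
  apply List.ext_getElem (by simp)
  intro i h1 h2
  simp [seg, h1]

section walks
variable {A V : Type} {E : V → A × Bool → V → Prop}

theorem walk_seg (u : ℕ → V) (c : ℕ → A × Bool) : ∀ k s,
    (∀ t, s ≤ t → t < s + k → E (u t) (c t) (u (t + 1))) → Walk E (u s) (seg c s k) (u (s + k)) := by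
  intro k
  induction k with
  | zero => intro s _; simp
  | succ k ih =>
    intro s h
    rw [seg_succ]
    refine ⟨u (s + 1), h s le_rfl (by omega), ?_⟩
    have := ih (s + 1) (fun t h1 h2 => h t (by omega) (by omega))
    rwa [show s + 1 + k = s + (k + 1) by omega] at this

theorem exists_fun_of_walk (c : ℕ → A × Bool) : ∀ k s (v w : V), Walk E v (seg c s k) w →
    ∃ u : ℕ → V, u s = v ∧ ∀ t, s ≤ t → t < s + k → E (u t) (c t) (u (t + 1)) := by
  intro k
  induction k with
  | zero => intro s v w _; exact ⟨fun _ => v, rfl, fun t h1 h2 => by omega⟩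
  | succ k ih =>
    intro s v w h
    rw [seg_succ] at h
    obtain ⟨x, hx, h⟩ := h
    obtain ⟨u, hu, hu'⟩ := ih (s + 1) x w h
    refine ⟨fun t => if t = s then v else u t, by simp, fun t h1 h2 => ?_⟩
    by_cases ht : t = s
    · subst ht; simp [hu, hx]
    · simp only [ht, if_false, show t + 1 ≠ s by omega]
      exact hu' t (by omega) (by omega)

theorem seg_sub_reduced {c : ℕ → A × Bool} {n : ℕ} (h : FreeGroup.IsReduced (seg c 0 n))
    {s k : ℕ} (hk : s + k ≤ n) : FreeGroup.IsReduced (seg c s k) := by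
  obtain ⟨r, rfl⟩ := Nat.exists_eq_add_of_le hk
  rw [seg_add, seg_add, zero_add] at h
  exact red_right (red_left h)

theorem seg_red_ne {c : ℕ → A × Bool} {n : ℕ} (h : FreeGroup.IsReduced (seg c 0 n))
    {t : ℕ} (ht : t + 2 ≤ n) : c (t + 1) ≠ ((c t).1, !(c t).2) := by
  intro e
  have := seg_sub_reduced h ht
  rw [seg_succ, seg_succ, e] at this
  exact not_red_cancel [] _ _ this

end walks

variable {I V Y Λ : Type} [DecidableEq I] [DecidableEq V] [DecidableEq Y] [DecidableEq Λ]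
  [Fintype V] [Fintype I] [Inhabited I] [Inhabited V]
variable (link : V → Finset (I × Bool)) (lay : V → Y) (ty : V → Λ)

/-- potential walks. -/
def PW : ℕ → V → Finset (List ((I × Bool) × V))
  | 0, _ => {[]}
  | k + 1, x => (link x).biUnion fun d => (slot link lay (lay x) (d.1, !d.2)).biUnion fun y =>
      (PW k y).image (List.cons (d, y))

/-- vertices of given layer and type. -/
def cls (y : Y) (l : Λ) : Finset V := Finset.univ.filter fun v => lay v = y ∧ ty v = l

/-- potential walks with prescribed labels and types. -/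
def TW (y : Y) : List ((I × Bool) × Λ) → Finset (List ((I × Bool) × V))
  | [] => {[]}
  | p :: r => (cls lay ty y p.2).biUnion fun v => (TW y r).image (List.cons (p.1, v))

/-- the list of edges of a potential walk. -/
def edgesL : V → List ((I × Bool) × V) → List (V × I × V)
  | _, [] => []
  | x, p :: r => edge x p.1 p.2 :: edgesL p.2 r

def pat (α : List ((I × Bool) × V)) (L₀ : ℕ) : List ((I × Bool) × Λ) :=
  seg (fun t => ((α[t % α.length]!).1, ty (α[t % α.length]!).2)) 0 L₀

instance decPar : DecidableEq ((V × List ((I × Bool) × V)) × (V × List ((I × Bool) × V))) :=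
  @instDecidableEqProd _ _ inferInstance inferInstance

/-- parameter space of bad configurations. -/
def Par (L₀ s : ℕ) : Finset ((V × List ((I × Bool) × V)) × (V × List ((I × Bool) × V))) :=
  Finset.univ.biUnion fun x => (PW link lay s x).biUnion fun α => Finset.univ.biUnion fun y =>
    (TW lay ty (lay y) (pat ty α L₀)).image fun β => ((x, α), (y, β))

def SP (p : (V × List ((I × Bool) × V)) × (V × List ((I × Bool) × V))) : Finset (V × I × V) :=
  (edgesL p.1.1 p.1.2 ++ edgesL p.2.1 p.2.2).toFinset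

variable {link lay ty}

theorem card_PW {w M : ℕ} (hw : ∀ v, (link v).card ≤ w)
    (hM : ∀ y d, (slot link lay y d).card ≤ M) : ∀ k x, (PW link lay k x).card ≤ (w * M) ^ k := by
  intro k
  induction k with
  | zero => intro x; simp [PW]
  | succ k ih =>
    intro x
    refine (Finset.card_biUnion_le_card_mul _ _ (M * (w * M) ^ k) fun d _ => ?_).trans ?_
    · refine (Finset.card_biUnion_le_card_mul _ _ ((w * M) ^ k) fun y _ => ?_).trans ?_
      · exact Finset.card_image_le.trans (ih y)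
      · exact Nat.mul_le_mul_right _ (hM _ _)
    · rw [pow_succ', mul_assoc]
      exact Nat.mul_le_mul_right _ (hw x)

theorem card_TW {M : ℕ} (hM : ∀ y l, (cls lay ty y l).card ≤ M) (y : Y) :
    ∀ r : List ((I × Bool) × Λ), (TW lay ty y r).card ≤ M ^ r.length := by
  intro r
  induction r with
  | nil => simp [TW]
  | cons p r ih =>
    refine (Finset.card_biUnion_le_card_mul _ _ (M ^ r.length) fun v _ => ?_).trans ?_
    · exact Finset.card_image_le.trans ih
    · rw [List.length_cons, pow_succ']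
      exact Nat.mul_le_mul_right _ (hM _ _)

theorem card_Par {w M M₀ : ℕ} (hw : ∀ v, (link v).card ≤ w)
    (hM : ∀ y d, (slot link lay y d).card ≤ M) (hM₀ : ∀ y l, (cls lay ty y l).card ≤ M₀)
    (L₀ s : ℕ) : (Par link lay ty L₀ s).card ≤
      Fintype.card V * ((w * M) ^ s * (Fintype.card V * M₀ ^ L₀)) := by
  refine Finset.card_biUnion_le_card_mul _ _ _ fun x _ => ?_
  refine (Finset.card_biUnion_le_card_mul _ _ (Fintype.card V * M₀ ^ L₀) fun α _ => ?_).trans
    (Nat.mul_le_mul_right _ (card_PW hw hM s x))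
  refine Finset.card_biUnion_le_card_mul _ _ _ fun y _ => Finset.card_image_le.trans ?_
  have := card_TW hM₀ (lay y) (pat ty α L₀)
  simpa [pat] using this

theorem seg_mem_PW (a : ℕ → V) (c : ℕ → I × Bool) : ∀ k s,
    (∀ t, s ≤ t → t < s + k → lay (a t) = lay (a (t + 1)) ∧ c t ∈ link (a t) ∧
      ((c t).1, !(c t).2) ∈ link (a (t + 1))) →
    seg (fun t => (c t, a (t + 1))) s k ∈ PW link lay k (a s) := by
  intro k
  induction k with
  | zero => intro s _; simp [PW]
  | succ k ih =>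
    intro s h
    obtain ⟨h1, h2, h3⟩ := h s le_rfl (by omega)
    rw [seg_succ]
    simp only [PW, Finset.mem_biUnion, Finset.mem_image]
    exact ⟨c s, h2, a (s + 1), by simp [slot, h1, h3], _,
      ih (s + 1) (fun t k1 k2 => h t (by omega) (by omega)), rfl⟩

theorem seg_mem_TW (y : Y) (b : ℕ → V) (c : ℕ → I × Bool) (τ : ℕ → Λ) : ∀ k s,
    (∀ t, s ≤ t → t < s + k → lay (b (t + 1)) = y ∧ ty (b (t + 1)) = τ t) →
    seg (fun t => (c t, b (t + 1))) s k ∈ TW lay ty y (seg (fun t => (c t, τ t)) s k) := by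
  intro k
  induction k with
  | zero => intro s _; simp [TW]
  | succ k ih =>
    intro s h
    obtain ⟨h1, h2⟩ := h s le_rfl (by omega)
    rw [seg_succ, seg_succ]
    simp only [TW, Finset.mem_biUnion, Finset.mem_image]
    exact ⟨b (s + 1), by simp [cls, h1, h2], _,
      ih (s + 1) (fun t k1 k2 => h t (by omega) (by omega)), rfl⟩

theorem edgesL_seg (a : ℕ → V) (c : ℕ → I × Bool) : ∀ k s,
    edgesL (a s) (seg (fun t => (c t, a (t + 1))) s k) =
      seg (fun t => edge (a t) (c t) (a (t + 1))) s k := by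
  intro k
  induction k with
  | zero => intro s; simp [edgesL]
  | succ k ih => intro s; rw [seg_succ, seg_succ, edgesL, ih]

theorem edge_ends {a b a' b' : V} {d d' : I × Bool} (h : edge a d b = edge a' d' b') :
    (a = a' ∧ b = b') ∨ (a = b' ∧ b = a') := by
  obtain ⟨j, c⟩ := d'
  cases c
  · rcases edge_eq h with ⟨-, h1, h2⟩ | ⟨-, h1, h2⟩
    · exact Or.inr ⟨h1, h2⟩
    · exact Or.inl ⟨h1, h2⟩
  · rcases edge_eq h with ⟨-, h1, h2⟩ | ⟨-, h1, h2⟩
    · exact Or.inl ⟨h1, h2⟩
    · exact Or.inr ⟨h1, h2⟩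

theorem nodup_edges (a : ℕ → V) (c : ℕ → I × Bool) (k : ℕ)
    (ha : ∀ t t', t ≤ k → t' ≤ k → a t = a t' → t = t') :
    (seg (fun t => edge (a t) (c t) (a (t + 1))) 0 k).Nodup := by
  refine List.Nodup.map_on ?_ (List.nodup_range' ..)
  intro t ht t' ht' h
  simp only [List.mem_range'_1, zero_add] at ht ht'
  rcases edge_ends h with ⟨h1, -⟩ | ⟨h1, h2⟩
  · exact ha _ _ (by omega) (by omega) h1
  · have := ha _ _ (by omega) (by omega) h1
    have := ha _ _ (by omega) (by omega) h2
    omega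

variable {g : ℕ}

theorem config_mem {E : Finset (V × I × V)} (hE : OK link lay g E) {L₀ s : ℕ} (hs : 1 ≤ s)
    (a b : ℕ → V) (c : ℕ → I × Bool)
    (h1 : ∀ t, t < s → St E (a t) (c t) (a (t + 1)))
    (h2 : ∀ t, t < L₀ → St E (b t) (c (t % s)) (b (t + 1)))
    (h3 : ∀ t, t < L₀ → ty (b (t + 1)) = ty (a (t % s + 1)))
    (ha : ∀ t t', t ≤ s → t' ≤ s → a t = a t' → t = t')
    (hb : ∀ t t', t ≤ L₀ → t' ≤ L₀ → b t = b t' → t = t')
    (hab : ∀ t t', t ≤ s → t' < L₀ → a t ≠ b (t' + 1)) :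
    ∃ p ∈ Par link lay ty L₀ s, SP p ⊆ E ∧ (SP p).card = s + L₀ := by
  have hlay : ∀ t, t ≤ L₀ → lay (b t) = lay (b 0) := by
    intro t
    induction t with
    | zero => intro _; rfl
    | succ t ih => intro ht; rw [← ih (by omega), (hE.step (h2 t (by omega))).1]
  refine ⟨((a 0, seg (fun t => (c t, a (t + 1))) 0 s),
    (b 0, seg (fun t => (c (t % s), b (t + 1))) 0 L₀)), ?_, ?_, ?_⟩
  · simp only [Par, Finset.mem_biUnion, Finset.mem_univ, true_and, Finset.mem_image]
    refine ⟨a 0, _, seg_mem_PW a c s 0 (fun t _ ht => hE.step (h1 t (by omega))), b 0, _, ?_, rfl⟩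
    have e : pat ty (seg (fun t => (c t, a (t + 1))) 0 s) L₀ =
        seg (fun t => (c (t % s), ty (a (t % s + 1)))) 0 L₀ := by
      apply seg_congr
      intro i _
      have hi : i % s < s := Nat.mod_lt _ hs
      simp [seg, hi]
    rw [e]
    exact seg_mem_TW (lay (b 0)) b (fun t => c (t % s)) (fun t => ty (a (t % s + 1))) L₀ 0
      (fun t _ ht => ⟨hlay _ (by omega), h3 t (by omega)⟩)
  · intro e he
    simp only [SP, List.toFinset_append, Finset.mem_union, List.mem_toFinset] at he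
    rw [edgesL_seg a c, edgesL_seg b (fun t => c (t % s))] at he
    rcases he with he | he
    · obtain ⟨t, -, ht, rfl⟩ := mem_seg.1 he
      exact h1 t (by omega)
    · obtain ⟨t, -, ht, rfl⟩ := mem_seg.1 he
      exact h2 t (by omega)
  · simp only [SP]
    rw [edgesL_seg a c, edgesL_seg b (fun t => c (t % s)), List.toFinset_card_of_nodup]
    · simp
    · rw [List.nodup_append]
      refine ⟨nodup_edges a c s ha, nodup_edges b _ L₀ hb, ?_⟩
      intro e he e' he' hee
      obtain ⟨t, -, ht, rfl⟩ := mem_seg.1 he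
      obtain ⟨t', -, ht', rfl⟩ := mem_seg.1 he'
      rcases edge_ends hee with ⟨-, k⟩ | ⟨k, -⟩
      · exact hab _ _ (by omega) (by omega) k
      · exact hab _ _ (by omega) (by omega) k

theorem bad_config
    (htwo : ∀ v v' d d', d ≠ d' → d ∈ link v → d' ∈ link v → d ∈ link v' → d' ∈ link v' →
      ty v = ty v')
    {E : Finset (V × I × V)} (hE : OK link lay g E) {L₀ : ℕ} (hL₀ : 1 ≤ L₀)
    (hg : 6 * L₀ + 10 < g) (hbad : ¬ (toLG E hE.fold).Pieces (3 * L₀ + 4)) :
    ∃ s, 1 ≤ s ∧ s ≤ L₀ + 1 ∧ ∃ p ∈ Par link lay ty L₀ s, SP p ⊆ E ∧ (SP p).card = s + L₀ := by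
  unfold LG.Pieces at hbad
  push Not at hbad
  obtain ⟨v, v', l, w, w', hl, hw, hw', hlen, hne⟩ := hbad
  obtain ⟨c, hc⟩ := exists_seg l
  obtain ⟨r, hr⟩ := Nat.exists_eq_add_of_le (show 3 * L₀ + 5 ≤ l.length from hlen)
  rw [hc, hr, seg_add] at hl hw hw'
  have hred := red_left hl
  obtain ⟨x, hw, -⟩ := walk_append.1 hw
  obtain ⟨x', hw', -⟩ := walk_append.1 hw'
  obtain ⟨u, rfl, hu⟩ := exists_fun_of_walk c _ _ _ _ hw
  obtain ⟨u', rfl, hu'⟩ := exists_fun_of_walk c _ _ _ _ hw'
  replace hu : ∀ t, t < 3 * L₀ + 5 → St E (u t) (c t) (u (t + 1)) :=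
    fun t ht => hu t (by omega) (by omega)
  replace hu' : ∀ t, t < 3 * L₀ + 5 → St E (u' t) (c t) (u' (t + 1)) :=
    fun t ht => hu' t (by omega) (by omega)
  have ws : ∀ z : ℕ → V, (∀ t, t < 3 * L₀ + 5 → St E (z t) (c t) (z (t + 1))) →
      ∀ s k, s + k ≤ 3 * L₀ + 5 → Walk (St E) (z s) (seg c s k) (z (s + k)) :=
    fun z hz s k hk => walk_seg z c k s fun t _ ht => hz t (by omega)
  have inj : ∀ z : ℕ → V, (∀ t, t < 3 * L₀ + 5 → St E (z t) (c t) (z (t + 1))) →
      ∀ t t', t ≤ 3 * L₀ + 5 → t' ≤ 3 * L₀ + 5 → z t = z t' → t = t' := by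
    intro z hz
    have : ∀ t t', t < t' → t' ≤ 3 * L₀ + 5 → z t ≠ z t' := by
      intro t t' h1 h2 e
      have k := ws z hz t (t' - t) (by omega)
      rw [show t + (t' - t) = t' by omega, ← e] at k
      have := hE.gir _ _ (seg_sub_reduced hred (by omega))
        (by rw [← List.length_pos_iff, seg_length]; omega) k
      rw [seg_length] at this
      omega
    intro t t' h1 h2 e
    rcases lt_trichotomy t t' with h | h | h
    · exact absurd e (this _ _ h h2)
    · exact h
    · exact absurd e.symm (this _ _ h h1)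
  have hdiag : ∀ t, t ≤ 3 * L₀ + 5 → u t ≠ u' t := by
    intro t ht e
    have k1 := ws u hu 0 t (by omega)
    have k2 := ws u' hu' 0 t (by omega)
    rw [zero_add] at k1 k2
    rw [← e] at k2
    exact hne ((toLG E hE.fold).walk_det' k1 k2)
  have types : ∀ z z' : ℕ → V, (∀ t, t < 3 * L₀ + 5 → St E (z t) (c t) (z (t + 1))) →
      (∀ t, t < 3 * L₀ + 5 → St E (z' t) (c t) (z' (t + 1))) →
      ∀ t t', t + 2 ≤ 3 * L₀ + 5 → t' + 2 ≤ 3 * L₀ + 5 → c t = c t' → c (t + 1) = c (t' + 1) →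
      ty (z (t + 1)) = ty (z' (t' + 1)) := by
    intro z z' hz hz' t t' h1 h2 e1 e2
    refine htwo _ _ (c (t + 1)) ((c t).1, !(c t).2) (seg_red_ne hred h1)
      (hE.step (hz _ (by omega))).2.1 (hE.step (hz _ (by omega))).2.2 ?_ ?_
    · rw [e2]; exact (hE.step (hz' _ (by omega))).2.1
    · rw [e1]; exact (hE.step (hz' _ (by omega))).2.2
  have caseA : ∀ o, o + L₀ + 1 ≤ 3 * L₀ + 4 →
      (∀ t t', t ≤ L₀ + 1 → t' ≤ L₀ + 1 → u (o + t) ≠ u' (o + t')) →
      ∃ s, 1 ≤ s ∧ s ≤ L₀ + 1 ∧ ∃ p ∈ Par link lay ty L₀ s, SP p ⊆ E ∧ (SP p).card = s + L₀ := by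
    intro o ho h
    refine ⟨L₀, hL₀, by omega, config_mem hE hL₀ (fun t => u (o + t)) (fun t => u' (o + t))
      (fun t => c (o + t)) (fun t ht => hu _ (by omega)) (fun t ht => ?_) (fun t ht => ?_)
      (fun t t' k1 k2 e => ?_) (fun t t' k1 k2 e => ?_) (fun t t' k1 k2 => h _ _ (by omega) (by omega))⟩
    · rw [Nat.mod_eq_of_lt ht]; exact hu' _ (by omega)
    · rw [Nat.mod_eq_of_lt ht]
      exact types u' u hu' hu (o + t) (o + t) (by omega) (by omega) rfl rfl
    · have := inj u hu _ _ (by omega) (by omega) e; omega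
    · have := inj u' hu' _ _ (by omega) (by omega) e; omega
  have caseB : ∀ p s k, 1 ≤ s → p + s ≤ L₀ + 1 → L₀ + 2 ≤ k →
      (∀ i, i < k → c (p + i) = c (p + s + i)) →
      ∃ s, 1 ≤ s ∧ s ≤ L₀ + 1 ∧ ∃ p ∈ Par link lay ty L₀ s, SP p ⊆ E ∧ (SP p).card = s + L₀ := by
    intro p s k hs hp hk h
    have per : ∀ i, i < k + s → c (p + i) = c (p + i % s) := by
      intro i
      induction i using Nat.strong_induction_on with
      | _ i ih =>
        intro hi
        rcases lt_or_ge i s with h1 | h1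
        · rw [Nat.mod_eq_of_lt h1]
        · obtain ⟨j, rfl⟩ := Nat.exists_eq_add_of_le h1
          rw [← add_assoc, ← h j (by omega), ih j (by omega) (by omega), Nat.add_mod_left]
    have hm : ∀ t, t % s < s := fun t => Nat.mod_lt _ hs
    refine ⟨s, hs, by omega, config_mem hE hs (fun t => u (p + t)) (fun t => u (p + s + t))
      (fun t => c (p + t)) (fun t ht => hu _ (by omega)) (fun t ht => ?_) (fun t ht => ?_)
      (fun t t' k1 k2 e => ?_) (fun t t' k1 k2 e => ?_) (fun t t' k1 k2 e => ?_)⟩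
    · have := hu (p + s + t) (by omega)
      rwa [← h t (by omega), per t (by omega)] at this
    · have := hm t
      refine types u u hu hu (p + s + t) (p + t % s) (by omega) (by omega) ?_ ?_
      · rw [← h t (by omega), per t (by omega)]
      · rw [add_assoc (p + s), ← h (t + 1) (by omega), per (t + 1) (by omega), add_assoc,
          per (t % s + 1) (by omega), Nat.mod_add_mod]
    · have := inj u hu _ _ (by omega) (by omega) e; omega
    · have := inj u hu _ _ (by omega) (by omega) e; omega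
    · have := inj u hu _ _ (by omega) (by omega) e; omega
  by_cases hA : ∀ t t', t ≤ L₀ + 1 → t' ≤ L₀ + 1 → u (0 + t) ≠ u' (0 + t')
  · exact caseA 0 (by omega) hA
  by_cases hA' : ∀ t t', t ≤ L₀ + 1 → t' ≤ L₀ + 1 → u (2 * L₀ + 3 + t) ≠ u' (2 * L₀ + 3 + t')
  · exact caseA _ (by omega) hA'
  push Not at hA hA'
  obtain ⟨t₁, t₁', a1, a2, a3⟩ := hA
  obtain ⟨t₂, t₂', b1, b2, b3⟩ := hA'
  rw [zero_add, zero_add] at a3
  have k1 := ws u hu t₁ (2 * L₀ + 3 + t₂ - t₁) (by omega)
  have k2 := ws u' hu' t₁' (2 * L₀ + 3 + t₂' - t₁') (by omega)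
  rw [show t₁ + (2 * L₀ + 3 + t₂ - t₁) = 2 * L₀ + 3 + t₂ by omega, a3, b3] at k1
  rw [show t₁' + (2 * L₀ + 3 + t₂' - t₁') = 2 * L₀ + 3 + t₂' by omega] at k2
  have heq := LG.Girth.unique (Γ := toLG E hE.fold) hE.gir (seg_sub_reduced hred (by omega))
    (seg_sub_reduced hred (by omega)) k1 k2 (by simp; omega)
  have hlen' := congrArg List.length heq
  simp only [seg_length] at hlen'
  rw [← hlen'] at heq
  have hc' : ∀ i, i < 2 * L₀ + 3 + t₂ - t₁ → c (t₁ + i) = c (t₁' + i) := by
    intro i hi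
    have := congrArg (fun l => l[i]?) heq
    simpa [seg, hi] using this
  rcases lt_trichotomy t₁ t₁' with h | h | h
  · refine caseB t₁ (t₁' - t₁) (2 * L₀ + 3 + t₂ - t₁) (by omega) (by omega) (by omega) (fun i hi => ?_)
    rw [hc' i hi]; congr 1; omega
  · subst h; exact absurd a3 (hdiag _ (by omega))
  · refine caseB t₁' (t₁ - t₁') (2 * L₀ + 3 + t₂ - t₁) (by omega) (by omega) (by omega) (fun i hi => ?_)
    rw [← hc' i hi]; congr 1; omega

/-- **Existence of small cancellation graphs with prescribed links.** -/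
theorem exists_graph {w m M₀ L₀ : ℕ} (hw : ∀ v, (link v).card ≤ w)
    (htwo : ∀ v v' d d', d ≠ d' → d ∈ link v → d' ∈ link v → d ∈ link v' → d' ∈ link v' →
      ty v = ty v')
    (hbal : ∀ y j, (slot link lay y (j, true)).card = (slot link lay y (j, false)).card)
    (hlo : ∀ y d, 2 * (w + 1) ^ g + (2 * L₀ + 1) + m ≤ (slot link lay y d).card)
    (hhi : ∀ y d, (slot link lay y d).card ≤ 4 * m)
    (hM₀ : ∀ y l, (cls lay ty y l).card ≤ M₀) (hL₀ : 1 ≤ L₀) (hg : 6 * L₀ + 10 < g) (hw1 : 1 ≤ w)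
    (hnum : (L₀ + 1) * (Fintype.card V ^ 2 * (4 * w) ^ (L₀ + 1) * M₀ ^ L₀) < m ^ L₀) :
    ∃ Γ : LG I V, (∀ v d u, Γ.E v d u → lay v = lay u ∧ d ∈ link v) ∧
      (∀ v d, d ∈ link v → ∃ u, Γ.E v d u) ∧ Γ.Girth g ∧ Γ.Pieces (3 * L₀ + 4) := by
  classical
  by_contra hcon
  have hm : 0 < m := by
    rcases Nat.eq_zero_or_pos m with rfl | h
    · rw [zero_pow (by omega)] at hnum; omega
    · exact h
  obtain ⟨E₀, hE₀⟩ := exists_full (g := g) hw hbal (fun y d => by have := hlo y d; omega)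
  have hpos : 0 < (Om link lay g).card := Finset.card_pos.2 ⟨E₀, mem_Om.2 hE₀⟩
  let B : ℕ → Finset (Finset (V × I × V)) := fun s =>
    ((Par link lay ty L₀ s).filter fun p => (SP p).card = s + L₀).biUnion fun p =>
      (Om link lay g).filter fun E => SP p ⊆ E
  have hsub : Om link lay g ⊆ (Finset.Icc 1 (L₀ + 1)).biUnion B := by
    intro E hE
    obtain ⟨h1, h2⟩ := mem_Om.1 hE
    have hbad : ¬ (toLG E h1.fold).Pieces (3 * L₀ + 4) := fun h =>
      hcon ⟨toLG E h1.fold, fun v d u k => ⟨(h1.step k).1, (h1.step k).2.1⟩, h2, h1.gir, h⟩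
    obtain ⟨s, k1, k2, p, k3, k4, k5⟩ := bad_config htwo h1 hL₀ hg hbad
    simp only [B, Finset.mem_biUnion, Finset.mem_Icc, Finset.mem_filter]
    exact ⟨s, ⟨k1, k2⟩, p, ⟨k3, k5⟩, hE, k4⟩
  have hB : ∀ s ∈ Finset.Icc 1 (L₀ + 1), (B s).card * m ^ L₀ ≤
      (Fintype.card V ^ 2 * (4 * w) ^ (L₀ + 1) * M₀ ^ L₀) * (Om link lay g).card := by
    intro s hs
    rw [Finset.mem_Icc] at hs
    have h1 : (B s).card * m ^ (s + L₀) ≤ (Par link lay ty L₀ s).card * (Om link lay g).card := by
      refine (Nat.mul_le_mul_right _ Finset.card_biUnion_le).trans ?_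
      rw [Finset.sum_mul]
      refine (Finset.sum_le_card_nsmul _ _ (Om link lay g).card fun p hp => ?_).trans ?_
      · have hp' := (Finset.mem_filter.1 hp).2
        have := count hw hlo (SP p) (by omega)
        rwa [hp'] at this
      · exact Nat.mul_le_mul_right _ (Finset.card_filter_le _ _)
    have h2 := card_Par hw hhi hM₀ L₀ s
    have h3 : (4 * w) ^ s ≤ (4 * w) ^ (L₀ + 1) := Nat.pow_le_pow_right (by omega) hs.2
    refine Nat.le_of_mul_le_mul_right ?_ (pow_pos hm s)
    calc (B s).card * m ^ L₀ * m ^ s = (B s).card * m ^ (s + L₀) := by ring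
      _ ≤ _ := h1
      _ ≤ Fintype.card V * ((w * (4 * m)) ^ s * (Fintype.card V * M₀ ^ L₀)) *
          (Om link lay g).card := Nat.mul_le_mul_right _ h2
      _ = Fintype.card V ^ 2 * (4 * w) ^ s * M₀ ^ L₀ * (Om link lay g).card * m ^ s := by
          rw [show w * (4 * m) = 4 * w * m by ring, mul_pow]; ring
      _ ≤ _ := by gcongr
  have h1 := (Finset.card_le_card hsub).trans Finset.card_biUnion_le
  have h2 := Nat.mul_le_mul_right (m ^ L₀) h1
  rw [Finset.sum_mul] at h2
  have h3 := h2.trans (Finset.sum_le_card_nsmul _ _ _ hB)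
  simp only [Nat.card_Icc, add_tsub_cancel_right, smul_eq_mul] at h3
  have h4 := Nat.mul_lt_mul_of_pos_right hnum hpos
  nlinarith

end Crest.Agent.H6.SC
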