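import Mathlib

/-! Small cancellation toolkit, part 8: the `p`-rank deficiency of lines in affine spaces over
fields of characteristic `p`. -/

namespace Crest.Agent.H6.SC

open Polynomial

section
variable {k : Type} [Field k] [Fintype k]

theorem sum_eval_eq_zero (P : k[X]) (h : P.natDegree < Fintype.card k - 1) :
    ∑ s : k, P.eval s = 0 := by
  simp only [eval_eq_sum_range]
  rw [Finset.sum_comm]
  refine Finset.sum_eq_zero fun i hi => ?_
  rw [← Finset.mul_sum, FiniteField.sum_pow_lt_card_sub_one k i (by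
    rw [Finset.mem_range] at hi; omega), mul_zero]

theorem sum_monomial_line {p b N Q : ℕ} [Fact p.Prime] [CharP k p] {σ : Type} [Fintype σ]
    (hQ : Q = p ^ b)
    (hcard : Fintype.card k = Q ^ N) (hσ : Fintype.card σ ≤ Q) (hb : 2 ≤ Q)
    (U : Fin N → σ → Fin Q) (j₀ : Fin N) (hU : ∀ o, (U j₀ o : ℕ) = 0) (A B : σ → k) :
    ∑ t : k, ∏ o, (B o + t * A o) ^ (∑ j : Fin N, (U j o : ℕ) * Q ^ (j : ℕ)) = 0 := by
  classical
  have hN : 0 < N := j₀.pos
  have hj₀ := j₀.2
  have hfrob : ∀ (n : ℕ) (x y : k), (x + y) ^ Q ^ n = x ^ Q ^ n + y ^ Q ^ n := by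
    intro n x y
    rw [hQ, ← pow_mul, add_pow_char_pow]
  have hinj : Function.Injective fun s : k => s ^ Q ^ (N - 1 - j₀) := by
    intro x y hxy
    simp only at hxy
    have : (x - y) ^ Q ^ (N - 1 - j₀) = 0 := by
      rw [hQ, ← pow_mul, sub_pow_char_pow, pow_mul, ← hQ, hxy, sub_self]
    exact sub_eq_zero.1 (pow_eq_zero_iff (by positivity) |>.1 this)
  have hbij := (Finite.injective_iff_bijective).1 hinj
  rw [← (Equiv.ofBijective _ hbij).sum_comp]
  let e : Fin N → ℕ := fun j => (N - 1 - j₀ + j) % N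
  have hpow : ∀ (s : k) (j : Fin N), (s ^ Q ^ (N - 1 - j₀)) ^ Q ^ (j : ℕ) = s ^ Q ^ e j := by
    intro s j
    rw [← pow_mul, ← pow_add]
    simp only [e]
    rcases lt_or_ge (N - 1 - j₀ + j) N with h | h
    · rw [Nat.mod_eq_of_lt h]
    · have hj := j.2
      rw [Nat.mod_eq_sub_mod h, Nat.mod_eq_of_lt (by omega)]
      conv_lhs => rw [show N - 1 - j₀ + j = N + (N - 1 - j₀ + j - N) by omega, pow_add, pow_mul,
        ← hcard, FiniteField.pow_card]
  let P : k[X] := ∏ o, ∏ j : Fin N,
    (C (B o ^ Q ^ (j : ℕ)) + C (A o ^ Q ^ (j : ℕ)) * X ^ Q ^ e j) ^ (U j o : ℕ)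
  have hP : ∀ s : k, ∏ o, (B o + (Equiv.ofBijective _ hbij s) * A o) ^
      (∑ j : Fin N, (U j o : ℕ) * Q ^ (j : ℕ)) = P.eval s := by
    intro s
    simp only [P, eval_prod, eval_pow, eval_add, eval_mul, eval_C, eval_X, Equiv.ofBijective_apply]
    refine Finset.prod_congr rfl fun o _ => ?_
    rw [← Finset.prod_pow_eq_pow_sum]
    refine Finset.prod_congr rfl fun j _ => ?_
    rw [mul_comm (U j o : ℕ), pow_mul, hfrob, mul_pow, hpow, mul_comm]
  refine (Finset.sum_congr rfl fun s _ => hP s).trans ?_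
  apply sum_eval_eq_zero
  have hdeg : P.natDegree ≤ ∑ o : σ, ∑ j : Fin N, (U j o : ℕ) * Q ^ e j := by
    refine (natDegree_prod_le _ _).trans (Finset.sum_le_sum fun o _ => ?_)
    refine (natDegree_prod_le _ _).trans (Finset.sum_le_sum fun j _ => ?_)
    refine natDegree_pow_le.trans (Nat.mul_le_mul_left _ ?_)
    refine (natDegree_add_le _ _).trans (max_le (by simp) ?_)
    exact (natDegree_C_mul_le _ _).trans (by simp)
  have hgeo : (∑ i ∈ Finset.range (N - 1), Q ^ i) * (Q - 1) + 1 = Q ^ (N - 1) := by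
    have := geom_sum_mul_add (Q - 1) (N - 1)
    rwa [show Q - 1 + 1 = Q by omega] at this
  have h1 : ∀ o, ∑ j : Fin N, (U j o : ℕ) * Q ^ e j ≤ Q ^ (N - 1) - 1 := by
    intro o
    rw [← Finset.add_sum_erase _ _ (Finset.mem_univ j₀), hU, zero_mul, zero_add]
    have einj : Set.InjOn e (Finset.univ.erase j₀ : Finset (Fin N)) := by
      intro i _ j _ h
      simp only [e] at h
      have hi := i.2
      have hj := j.2
      apply Fin.ext
      rcases lt_or_ge (N - 1 - j₀ + i) N with h1 | h1 <;>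
        rcases lt_or_ge (N - 1 - j₀ + j) N with h2 | h2
      · rw [Nat.mod_eq_of_lt h1, Nat.mod_eq_of_lt h2] at h; omega
      · rw [Nat.mod_eq_of_lt h1, Nat.mod_eq_sub_mod h2, Nat.mod_eq_of_lt (by omega)] at h; omega
      · rw [Nat.mod_eq_of_lt h2, Nat.mod_eq_sub_mod h1, Nat.mod_eq_of_lt (by omega)] at h; omega
      · rw [Nat.mod_eq_sub_mod h1, Nat.mod_eq_sub_mod h2, Nat.mod_eq_of_lt (by omega),
          Nat.mod_eq_of_lt (by omega)] at h
        omega
    have hsub : (Finset.univ.erase j₀).image e ⊆ Finset.range (N - 1) := by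
      intro x hx
      obtain ⟨j, hj, rfl⟩ := Finset.mem_image.1 hx
      have hne : (j : ℕ) ≠ j₀ := fun h => (Finset.mem_erase.1 hj).1 (Fin.ext h)
      have hj := j.2
      simp only [e, Finset.mem_range]
      rcases lt_or_ge (N - 1 - j₀ + j) N with h2 | h2
      · rw [Nat.mod_eq_of_lt h2]; omega
      · rw [Nat.mod_eq_sub_mod h2, Nat.mod_eq_of_lt (by omega)]; omega
    calc ∑ j ∈ Finset.univ.erase j₀, (U j o : ℕ) * Q ^ e j
        ≤ ∑ j ∈ Finset.univ.erase j₀, Q ^ e j * (Q - 1) := Finset.sum_le_sum fun j _ => by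
          rw [mul_comm]; exact Nat.mul_le_mul_left _ (by have := (U j o).2; omega)
      _ = (∑ i ∈ (Finset.univ.erase j₀).image e, Q ^ i) * (Q - 1) := by
          rw [Finset.sum_image einj, Finset.sum_mul]
      _ ≤ (∑ i ∈ Finset.range (N - 1), Q ^ i) * (Q - 1) :=
          Nat.mul_le_mul_right _ (Finset.sum_le_sum_of_subset hsub)
      _ ≤ _ := by omega
  have h2 := hdeg.trans (Finset.sum_le_card_nsmul _ _ _ fun o _ => h1 o)
  rw [Finset.card_univ, smul_eq_mul] at h2
  have h3 := h2.trans (Nat.mul_le_mul_right _ hσ)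
  have h4 : Q ^ N = Q * Q ^ (N - 1) := by rw [← pow_succ']; congr 1; omega
  have h5 : 0 < Q ^ (N - 1) := by positivity
  rw [hcard, h4]
  obtain ⟨r, hr⟩ : ∃ r, Q ^ (N - 1) = r + 1 := ⟨Q ^ (N - 1) - 1, by omega⟩
  rw [hr] at h3 ⊢
  rw [Nat.add_sub_cancel] at h3
  rw [mul_add]
  omega

end

theorem exists_pow_small (R c : ℕ) (hR : 1 ≤ R) : ∃ N, 1 ≤ N ∧ c * (R - 1) ^ N < R ^ N := by
  have hR' : (0 : ℝ) < R := by exact_mod_cast hR
  have h1 : ((R - 1 : ℕ) : ℝ) / R < 1 := by
    rw [div_lt_one hR']; exact_mod_cast (by omega : R - 1 < R)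
  have h := tendsto_pow_atTop_nhds_zero_of_lt_one (by positivity) h1
  have h2 := h.eventually (gt_mem_nhds (show (0 : ℝ) < 1 / (c + 1) by positivity))
  obtain ⟨N, hN, hN1⟩ := (h2.and (Filter.eventually_ge_atTop 1)).exists
  refine ⟨N, hN1, ?_⟩
  rw [div_pow, div_lt_div_iff₀ (by positivity) (by positivity)] at hN
  have : ((c * (R - 1) ^ N : ℕ) : ℝ) < (R ^ N : ℕ) := by
    push_cast
    have : (0 : ℝ) ≤ ((R - 1 : ℕ) : ℝ) ^ N := by positivity
    nlinarith
  exact_mod_cast this

/-- the functions summing to zero on all (non-vertical) lines have small codimension. -/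
theorem exists_geom (p : ℕ) [hp : Fact p.Prime] (a c : ℕ) :
    ∃ (k : Type) (_ : Field k) (_ : Fintype k) (_ : CharP k p),
      ∃ Z : Submodule k (k × (Fin a → k) → k),
        (∀ z ∈ Z, ∀ α β : Fin a → k, ∑ t : k, z (t, β + t • α) = 0) ∧
        c * Fintype.card k ^ (a + 1) < c * Module.finrank k Z + Fintype.card k ^ (a + 1) := by
  classical
  have hp1 := hp.out.one_lt
  set Q := p ^ (a + 1) with hQ
  have hQa : a + 1 < Q := Nat.lt_pow_self hp1
  obtain ⟨N, hN, hsmall⟩ := exists_pow_small (Q ^ (a + 1)) c (Nat.one_le_pow _ _ (by omega))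
  let k := GaloisField p ((a + 1) * N)
  let _ : Fintype k := Fintype.ofFinite k
  have hcard : Fintype.card k = Q ^ N := by
    rw [← Nat.card_eq_fintype_card, GaloisField.card p _ (by positivity), pow_mul]
  let σ := Option (Fin a)
  let crd : k × (Fin a → k) → σ → k := fun x o => o.elim x.1 x.2
  let ι := {U : Fin N → σ → Fin Q // ∃ j, ∀ o, (U j o : ℕ) = 0}
  let ex : ι → σ → ℕ := fun U o => ∑ j : Fin N, (U.1 j o : ℕ) * Q ^ (j : ℕ)
  let f : ι → (k × (Fin a → k) → k) := fun U x => ∏ o, crd x o ^ ex U o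
  have hex : ∀ U o, ex U o = (finFunctionFinEquiv fun j => U.1 j o : ℕ) := fun U o =>
    (finFunctionFinEquiv_apply _).symm
  have exinj : Function.Injective ex := by
    intro U U' h
    apply Subtype.ext
    funext j o
    have := congrFun h o
    rw [hex, hex] at this
    exact congrFun (finFunctionFinEquiv.injective (Fin.ext this)) j
  have hli : LinearIndependent k f := by
    rw [Fintype.linearIndependent_iff]
    intro g hg U
    let m : ι → (σ →₀ ℕ) := fun U => Finsupp.equivFunOnFinite.symm (ex U)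
    have minj : Function.Injective m := Finsupp.equivFunOnFinite.symm.injective.comp exinj
    have h0 : (∑ U, MvPolynomial.monomial (m U) (g U) : MvPolynomial σ k) = 0 := by
      apply MvPolynomial.eq_zero_of_eval_eq_zero
      · intro v
        have := congrFun hg (v none, fun i => v (some i))
        simp only [Finset.sum_apply, Pi.smul_apply, smul_eq_mul, Pi.zero_apply, f] at this
        rw [map_sum, ← this]
        refine Finset.sum_congr rfl fun U _ => ?_
        rw [MvPolynomial.eval_monomial, Finsupp.prod_fintype _ _ (by simp)]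
        congr 1
        refine Finset.prod_congr rfl fun o _ => ?_
        cases o <;> rfl
      · refine Submodule.sum_mem _ fun U _ => ?_
        rw [MvPolynomial.mem_restrictDegree]
        intro s hs o
        have := MvPolynomial.support_monomial_subset hs
        rw [Finset.mem_singleton] at this
        subst this
        have h1 : m U o = ex U o := rfl
        rw [h1, hex, hcard]
        have := (finFunctionFinEquiv fun j => U.1 j o).2
        omega
    have := congrArg (MvPolynomial.coeff (m U)) h0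
    rw [MvPolynomial.coeff_sum, Finset.sum_eq_single U] at this
    · simpa using this
    · intro U' _ hne
      rw [MvPolynomial.coeff_monomial, if_neg (fun h => hne (minj h))]
    · simp
  refine ⟨k, inferInstance, inferInstance, inferInstance, Submodule.span k (Set.range f), ?_, ?_⟩
  · intro z hz α β
    induction hz using Submodule.span_induction with
    | mem z hz =>
      obtain ⟨⟨U, j₀, hU⟩, rfl⟩ := hz
      have := sum_monomial_line (k := k) (p := p) (b := a + 1) (N := N) (σ := σ) hQ hcard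
        (by simp [σ]; omega) (by omega) U j₀ hU (fun o => o.elim 1 α) (fun o => o.elim 0 β)
      rw [← this]
      refine Finset.sum_congr rfl fun t _ => Finset.prod_congr rfl fun o _ => ?_
      cases o <;> simp [crd, ex, hQ]
    | zero => simp
    | add x y _ _ hx hy => simp [Finset.sum_add_distrib, hx, hy]
    | smul r x _ hx => simp [← Finset.mul_sum, hx]
  · rw [finrank_span_eq_card hli, hcard, ← pow_mul, mul_comm N, pow_mul]
    have hσ : Fintype.card (σ → Fin Q) = Q ^ (a + 1) := by simp [σ]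
    have h1 : Fintype.card (Fin N → σ → Fin Q) = (Q ^ (a + 1)) ^ N := by
      rw [Fintype.card_fun, hσ, Fintype.card_fin]
    have h2 := Fintype.card_subtype_compl (fun U : Fin N → σ → Fin Q => ∃ j, ∀ o, (U j o : ℕ) = 0)
    have h3 : Fintype.card {U : Fin N → σ → Fin Q // ¬ ∃ j, ∀ o, (U j o : ℕ) = 0} ≤
        (Q ^ (a + 1) - 1) ^ N := by
      let z : σ → Fin Q := fun _ => ⟨0, by omega⟩
      have : Fintype.card (Fin N → {V : σ → Fin Q // V ≠ z}) = (Q ^ (a + 1) - 1) ^ N := by
        rw [Fintype.card_fun, Fintype.card_fin, Fintype.card_subtype_compl, hσ]; simp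
      rw [← this]
      refine Fintype.card_le_of_injective
        (fun U j => ⟨U.1 j, fun h => U.2 ⟨j, fun o => by rw [h]⟩⟩) ?_
      intro U U' h
      apply Subtype.ext
      funext j
      exact congrArg Subtype.val (congrFun h j)
    have h4 : Fintype.card ι ≤ Fintype.card (Fin N → σ → Fin Q) := Fintype.card_subtype_le _
    rw [h1] at h2 h4
    have h5 : (Q ^ (a + 1)) ^ N ≤ Fintype.card ι + (Q ^ (a + 1) - 1) ^ N := by
      simp only [ι]; omega
    have h6 := Nat.mul_le_mul_left c h5
    rw [mul_add] at h6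
    omega

end Crest.Agent.H6.SC
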