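import Crest.Agent.H6.SC7
import Crest.Agent.H6.SC8

/-! Small cancellation toolkit, part 9: the line geometry graph, relabelling, and the
dimension count in finite quotients. -/

namespace Crest.Agent.H6.SC

open FreeGroup

section relabel
variable {A I V : Type} {Γ₀ : LG I V} {Γ : LG A V} {fg : A → I}
  (h1 : ∀ v d w, Γ.E v d w → Γ₀.E v (fg d.1, d.2) w)
  (h2 : ∀ v d d' w, Γ.E v d w → Γ.E v d' w → (fg d.1, d.2) = (fg d'.1, d'.2) → d = d')
include h1

theorem walk_forget : ∀ {l v w}, Walk Γ.E v l w →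
    Walk Γ₀.E v (l.map fun d => (fg d.1, d.2)) w := by
  intro l
  induction l with
  | nil => intro v w h; exact h
  | cons d l ih => rintro v w ⟨u, h, h'⟩; exact ⟨u, h1 _ _ _ h, ih h'⟩

include h2

theorem red_forget : ∀ {l v w}, Walk Γ.E v l w → FreeGroup.IsReduced l →
    FreeGroup.IsReduced (l.map fun d => (fg d.1, d.2)) := by
  intro l
  induction l with
  | nil => intro v w _ _; simp
  | cons d l ih =>
    rintro v w ⟨u, h, h'⟩ hr
    cases l with
    | nil => simp
    | cons d' l =>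
      rw [isReduced_cons_cons] at hr
      have := ih h' hr.2
      simp only [List.map_cons] at this ⊢
      rw [isReduced_cons_cons]
      refine ⟨fun e => ?_, this⟩
      simp only at e ⊢
      by_contra hne
      obtain ⟨u', k, -⟩ := h'
      have e2 : d'.2 = !d.2 := by
        cases hd : d.2 <;> cases hd' : d'.2 <;> simp_all
      have k1 := h1 _ _ _ k
      have k2 := Γ₀.symm (h1 _ _ _ h)
      rw [← e, e2] at k1
      obtain rfl := Γ₀.det k1 k2
      have := h2 _ _ _ _ k (Γ.symm h) (by simp [e, e2])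
      exact hne (hr.1 (by rw [this]))

theorem girth_forget {g} (hg : Γ₀.Girth g) : Γ.Girth g := by
  intro v l hl hne hw
  simpa using hg v _ (red_forget h1 h2 hw hl) (by simpa using hne) (walk_forget h1 hw)

theorem pieces_forget {L} (hg : Γ₀.Pieces L) : Γ.Pieces L := by
  intro v v' l w w' hl hw hw' hlen
  exact hg v v' _ w w' (red_forget h1 h2 hw hl) (walk_forget h1 hw) (walk_forget h1 hw')
    (by simpa using hlen)

end relabel

theorem num_ineq (q a g nI : ℕ) (hq : 2 ≤ q) (h : 428 + 6 * a + 4 * g < 100 * a)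
    (hI : nI * 2 ≤ q ^ (a + 1)) (R : ℕ) (hR : R = 2 * (q + 1) ^ g + 201) :
    (100 + 1) * ((nI * (q ^ a * q ^ a * (2 * R))) ^ 2 * (4 * q) ^ (100 + 1) * (2 * R) ^ 100) <
      (q ^ a * R) ^ 100 := by
  have hR0 : 0 < R := by omega
  have h8 : 256 ≤ q ^ 8 := le_trans (by norm_num) (Nat.pow_le_pow_left hq 8)
  have h7 : 101 ≤ q ^ 7 := le_trans (by norm_num) (Nat.pow_le_pow_left hq 7)
  have h2 : 4 * q ≤ q ^ 3 := by nlinarith [Nat.pow_le_pow_left hq 2]
  have hR1 : R ≤ q ^ (2 * g + 8) := by
    have : (q + 1) ^ g ≤ q ^ (2 * g) := by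
      rw [pow_mul]; exact Nat.pow_le_pow_left (by nlinarith) g
    have h0 : 1 ≤ q ^ (2 * g) := Nat.one_le_pow _ _ (by omega)
    rw [pow_add]
    nlinarith
  have hV : nI * (q ^ a * q ^ a * (2 * R)) ≤ q ^ (3 * a + 9 + 2 * g) := by
    calc nI * (q ^ a * q ^ a * (2 * R)) = (nI * 2) * q ^ a * q ^ a * R := by ring
      _ ≤ q ^ (a + 1) * q ^ a * q ^ a * q ^ (2 * g + 8) := by gcongr
      _ = _ := by rw [← pow_add, ← pow_add, ← pow_add]; congr 1; ring
  rw [mul_pow 2 R, mul_pow _ R, ← mul_assoc, ← mul_assoc]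
  refine Nat.mul_lt_mul_of_pos_right ?_ (pow_pos hR0 _)
  calc (100 + 1) * ((nI * (q ^ a * q ^ a * (2 * R))) ^ 2 * (4 * q) ^ (100 + 1)) * 2 ^ 100
      ≤ q ^ 7 * ((q ^ (3 * a + 9 + 2 * g)) ^ 2 * (q ^ 3) ^ (100 + 1)) * q ^ 100 := by gcongr
    _ = q ^ (428 + 6 * a + 4 * g) := by
        rw [← pow_mul, ← pow_mul, ← pow_add, ← pow_add, ← pow_add]; congr 1; ring
    _ < (q ^ a) ^ 100 := by
        rw [← pow_mul]; exact Nat.pow_lt_pow_right (by omega) (by omega)

/-- the graph whose links are lines. `Y` is a set of layers. -/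
theorem exists_line_graph {k I Y : Type} [Field k] [Fintype k] [Fintype I] [Fintype Y]
    [Inhabited I] [Inhabited Y] (a g : ℕ) (h : 428 + 6 * a + 4 * g < 100 * a) (hg : 610 < g)
    (e : k × (Fin a → k) ≃ I × Bool) (hY : Fintype.card Y ≤ Fintype.card I) :
    ∃ (V : Type) (_ : Fintype V) (lay : V → Y) (ty : V → (Fin a → k) × (Fin a → k))
      (Γ : LG I V),
      (∀ v d u, Γ.E v d u → lay v = lay u) ∧
      (∀ v d, (∃ u, Γ.E v d u) ↔ ∃ t : k, d = e (t, (ty v).2 + t • (ty v).1)) ∧
      (∀ y l, ∃ v v', v ≠ v' ∧ lay v = y ∧ lay v' = y ∧ ty v = l ∧ ty v' = l) ∧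
      Γ.Girth g ∧ Γ.Pieces 304 := by
  classical
  set q := Fintype.card k with hq
  have hq2 : 2 ≤ q := Fintype.one_lt_card
  obtain ⟨R, hR⟩ : ∃ R, R = 2 * (q + 1) ^ g + 201 := ⟨_, rfl⟩
  let Λ := (Fin a → k) × (Fin a → k)
  let V := Y × Λ × Fin (2 * R)
  let _ : Inhabited V := ⟨(default, (0, 0), ⟨0, by omega⟩)⟩
  let line : Λ → Finset (I × Bool) := fun l => Finset.univ.image fun t : k => e (t, l.2 + t • l.1)
  have hmem : ∀ l d, d ∈ line l ↔ (e.symm d).2 = l.2 + (e.symm d).1 • l.1 := by
    intro l d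
    simp only [line, Finset.mem_image, Finset.mem_univ, true_and]
    constructor
    · rintro ⟨t, rfl⟩; simp
    · intro h; exact ⟨(e.symm d).1, by rw [← h]; simp⟩
  have hslot : ∀ y d, (slot (fun v : V => line v.2.1) (fun v => v.1) y d).card = q ^ a * (2 * R) := by
    intro y d
    have : (slot (fun v : V => line v.2.1) (fun v => v.1) y d) =
        Finset.univ.image fun z : (Fin a → k) × Fin (2 * R) =>
          ((y, (z.1, (e.symm d).2 - (e.symm d).1 • z.1), z.2) : V) := by
      ext ⟨y', ⟨α, β⟩, i⟩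
      simp only [slot, Finset.mem_filter, Finset.mem_univ, true_and, hmem, Finset.mem_image]
      constructor
      · rintro ⟨rfl, h⟩
        exact ⟨(α, i), by rw [h]; simp⟩
      · rintro ⟨z, hz⟩
        simp only [V, Λ, Prod.mk.injEq] at hz
        obtain ⟨rfl, ⟨rfl, rfl⟩, rfl⟩ := hz
        simp
    rw [this, Finset.card_image_of_injective]
    · simp [hq]
    · intro z z' hz
      simp only [V, Λ, Prod.mk.injEq] at hz
      exact Prod.ext hz.2.1.1 hz.2.2
  have hK : 1 ≤ q ^ a := Nat.one_le_pow _ _ (by omega)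
  have hI : Fintype.card I * 2 = q ^ (a + 1) := by
    have := Fintype.card_congr e
    simp only [Fintype.card_prod, Fintype.card_bool, Fintype.card_fun, Fintype.card_fin] at this
    rw [← this, pow_succ']
  obtain ⟨Γ, g1, g2, g3, g4⟩ := exists_graph (link := fun v : V => line v.2.1) (lay := fun v => v.1)
    (ty := fun v => v.2.1) (g := g) (w := q) (m := q ^ a * R) (M₀ := 2 * R) (L₀ := 100)
    (fun v => Finset.card_image_le.trans (by simp [hq]))
    (by
      rintro ⟨y, ⟨α, β⟩, i⟩ ⟨y', ⟨α', β'⟩, i'⟩ d d' hne k1 k2 k3 k4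
      simp only [hmem] at k1 k2 k3 k4
      have ht : (e.symm d).1 ≠ (e.symm d').1 := by
        intro ht
        apply hne
        apply e.symm.injective
        exact Prod.ext ht (by rw [k1, k2, ht])
      have hα : α = α' := by
        have : ((e.symm d).1 - (e.symm d').1) • (α - α') = 0 := by
          rw [smul_sub, sub_smul, sub_smul]
          have e1 := k1.symm.trans k3
          have e2 := k2.symm.trans k4
          linear_combination (exp := 1) e1 - e2
        exact sub_eq_zero.1 ((smul_eq_zero.1 this).resolve_left (sub_ne_zero.2 ht))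
      subst hα
      have := k1.symm.trans k3
      simp only [add_left_inj] at this
      simp [this])
    (fun y j => by rw [hslot, hslot])
    (fun y d => by rw [hslot]; nlinarith)
    (fun y d => by rw [hslot]; nlinarith)
    (fun y l => by
      refine (Finset.card_le_card_of_injOn (t := (Finset.univ : Finset (Fin (2 * R))))
        (fun v => v.2.2) (by simp) ?_).trans (by simp)
      rintro ⟨y₁, l₁, i₁⟩ k1 ⟨y₂, l₂, i₂⟩ k2 (rfl : i₁ = i₂)
      simp only [cls, Finset.coe_filter, Finset.mem_univ, true_and, Set.mem_ofPred_eq] at k1 k2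
      rw [k1.1, k1.2, k2.1, k2.2])
    (by norm_num) (by omega) (by omega)
    (by
      have := num_ineq q a g (Fintype.card Y) hq2 h (by omega) R hR
      have hV : Fintype.card V = Fintype.card Y * (q ^ a * q ^ a * (2 * R)) := by
        simp [V, Λ, hq]
      rw [hV]
      exact this)
  refine ⟨V, inferInstance, fun v => v.1, fun v => v.2.1, Γ, fun v d u k => (g1 v d u k).1,
    fun v d => ⟨fun ⟨u, k⟩ => ?_, fun ⟨t, ht⟩ => g2 v d ?_⟩, fun y l => ?_, g3, g4⟩
  · obtain ⟨t, -, ht⟩ := Finset.mem_image.1 (g1 v d u k).2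
    exact ⟨t, ht.symm⟩
  · exact Finset.mem_image.2 ⟨t, Finset.mem_univ _, ht.symm⟩
  · exact ⟨(y, l, ⟨0, by omega⟩), (y, l, ⟨1, by omega⟩), by simp [V], rfl, rfl, rfl, rfl⟩

/-- the dimension count. -/
theorem dim_count {Q k I : Type} [Group Q] [Fintype Q] [Field k] [Fintype I]
    (x h : I → Q) (hh : ∀ i, h i ≠ 1) (Z : Submodule k (I × Bool → k))
    (hZ : 3 * (Fintype.card I * 2) < 4 * Module.finrank k Z)
    (H : ∀ f : I → Q → k,
      (∀ q, (fun d : I × Bool => if d.2 then f d.1 q else f d.1 (q * (x d.1)⁻¹)) ∈ Z) →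
      ∀ i q, f i (q * h i) = f i q) : False := by
  classical
  let F : Q → (I → Q → k) →ₗ[k] (I × Bool → k) := fun q =>
    { toFun := fun f d => if d.2 then f d.1 q else f d.1 (q * (x d.1)⁻¹)
      map_add' := fun f f' => by funext d; by_cases hd : d.2 <;> simp [hd]
      map_smul' := fun c f => by funext d; by_cases hd : d.2 <;> simp [hd] }
  let T : (I → Q → k) →ₗ[k] (Q → (I × Bool → k) ⧸ Z) := LinearMap.pi fun q => Z.mkQ ∘ₗ F q
  have h1 := LinearMap.finrank_range_add_finrank_ker T
  have h2 : Module.finrank k (LinearMap.range T) ≤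
      Fintype.card Q * Module.finrank k ((I × Bool → k) ⧸ Z) := by
    refine (Submodule.finrank_le _).trans ?_
    rw [Module.finrank_pi_fintype]; simp
  have h3 := Z.finrank_quotient_add_finrank
  have h4 : Module.finrank k (I → Q → k) = Fintype.card I * Fintype.card Q := by
    rw [Module.finrank_pi_fintype]; simp
  have h5 : Module.finrank k (I × Bool → k) = Fintype.card I * 2 := by simp
  let S : LinearMap.ker T →ₗ[k] ((Σ i, Q ⧸ Subgroup.zpowers (h i)) → k) :=
    { toFun := fun f c => f.1 c.1 c.2.out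
      map_add' := fun f f' => rfl
      map_smul' := fun c f => rfl }
  have hS : Function.Injective S := by
    rw [injective_iff_map_eq_zero]
    rintro ⟨f, hf⟩ h0
    have hinv := H f fun q => by
      have := congrFun (LinearMap.mem_ker.1 hf) q
      exact (Submodule.Quotient.mk_eq_zero Z).1 this
    have hpow : ∀ i (n : ℕ) q, f i (q * h i ^ n) = f i q := by
      intro i n
      induction n with
      | zero => simp
      | succ n ih => intro q; rw [pow_succ, ← mul_assoc, hinv, ih]
    apply Subtype.ext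
    funext i q
    obtain ⟨⟨z, hz⟩, e⟩ := QuotientGroup.mk_out_eq_mul (Subgroup.zpowers (h i)) q
    obtain ⟨n, rfl⟩ := mem_powers_iff_mem_zpowers.2 hz
    have := congrFun h0 ⟨i, QuotientGroup.mk q⟩
    simp only [S, LinearMap.coe_mk, AddHom.coe_mk, e, hpow] at this
    exact this
  have h6 := LinearMap.finrank_le_finrank_of_injective hS
  rw [Module.finrank_fintype_fun_eq_card, Fintype.card_sigma] at h6
  have h7 : ∀ i, 2 * Fintype.card (Q ⧸ Subgroup.zpowers (h i)) ≤ Fintype.card Q := by
    intro i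
    have e := Subgroup.card_eq_card_quotient_mul_card_subgroup (Subgroup.zpowers (h i))
    have : 1 < Nat.card (Subgroup.zpowers (h i)) := by
      rw [Finite.one_lt_card_iff_nontrivial]
      exact ⟨⟨⟨h i, Subgroup.mem_zpowers _⟩, 1, fun e => hh i (congrArg Subtype.val e)⟩⟩
    rw [← Nat.card_eq_fintype_card, ← Nat.card_eq_fintype_card, e]
    nlinarith
  have h8 : 2 * ∑ i, Fintype.card (Q ⧸ Subgroup.zpowers (h i)) ≤ Fintype.card I * Fintype.card Q := by
    rw [Finset.mul_sum]
    exact (Finset.sum_le_card_nsmul _ _ _ fun i _ => h7 i).trans (by simp)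
  have h9 : 0 < Fintype.card Q := Fintype.card_pos
  rw [h4] at h1
  rw [h5] at h3
  have h10 : 2 * Module.finrank k ((I × Bool → k) ⧸ Z) + 1 ≤ Fintype.card I := by omega
  have := Nat.mul_le_mul_left (Fintype.card Q) h10
  nlinarith

end Crest.Agent.H6.SC
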