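import Crest.Agent.Lead.ZT0

/-! The Cayley complex of a triangle presentation: construction and coordinate functions. -/

namespace Crest.Agent.H6.ZT

open unitInterval Crest.Agent.Lead.ZT Set

/-- finite CW structures from characteristic maps. -/
theorem exists_cw {X : Type} [TopologicalSpace X] [T2Space X] (cell : ℕ → Type)
    (f : ∀ n, cell n → (Fin n → ℝ) → X) (lab : X → Σ n, cell n) (d : ℕ)
    (hd : ∀ n, d < n → IsEmpty (cell n)) (hfin : ∀ n, Finite (cell n))
    (hc : ∀ n i, Continuous (f n i)) (hinj : ∀ n i, InjOn (f n i) (Metric.ball 0 1))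
    (hlab : ∀ n i, ∀ z ∈ Metric.ball 0 1, lab (f n i z) = ⟨n, i⟩)
    (hlt : ∀ n i, ∀ z ∉ Metric.ball 0 1, (lab (f n i z)).1 < n)
    (hsurj : ∀ x, ∃ z ∈ Metric.ball 0 1, f _ (lab x).2 z = x) :
    ∃ _ : Topology.CWComplex (univ : Set X), Topology.RelCWComplex.Finite (univ : Set X) ∧
      ∀ n, d < n → IsEmpty (Topology.RelCWComplex.cell (univ : Set X) n) := by
  let m : ∀ n, cell n → PartialEquiv (Fin n → ℝ) X := fun n i => (hinj n i).toPartialEquiv _ _
  have h1 : ∀ᶠ n in Filter.atTop, IsEmpty (cell n) := (Filter.eventually_gt_atTop d).mono hd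
  have h2 : ∀ n i, (m n i).source = Metric.ball 0 1 := fun _ _ => rfl
  have h3 : ∀ n i, ContinuousOn (m n i) (Metric.closedBall 0 1) := fun n i => (hc n i).continuousOn
  have h4 : ∀ n i, ContinuousOn (m n i).symm (m n i).target := by
    intro n i
    refine continuousOn_iff_isClosed.2 fun t ht => ⟨f n i '' (Metric.closedBall 0 1 ∩ t),
      (((isCompact_closedBall _ _).inter_right ht).image (hc n i)).isClosed, ?_⟩
    ext x
    constructor
    · rintro ⟨k1, k2⟩
      exact ⟨⟨_, ⟨Metric.ball_subset_closedBall ((m n i).map_target k2), k1⟩, (m n i).right_inv k2⟩, k2⟩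
    · rintro ⟨⟨z, ⟨-, k2⟩, rfl⟩, k3⟩
      refine ⟨?_, k3⟩
      have hz : z ∈ Metric.ball 0 1 := by
        by_contra hz
        obtain ⟨z', k4, k5⟩ := k3
        have := hlt n i z hz
        rw [← k5, hlab n i z' k4] at this
        exact lt_irrefl _ this
      exact mem_preimage.2 (((m n i).left_inv hz).symm ▸ k2)
  have h5 : (univ : Set (Σ n, cell n)).PairwiseDisjoint
      (fun ni => m ni.1 ni.2 '' Metric.ball 0 1) := by
    rintro ⟨n, i⟩ - ⟨n', i'⟩ - hne
    refine disjoint_left.2 ?_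
    rintro _ ⟨z, hz, rfl⟩ ⟨z', hz', e⟩
    exact hne ((hlab n i z hz).symm.trans ((congrArg lab e).symm.trans (hlab n' i' z' hz')))
  have h6 : ∀ n i, MapsTo (m n i) (Metric.sphere 0 1)
      (⋃ (k < n) (j : cell k), m k j '' Metric.closedBall 0 1) := by
    intro n i z hz
    obtain ⟨z', k1, k2⟩ := hsurj (f n i z)
    exact mem_iUnion₂.2 ⟨_, hlt n i z (fun h => (mem_ball_iff_norm.1 h).ne (mem_sphere_iff_norm.1 hz)),
      mem_iUnion.2 ⟨_, z', Metric.ball_subset_closedBall k1, k2⟩⟩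
  have h7 : ⋃ (n : ℕ) (j : cell n), m n j '' Metric.closedBall 0 1 = univ :=
    eq_univ_of_forall fun x => by
      obtain ⟨z', k1, k2⟩ := hsurj x
      exact mem_iUnion₂.2 ⟨_, _, z', Metric.ball_subset_closedBall k1, k2⟩
  exact ⟨Topology.CWComplex.mkFinite _ cell m h1 hfin h2 h3 h4 h5 h6 h7,
    Topology.CWComplex.finite_mkFinite _ cell m h1 hfin h2 h3 h4 h5 h6 h7, hd⟩

/-- the doubling maps. -/
noncomputable def d1 (a : I) : I := projIcc 0 1 zero_le_one (2 * a)
noncomputable def d2 (a : I) : I := projIcc 0 1 zero_le_one (2 * a - 1)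

theorem d1_eq {a t : I} (h : (t : ℝ) = 2 * a) : d1 a = t := by rw [d1, ← h, projIcc_val]
theorem d2_eq {a t : I} (h : (t : ℝ) = 2 * a - 1) : d2 a = t := by rw [d2, ← h, projIcc_val]
theorem d1_one {a : I} (h : 1 ≤ 2 * (a : ℝ)) : d1 a = 1 := projIcc_of_right_le _ h
theorem d2_zero {a : I} (h : 2 * (a : ℝ) ≤ 1) : d2 a = 0 := projIcc_of_le_left _ (by linarith)
@[fun_prop] theorem d1_cont : Continuous d1 := continuous_projIcc.comp (by fun_prop)
@[fun_prop] theorem d2_cont : Continuous d2 := continuous_projIcc.comp (by fun_prop)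

section general
variable {G S R : Type} [Group G] {gen : S → G} {rel : R → S × S × S} {E : Type}
  [TopologicalSpace E] (χ : CM gen rel E)

theorem bot_cases (r : R) (a : I) : (∃ t, ∀ g, χ.c2 g r (a, 0) = χ.c1 g (rel r).1 t) ∨
    ∃ t, ∀ g, χ.c2 g r (a, 0) = χ.c1 (g * gen (rel r).1) (rel r).2.1 t := by
  rcases le_total (2 * (a : ℝ)) 1 with h | h
  · exact .inl ⟨⟨2 * a, by linarith [a.2.1], h⟩, fun g => χ.c2_bot1 g r a _ rfl⟩
  · exact .inr ⟨⟨2 * a - 1, by linarith, by linarith [a.2.2]⟩, fun g => χ.c2_bot2 g r a _ rfl⟩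

variable {χ}

theorem ind (hU : Univ χ) {P : E → Prop} (h0 : ∀ g, P (χ.pt g)) (h1 : ∀ g s t, P (χ.c1 g s t))
    (h2 : ∀ g r a b, P (χ.c2 g r (a, 0)) → P (χ.c2 g r (a, 1)) → P (χ.c2 g r (a, b))) (x : E) :
    P x := by
  rcases hU.surj x with ⟨g, rfl⟩ | ⟨g, s, t, rfl⟩ | ⟨g, r, ⟨a, b⟩, rfl⟩
  · exact h0 g
  · exact h1 g s t
  · refine h2 g r a b ?_ (χ.c2_top g r a ▸ h1 _ _ _)
    rcases bot_cases χ r a with ⟨t, h⟩ | ⟨t, h⟩ <;> rw [h] <;> exact h1 _ _ _

/-- coordinate functions. -/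
theorem exists_fun (hU : Univ χ)
    (hrel : ∀ r, gen (rel r).1 * gen (rel r).2.1 = gen (rel r).2.2) (v : ℝ) (u : S → C(I, ℝ))
    (w : R → C(I × I, ℝ)) :
    ∃ Λ : (G → ℝ) → C(E, ℝ), (∀ β g, Λ β (χ.pt g) = v * β g) ∧
      (∀ β g s (t : I), Λ β (χ.c1 g s t) = v * ((1 - t) * β g + t * β (g * gen s)) +
        t * (1 - t) * u s t * β g) ∧
      ∀ β g r (a b : I), Λ β (χ.c2 g r (a, b)) = (1 - b) * Λ β (χ.c2 g r (a, 0)) +
        b * Λ β (χ.c2 g r (a, 1)) + a * (1 - a) * (b * (1 - b)) * w r (a, b) * β g := by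
  let f1 : (G → ℝ) → G → S → C(I, ℝ) := fun β g s =>
    ⟨fun t => v * ((1 - t) * β g + t * β (g * gen s)) + t * (1 - t) * u s t * β g, by fun_prop⟩
  have h0 : ∀ β g s, f1 β g s 0 = v * β g := by simp [f1]
  have h1 : ∀ β g s, f1 β g s 1 = v * β (g * gen s) := by simp [f1]
  let f : (G → ℝ) → CM gen rel ℝ := fun β =>
    { pt := fun g => v * β g
      c1 := f1 β
      c2 := fun g r => ⟨fun z => (1 - z.2) * (f1 β g (rel r).1 (d1 z.1) +
          f1 β (g * gen (rel r).1) (rel r).2.1 (d2 z.1) - v * β (g * gen (rel r).1)) +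
          z.2 * f1 β g (rel r).2.2 z.1 + z.1 * (1 - z.1) * (z.2 * (1 - z.2)) * w r z * β g,
          by fun_prop⟩
      c1_zero := h0 β
      c1_one := h1 β
      c2_left := fun g r b => by
        simp only [ContinuousMap.coe_mk, d1_eq (a := 0) (t := 0) (by simp),
          d2_zero (a := 0) (by simp), h0, Icc.coe_zero]
        ring
      c2_right := fun g r b => by
        simp only [ContinuousMap.coe_mk, d1_one (a := 1) (by simp),
          d2_eq (a := 1) (t := 1) (by norm_num), h1, Icc.coe_one, mul_assoc g, hrel]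
        ring
      c2_bot1 := fun g r a t h => by
        simp [d1_eq h, d2_zero (a := a) (h ▸ t.2.2), h0]
      c2_bot2 := fun g r a t h => by
        simp [d2_eq h, d1_one (a := a) (by linarith [t.2.1]), h1]
      c2_top := fun g r a => by simp }
  choose Λ k0 k1 k2 using fun β => hU.desc ℝ (f β)
  refine ⟨Λ, k0, k1, fun β g r a b => ?_⟩
  simp [k2, f]

end general

/-- points of the Cayley complex. -/
inductive Pt (G S R : Type) : Type
  | v (g : G)
  | e (g : G) (s : S) (t : I) (h : t ≠ 0 ∧ t ≠ 1)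
  | f (g : G) (r : R) (a b : I) (h : (a ≠ 0 ∧ a ≠ 1) ∧ b ≠ 0 ∧ b ≠ 1)

variable {G G' S R : Type} [Group G] [Group G'] (gen : S → G) (rel : R → S × S × S)

def Pt.map (φ : G → G') : Pt G S R → Pt G' S R
  | .v g => .v (φ g)
  | .e g s t h => .e (φ g) s t h
  | .f g r a b h => .f (φ g) r a b h

open Classical in
noncomputable def e1 (g : G) (s : S) (t : I) : Pt G S R :=
  if h : t ≠ 0 ∧ t ≠ 1 then .e g s t h else if t = 0 then .v g else .v (g * gen s)

open Classical in
noncomputable def e2 (g : G) (r : R) (z : I × I) : Pt G S R :=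
  if h : (z.1 ≠ 0 ∧ z.1 ≠ 1) ∧ z.2 ≠ 0 ∧ z.2 ≠ 1 then .f g r z.1 z.2 h
  else if z.2 = 0 then (if 2 * (z.1 : ℝ) ≤ 1 then e1 gen g (rel r).1 (d1 z.1)
    else e1 gen (g * gen (rel r).1) (rel r).2.1 (d2 z.1))
  else e1 gen g (rel r).2.2 z.1

theorem e1_zero (g : G) (s : S) : e1 (R := R) gen g s 0 = .v g := by simp [e1]
theorem e1_one (g : G) (s : S) : e1 (R := R) gen g s 1 = .v (g * gen s) := by simp [e1]

/-- the Cayley complex. -/
def Sp (_ : S → G) (_ : R → S × S × S) : Type := Pt G S R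

noncomputable instance : TopologicalSpace (Sp gen rel) :=
  (⨆ g, ⨆ s, TopologicalSpace.coinduced (e1 gen g s) inferInstance) ⊔
    ⨆ g, ⨆ r, TopologicalSpace.coinduced (e2 gen rel g r) inferInstance

theorem continuous_iff {Z : Type} [TopologicalSpace Z] {F : Sp gen rel → Z} :
    Continuous F ↔ (∀ g s, Continuous fun t => F (e1 gen g s t)) ∧
      ∀ g r, Continuous fun z => F (e2 gen rel g r z) :=
  continuous_sup_dom.trans (and_congr
    (continuous_iSup_dom.trans (forall_congr' fun _ => continuous_iSup_dom.trans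
      (forall_congr' fun _ => continuous_coinduced_dom)))
    (continuous_iSup_dom.trans (forall_congr' fun _ => continuous_iSup_dom.trans
      (forall_congr' fun _ => continuous_coinduced_dom))))

variable (hrel : ∀ r, gen (rel r).1 * gen (rel r).2.1 = gen (rel r).2.2)

noncomputable def cm : CM gen rel (Sp gen rel) where
  pt := .v
  c1 g s := ⟨e1 gen g s, ((continuous_iff gen rel).1 continuous_id).1 g s⟩
  c2 g r := ⟨e2 gen rel g r, ((continuous_iff gen rel).1 continuous_id).2 g r⟩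
  c1_zero := e1_zero gen
  c1_one := e1_one gen
  c2_left g r b := by simp [e2, d1_eq (a := 0) (t := 0) (by simp), e1_zero]
  c2_right g r b := by
    simp [e2, d2_eq (a := 1) (t := 1) (by norm_num), e1_one, mul_assoc, hrel]
  c2_bot1 g r a t h := by simp [e2, d1_eq h, show 2 * (a : ℝ) ≤ 1 from h ▸ t.2.2]
  c2_bot2 g r a t h := by
    by_cases h1 : 2 * (a : ℝ) ≤ 1
    · obtain rfl : t = 0 := Subtype.ext (by simp only [Icc.coe_zero]; linarith [t.2.1])
      simp [e2, h1, d1_one (a := a) (by simp at h; linarith), e1_one, e1_zero]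
    · simp [e2, h1, d2_eq h]
  c2_top g r a := by simp [e2]

theorem univ_cm : Univ (cm gen rel hrel) where
  surj := by
    rintro (g | ⟨g, s, t, h⟩ | ⟨g, r, a, b, h⟩)
    · exact .inl ⟨g, rfl⟩
    · exact .inr (.inl ⟨g, s, t, by simp [cm, e1, h]⟩)
    · exact .inr (.inr ⟨g, r, (a, b), by simp [cm, e2, h]⟩)
  desc Z _ f := by
    let F : Pt G S R → Z := fun x => match x with
      | .v g => f.pt g
      | .e g s t _ => f.c1 g s t
      | .f g r a b _ => f.c2 g r (a, b)
    have h1 : ∀ g s t, F (e1 gen g s t) = f.c1 g s t := by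
      intro g s t
      by_cases k0 : t = 0
      · rw [k0, e1_zero, f.c1_zero]
      by_cases k1 : t = 1
      · rw [k1, e1_one, f.c1_one]
      · rw [e1, dif_pos ⟨k0, k1⟩]
    have h2 : ∀ g r z, F (e2 gen rel g r z) = f.c2 g r z := by
      rintro g r ⟨a, b⟩
      rw [e2]
      split_ifs with k1 k2 k3
      · rfl
      · obtain rfl : b = 0 := k2
        rw [h1, f.c2_bot1 g r a ⟨2 * a, by linarith [a.2.1], k3⟩ rfl,
          d1_eq (t := ⟨2 * a, by linarith [a.2.1], k3⟩) rfl]
      · obtain rfl : b = 0 := k2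
        rw [h1, f.c2_bot2 g r a ⟨2 * a - 1, by linarith, by linarith [a.2.2]⟩ rfl,
          d2_eq (t := ⟨2 * a - 1, by linarith, by linarith [a.2.2]⟩) rfl]
      · rw [h1]
        by_cases k4 : a = 0
        · rw [k4, f.c1_zero, f.c2_left]
        by_cases k5 : a = 1
        · rw [k5, f.c1_one, f.c2_right]
        obtain rfl : b = 1 := by tauto
        rw [f.c2_top]
    exact ⟨⟨F, (continuous_iff gen rel).2 ⟨fun g s => by simp only [h1]; fun_prop,
      fun g r => by simp only [h2]; fun_prop⟩⟩, fun _ => rfl, h1, h2⟩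

variable {gen} {gen' : S → G'} {φ : G → G'} (hφ : ∀ g s, φ (g * gen s) = φ g * gen' s)
include hφ

theorem map_e1 (g s t) : (e1 (R := R) gen g s t).map φ = e1 gen' (φ g) s t := by
  unfold e1
  split_ifs <;> simp [Pt.map, hφ]

theorem map_e2 (g r z) : (e2 gen rel g r z).map φ = e2 gen' rel (φ g) r z := by
  unfold e2
  split_ifs
  · rfl
  all_goals simp only [map_e1 hφ, hφ]

theorem continuous_map : Continuous (X := Sp gen rel) (Y := Sp gen' rel) (Pt.map φ) :=
  (continuous_iff gen rel).2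
    ⟨fun g s => by
      simp only [map_e1 hφ]; exact ((continuous_iff gen' rel).1 continuous_id).1 (φ g) s,
     fun g r => by
      simp only [map_e2 rel hφ]; exact ((continuous_iff gen' rel).1 continuous_id).2 (φ g) r⟩

end Crest.Agent.H6.ZT
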